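import Vale.Agent.P042P.Frame
import Vale.Agent.P042PU.Rate
import Vale.Agent.P042.H74.SeamG
import Vale.Agent.P042.H383.OmP

set_option autoImplicit false

/-!
P042, prime arguments: the substitution and the auxiliary data for the pairs (polynomial, linear
form); the excluded residues.
-/

namespace Vale.Agent.P042P

open Polynomial Finset
open Vale.Agent.P042 (e)
open Vale.Agent.P042.H74 (qnul eval_dvd_congr)

/-! ### the substitution -/

theorem fer_eval (f : PL) (m : ℕ) (r x : ℤ) : (fer f m r).eval x = f.eval (m * x + r) :=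
  P042.H74.fer_eval f m r x

theorem fer_coeff (f : PL) (m : ℕ) (r : ℤ) (j : ℕ) :
    (fer f m r).coeff j = (taylor r f.toPolynomial).coeff j * (m : ℤ) ^ j :=
  P042.H74.fer_coeff f m r j

theorem fer_natDegree (f : PL) (m : ℕ) (hm : 1 ≤ m) (r : ℤ) :
    (fer f m r).natDegree = f.natDegree :=
  P042.H74.fer_natDegree f m hm r

theorem Gam0_fer (f : PL) {q1 q : ℕ} (hq : 1 ≤ q) (hc : Nat.Coprime q1 q) (z0 a : ℤ) :
    P042.SS.Gam (fer f q1 z0) a q = P042.SS.Gam f a q :=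
  P042.H74.Gam_fer f hq hc z0 a

theorem not_dvd_of_nonconst (f : PL) (q1 p : ℕ) (z0 : ℤ)
    (h : ∃ j : ℕ, 1 ≤ j ∧ ¬ (p : ℤ) ∣ (fer f q1 z0).coeff j) : ¬ p ∣ q1 :=
  P042.H74.not_dvd_of_nonconst f q1 p z0 h

theorem fer_const (f : PL) (q1 : ℕ) (z0 x : ℤ) :
    ((qnul f q1 z0 : ℕ) : ℤ) ∣ (fer f q1 z0).eval x - f.eval z0 :=
  P042.H74.fer_const f q1 z0 x

theorem deriv_fer_eval (f : PL) (q1 : ℕ) (z0 x : ℤ) :
    (derivative (fer f q1 z0).toPolynomial).eval x =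
      q1 * (derivative f.toPolynomial).eval (q1 * x + z0) :=
  P042.H74.deriv_fer_eval f q1 z0 x

theorem dvd_deriv_fer (f : PL) {p q1 : ℕ} (hp : p.Prime) (hc : ¬ p ∣ q1) (z0 z : ℤ) :
    ((p : ℤ) ∣ (derivative (fer f q1 z0).toPolynomial).eval z) ↔
      ((p : ℤ) ∣ (derivative f.toPolynomial).eval (q1 * z + z0)) :=
  P042.H74.dvd_deriv_fer f hp hc z0 z

theorem nonconst_fer (f : PL) {p q1 : ℕ} (hp : p.Prime) (hc : ¬ p ∣ q1) (z0 : ℤ)
    (h : ∃ j : ℕ, 1 ≤ j ∧ ¬ (p : ℤ) ∣ f.coeff j) :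
    ∃ j : ℕ, 1 ≤ j ∧ ¬ (p : ℤ) ∣ (fer f q1 z0).coeff j :=
  P042.H74.nonconst_fer f hp hc z0 h

/-! ### the excluded residues -/

theorem Lp_congr (f : PL) (p : ℕ) (a b : ℤ) (h : (p : ℤ) ∣ a - b) :
    (p : ℤ) ∣ (Lp f p).eval a ↔ (p : ℤ) ∣ (Lp f p).eval b := eval_dvd_congr _ p a b h

theorem dvd_v_fer (f : PL) {p q1 : ℕ} (hp : p.Prime) (hc : ¬ p ∣ q1) (z0 : ℤ) :
    (p : ℤ) ∣ (fer f q1 z0).v ↔ (p : ℤ) ∣ f.v := by
  rw [fer_v]
  refine ⟨fun h => ((Nat.prime_iff_prime_int.1 hp).dvd_or_dvd h).resolve_right fun h1 =>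
    hc (by exact_mod_cast h1), fun h => h.mul_right _⟩

theorem lin_fer (f : PL) (q1 : ℕ) (z0 z : ℤ) :
    (fer f q1 z0).u + (fer f q1 z0).v * z = f.u + f.v * (q1 * z + z0) := by
  rw [fer_u, fer_v]
  ring

theorem Lp_fer (f : PL) {p q1 : ℕ} (hp : p.Prime) (hc : ¬ p ∣ q1) (z0 z : ℤ) :
    (Lp (fer f q1 z0) p).eval z = (Lp f p).eval (q1 * z + z0) := by
  rw [Lp_eval, Lp_eval, lin_fer]
  simp only [dvd_v_fer f hp hc]

theorem wl_fer (f : PL) {p q1 : ℕ} (hp : p.Prime) (hc : ¬ p ∣ q1) (z0 : ℤ) :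
    wl (fer f q1 z0) p = wl f p := by
  unfold wl
  simp only [dvd_v_fer f hp hc]

/-- the excluded residues of the substituted pair -/
theorem dvd_Dp_fer (f : PL) {p q1 : ℕ} (hp : p.Prime) (hc : ¬ p ∣ q1) (z0 z : ℤ) :
    ((p : ℤ) ∣ (Dp (fer f q1 z0) p).eval z) ↔ ((p : ℤ) ∣ (Dp f p).eval (q1 * z + z0)) := by
  rw [dvd_Dp _ hp, dvd_Dp _ hp, dvd_deriv_fer f hp hc, Lp_fer f hp hc]

theorem dvd_Dp_of_deriv (f : PL) (p : ℕ) {z : ℤ}
    (h : (p : ℤ) ∣ (derivative f.toPolynomial).eval z) : (p : ℤ) ∣ (Dp f p).eval z := by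
  rw [Dp_eval]
  exact h.mul_right _

/-- at most one residue is excluded by the linear form -/
theorem card_Lp (f : PL) {p : ℕ} (hp : p.Prime) :
    ((range p).filter fun z : ℕ => (p : ℤ) ∣ (Lp f p).eval (z : ℤ)).card ≤ 1 := by
  refine card_le_one.2 fun a ha b hb => ?_
  rw [mem_filter, mem_range, dvd_Lp f hp] at ha hb
  have h1 : (p : ℤ) ∣ f.v * ((a : ℤ) - b) := by
    have h2 := dvd_sub ha.2.1 hb.2.1
    have : f.u + f.v * a - (f.u + f.v * b) = f.v * ((a : ℤ) - b) := by ring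
    rwa [this] at h2
  have h3 := ((Nat.prime_iff_prime_int.1 hp).dvd_or_dvd h1).resolve_left ha.2.2
  have h4 : a ≡ b [MOD p] := (Nat.modEq_iff_dvd.2 (by
    have := h3.neg_right
    rwa [neg_sub] at this))
  exact Nat.ModEq.eq_of_lt_of_lt h4 ha.1 hb.1

/-- at most `k` residues are excluded -/
theorem card_Dp (f : PL) {p : ℕ} (hp : p.Prime) (hk1 : 1 ≤ f.natDegree) (hkp : f.natDegree < p)
    (hnc : ∃ j : ℕ, 1 ≤ j ∧ ¬ (p : ℤ) ∣ f.coeff j) :
    ((range p).filter fun z : ℕ => (p : ℤ) ∣ (Dp f p).eval (z : ℤ)).card ≤ f.natDegree := by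
  have h1 := P042.H245.sing_card f f.natDegree p hp hk1 rfl hkp hnc
  have h2 := card_Lp f hp
  have h3 : ((range p).filter fun z : ℕ => (p : ℤ) ∣ (Dp f p).eval (z : ℤ)) ⊆
      ((range p).filter fun z : ℕ => (p : ℤ) ∣ (derivative f.toPolynomial).eval (z : ℤ)) ∪
        ((range p).filter fun z : ℕ => (p : ℤ) ∣ (Lp f p).eval (z : ℤ)) := by
    intro z hz
    rw [mem_filter, dvd_Dp f hp] at hz
    rw [mem_union, mem_filter, mem_filter]
    exact hz.2.imp (fun h => ⟨hz.1, h⟩) (fun h => ⟨hz.1, h⟩)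
  have h4 := (card_le_card h3).trans (card_union_le _ _)
  omega

/-! ### the weight at the primes outside the sieve -/

/-- the weight at one prime -/
noncomputable def uw1 (f : PL) (p : ℕ) (z : ℤ) : ℝ :=
  if (p : ℤ) ∣ (Lp f p).eval z then 0 else wl f p

theorem nu_eq (f : PL) (PP : Finset ℕ) (q : ℕ) (z : ℤ) :
    nu f PP q z = ∏ p ∈ q.primeFactors \ PP, uw1 f p z := rfl

theorem uw1_congr (f : PL) (p : ℕ) {a b : ℤ} (h : (p : ℤ) ∣ a - b) : uw1 f p a = uw1 f p b := by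
  unfold uw1
  simp only [Lp_congr f p a b h]

theorem wl_nonneg (f : PL) {p : ℕ} (hp : p.Prime) : 0 ≤ wl f p := by
  have h1 : (1 : ℝ) ≤ p := by exact_mod_cast hp.one_lt.le
  unfold wl
  split_ifs
  · exact zero_le_one
  · exact div_nonneg (by linarith) (by linarith)

theorem uw1_nonneg (f : PL) {p : ℕ} (hp : p.Prime) (z : ℤ) : 0 ≤ uw1 f p z := by
  unfold uw1
  split_ifs
  · exact le_rfl
  · exact wl_nonneg f hp

theorem uw1_of_dvd (f : PL) {p : ℕ} (hp : p.Prime) (h : (p : ℤ) ∣ f.v) (z : ℤ) :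
    uw1 f p z = 1 := by
  unfold uw1 wl
  rw [if_neg (fun h1 => ((dvd_Lp f hp z).1 h1).2 h), if_pos h]

theorem nu_nonneg (f : PL) (PP : Finset ℕ) (q : ℕ) (z : ℤ) : 0 ≤ nu f PP q z :=
  prod_nonneg fun _ hp => uw1_nonneg f (Nat.prime_of_mem_primeFactors (mem_sdiff.1 hp).1) z

theorem nu_congr (f : PL) (PP : Finset ℕ) (q : ℕ) {a b : ℤ}
    (h : ∀ p : ℕ, p.Prime → p ∣ q → p ∉ PP → ¬ (p : ℤ) ∣ f.v → (p : ℤ) ∣ a - b) :
    nu f PP q a = nu f PP q b := by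
  refine prod_congr rfl fun p hp => ?_
  have hp1 := Nat.prime_of_mem_primeFactors (mem_sdiff.1 hp).1
  by_cases hv : (p : ℤ) ∣ f.v
  · exact (uw1_of_dvd f hp1 hv a).trans (uw1_of_dvd f hp1 hv b).symm
  · exact uw1_congr f p (h p hp1 (Nat.dvd_of_mem_primeFactors (mem_sdiff.1 hp).1)
      (mem_sdiff.1 hp).2 hv)

theorem nu_per (f : PL) (PP : Finset ℕ) (q : ℕ) :
    P042.H74.Per q (fun z => (nu f PP q z : ℂ)) := by
  intro z
  simp only
  rw [nu_congr f PP q (a := z + q) (b := z) fun p _ hp _ _ => by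
    rw [add_sub_cancel_left]
    exact_mod_cast hp]

/-- the period of the weighted exponential -/
theorem ne_per (f : PL) (PP : Finset ℕ) (a : ℤ) (q : ℕ) (hq : 1 ≤ q) :
    P042.H74.Per q (fun z => (nu f PP q z : ℂ) * e (a * ((f.eval z : ℤ) : ℝ) / q)) :=
  (nu_per f PP q).mul (P042.H74.ef_per f a q hq)

theorem nu_mul (f : PL) (PP : Finset ℕ) {D1 D2 : ℕ} (hc : Nat.Coprime D1 D2) (z : ℤ) :
    nu f PP (D1 * D2) z = nu f PP D1 z * nu f PP D2 z := by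
  rw [nu_eq, nu_eq, nu_eq, hc.primeFactors_mul, union_sdiff_distrib,
    prod_union (hc.disjoint_primeFactors.mono sdiff_subset sdiff_subset)]

/-- the weight is one when the primes of `q` are sieved or divide `v` -/
theorem nu_one (f : PL) (PP : Finset ℕ) (q : ℕ)
    (h : ∀ p : ℕ, p.Prime → p ∣ q → p ∈ PP ∨ (p : ℤ) ∣ f.v) (z : ℤ) : nu f PP q z = 1 := by
  rw [nu_eq]
  refine prod_eq_one fun p hp => ?_
  rw [mem_sdiff] at hp
  have hp1 := Nat.prime_of_mem_primeFactors hp.1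
  exact uw1_of_dvd f hp1 ((h p hp1 (Nat.dvd_of_mem_primeFactors hp.1)).resolve_left hp.2) z

theorem nu_prime (f : PL) (PP : Finset ℕ) {p : ℕ} (hp : p.Prime) (hpP : p ∈ PP) (z : ℤ) :
    nu f PP p z = 1 :=
  nu_one f PP p (fun _ hl hd => Or.inl ((Nat.prime_dvd_prime_iff_eq hl hp).1 hd ▸ hpP)) z

theorem nu_coprime (f : PL) (PP : Finset ℕ) (q : ℕ) (h : ∀ p ∈ PP, ¬ p ∣ q) (z : ℤ) :
    nu f PP q z = nu f ∅ q z := by
  rw [nu_eq, nu_eq, sdiff_empty, sdiff_eq_self_of_disjoint]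
  exact disjoint_left.2 fun p hp hP => h p hP (Nat.dvd_of_mem_primeFactors hp)

/-! ### the auxiliary data -/

section
variable {h : PL} {lam : ℕ → ℕ} {r : ℕ → ℤ} {H : ℕ → PL} {R : ℕ}

theorem AuxData.hR (hA : AuxData h lam r H R) : 1 ≤ R := hA.old.hR

theorem AuxData.hH (hA : AuxData h lam r H R) (d : ℕ) (hd : 1 ≤ d) :
    C (lam d : ℤ) * (H d).toPolynomial = h.comp (C (r d) + C (d : ℤ) * X) := hA.old.hH d hd

theorem AuxData.hmul (hA : AuxData h lam r H R) (d q : ℕ) (hd : 1 ≤ d) (hq : 1 ≤ q) :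
    lam (d * q) = lam d * lam q := hA.old.hmul d q hd hq

theorem AuxData.hdvd (hA : AuxData h lam r H R) (d : ℕ) (hd : 1 ≤ d) :
    d ∣ lam d ∧ lam d ∣ d ^ h.natDegree := hA.old.hdvd d hd

theorem AuxData.hr (hA : AuxData h lam r H R) (d : ℕ) (hd : 1 ≤ d) :
    -(d : ℤ) < r d ∧ r d ≤ 0 := hA.old.hr d hd

theorem AuxData.hrr (hA : AuxData h lam r H R) (d q : ℕ) (hd : 1 ≤ d) (hq : 1 ≤ q) :
    (d : ℤ) ∣ r (d * q) - r d := hA.old.hrr d q hd hq

theorem AuxData.hgcd (hA : AuxData h lam r H R) (d : ℕ) (hd : 1 ≤ d) (g : ℤ)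
    (hg : ∀ j : ℕ, 1 ≤ j → g ∣ (H d).coeff j) : g ∣ (R : ℤ) := hA.old.hgcd d hd g hg

theorem AuxData.lam_pos (hA : AuxData h lam r H R) (d : ℕ) (hd : 1 ≤ d) : 1 ≤ lam d :=
  hA.old.lam_pos d hd

theorem AuxData.lam_le (hA : AuxData h lam r H R) (d : ℕ) (hd : 1 ≤ d) :
    lam d ≤ d ^ h.natDegree := hA.old.lam_le d hd

theorem AuxData.natDegree_H (hA : AuxData h lam r H R) (hk : 1 ≤ h.natDegree) (d : ℕ)
    (hd : 1 ≤ d) : (H d).natDegree = h.natDegree := hA.old.natDegree_H hk d hd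

theorem lam_one (hA : AuxData h lam r H R) : lam 1 = 1 := P042.H383.lam_one hA.old

theorem not_dvd_lam (hA : AuxData h lam r H R) {p D : ℕ} (hp : p.Prime) (hD : 1 ≤ D)
    (hpD : ¬ p ∣ D) : ¬ p ∣ lam D := P042.H383.not_dvd_lam hA.old hp hD hpD

/-- the auxiliary pairs on a sub-progression -/
theorem aux_comp2 (hA : AuxData h lam r H R) {d D : ℕ} (hd : 1 ≤ d) (hD : 1 ≤ D) :
    ∃ s : ℤ, (H d).comp (C s + C (D : ℤ) * X) = C (lam D : ℤ) * (H (d * D)).toPolynomial ∧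
      (H (d * D)).u = (H d).u + (H d).v * s ∧ (H (d * D)).v = (H d).v * D := by
  have hdD : 1 ≤ d * D := Nat.mul_pos hd hD
  obtain ⟨s, hs⟩ := hA.hrr d D hd hD
  have h5 : r (d * D) = r d + d * s := by linarith
  refine ⟨s, ?_, ?_, ?_⟩
  · have h1 := hA.hH (d * D) hdD
    have h2 := hA.hH d hd
    have h3 := congrArg (fun q : ℤ[X] => q.comp (C s + C (D : ℤ) * X)) h2
    simp only [mul_comp, C_comp, comp_assoc, add_comp, X_comp] at h3
    have h4 : C (r d) + C (d : ℤ) * (C s + C (D : ℤ) * X) =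
        C (r (d * D)) + C ((d * D : ℕ) : ℤ) * X := by
      rw [h5]
      push_cast
      simp only [map_add, map_mul]
      ring
    rw [h4, ← h1, hA.hmul d D hd hD] at h3
    have h6 : (C (lam d : ℤ) : ℤ[X]) ≠ 0 := by
      rw [Ne, C_eq_zero]
      have := hA.lam_pos d hd
      exact_mod_cast (by omega : lam d ≠ 0)
    apply mul_left_cancel₀ h6
    rw [h3]
    push_cast
    rw [map_mul]
    ring
  · rw [hA.hu _ hdD, hA.hu d hd, hA.hv d hd, h5]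
    ring
  · rw [hA.hv _ hdD, hA.hv d hd]
    push_cast
    ring

end

end Vale.Agent.P042P
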