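import Vale.Agent.P042PQ.H362StF
import Vale.Agent.P042.H103.MeiF

set_option autoImplicit false

/-!
P042, prime arguments: port of `P042.H103.MeiF` to the pairs (polynomial, linear form).
-/

set_option linter.unusedSectionVars false

namespace Vale.Agent.P042P.H103
open Vale.Agent.P042 hiding AuxData AuxData.lam_le AuxData.lam_pos AuxData.natDegree_H DiffFree
  rMax
open Vale.Agent.P042.H103 hiding mei_StF

open Finset Polynomial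
open Vale.Agent.P042.H945
open Vale.Agent.P042.H858
open Vale.Agent.P042.H461
open Vale.Agent.P042.H742

open Vale.Agent.P042.H599 (cm Law bwt FamOk)

open Vale.Agent.P042.H92 (Prm LF tF)

open Vale.Agent.P042.H362 (FP MF costF)
open Vale.Agent.P042P.H362 (StF1)

variable {κ' : Type} {W : Finset ℕ} {qs : FP} {fm : Vale.Agent.P042.H599.Fam κ'} {M : ℕ}
  {mu : ℕ → ℝ} {Dm Lq : ℝ}

variable {ι : Type*} [Fintype ι] [DecidableEq ι] {V : ι → Type*} [∀ i, Fintype (V i)]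
  [∀ i, DecidableEq (V i)] {q : ι → ℕ} {r : ∀ i, ℕ → V i} {f : PL}

/-- **`PLaw.mei` from the state at a thick cell** -/
theorem mei_StF (s : StF1 W qs fm f M mu Dm Lq) {Mm : ℕ} (hf : FamOk fm Mm)
    (hW : ∀ p ∈ W, 0 < p) (hbe : 0 ≤ qs.be)
    (hq : ∀ i, 0 < q i) (hc : Pairwise fun i j => (q i).Coprime (q j))
    (hqi : Function.Injective q) (hr : ∀ i n m, r i n = r i m ↔ n ≡ m [MOD q i])
    {D w u v : ℕ} (hD : 1 ≤ D) (hDD : Real.log D ≤ Dm) (hu : 1 ≤ u)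
    (hv : v ≤ M) (hMV : (M : ℝ) ≤ Real.exp Dm * ((v + 1 - u : ℕ) : ℝ))
    (hqD : ∀ i, (q i).Coprime D) {a0 a1 : ℝ} (ha00 : 0 ≤ a0) (ha0 : a0 ≤ Dm)
    (ha1 : a0 + coF W qs M D u v ≤ a1)
    (hthick : Real.exp (-a0) * ((v + 1 - u : ℕ) : ℝ) ≤ D * ms mu M (cl D w u v) * M)
    (Q : Prm) (S : Finset ι) (es : ι → ℝ)
    (hfam : ∀ m n : ℕ, 1 ≤ m → (m : ℝ) ≤ Real.exp (2 * Q.d1 * Q.p) → 1 ≤ n →
      n * Real.log 2 ≤ Q.C1 * Q.p + 1 → (∃ i ∈ S, es i ≤ n * Real.log 2) →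
      ∃ k ∈ fm.F, (∀ p ∈ fm.W k, p.Coprime D ∧ ∃ i, q i = p) ∧
        10 ≤ LF m n ∧ 40000 * LF m n ^ 2 ≤ fm.ω k * fm.K k ∧
        72 * a1 * LF m n ^ 2 ≤ fm.ω k * fm.K k ∧ 6 * LF m n ≤ Dm ∧
        (∃ q0, ∑ R ∈ (fm.W k).powerset with ¬ ∏ p ∈ R, p ≤ fm.B k, bwt (fm.t k) (fm.W k) R ≤ q0 ∧
          1408 * q0 * LF m n ≤ 1) ∧
        ∀ i ∈ S, es i ≤ n * Real.log 2 → q i ∈ fm.W k ∧
          H365.rate ((1 - Q.G) * Q.p) (es i) / ((m : ℝ) * n) ^ Q.CK ≤ fm.t k (q i)) :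
    ∀ m n : ℕ, 1 ≤ m → (m : ℝ) ≤ Real.exp (2 * Q.d1 * Q.p) → 1 ≤ n →
      n * Real.log 2 ≤ Q.C1 * Q.p + 1 →
      MEIK (tF Q S es m n) (1 / (704 * LF m n)) (1 / LF m n) (Real.exp (6 * LF m n))
        (pf r (Vale.Agent.P042.H945.rst mu M (cl D w u v)) 1 M) := by
  have hDp : (0 : ℝ) < D := by exact_mod_cast hD
  have hV := V_pos s.law hMV
  refine mei_plaw (mfld_of_MF s.mf) hf (fun p hp => ⟨hW p hp, by positivity⟩) s.law s.nn hq hc hqi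
    hr hD ((Real.log_le_iff_le_exp hDp).1 hDD) hu hv hMV hqD ha0 ha1 ?_ hthick Q S es hfam
  have := coF_nonneg (W := W) (M := M) (D := D) hbe hu hv hV
  linarith

end Vale.Agent.P042P.H103
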