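import Vale.Agent.P042PQ.H452Seam4
import Vale.Agent.P042.H944.TopRed

set_option autoImplicit false

/-!
P042, prime arguments: port of `P042.H944.TopRed` to the pairs (polynomial, linear form).
-/

namespace Vale.Agent.P042P.H944
open Vale.Agent.P042 hiding AuxData AuxData.lam_le AuxData.lam_pos AuxData.natDegree_H DiffFree
  rMax
open Vale.Agent.P042.H944 hiding FB_le top_red

open Polynomial Finset
open Vale.Agent.P042.SS hiding Gam
open Vale.Agent.P042.H74 hiding GamN GamN_coprime GamN_eq GamN_norm GamN_prime_norm GamN_tiny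
  GamN_zero GamN_zero_one GamW GamW_eq_avC GamW_split GamW_zero_one NS NS_fer Ram Ram_index
  Ram_mul Ram_one Ram_prime Ram_prod Ram_tiny Ram_tiny_zero Ram_zero Ram_zero_of_Wq Wq Wq_mul
  Wq_per Wq_zero Wq_zero_num Wq_zero_tiny avC_om avC_om_single deriv_fer_eval dns dns_fer dns_ge
  dns_pos dvd_deriv_fer fer fer_coeff fer_const fer_eval fer_natDegree kN kN_form kN_per
  multFam_GamN neg_one_le_kN nonconst_fer om om_ne_zero om_per om_union sum_Ram_full sum_Ram_index
  sum_Ram_tiny sum_Wq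
open Vale.Agent.P042P.H74

open Vale.Agent.P042.H461 (W ip Hc gm)

open Vale.Agent.P042P.H452 (FB)

section

variable {ι : Type*} [Fintype ι] [DecidableEq ι] {V : ι → Type*} [∀ i, Fintype (V i)]
  [∀ i, DecidableEq (V i)] {w : ∀ i, V i → ℝ} {red : ℤ → ∀ i, V i}

end

section

variable {ι : Type*} [Fintype ι] [DecidableEq ι] {V : ι → Type*} [∀ i, Fintype (V i)]
  [∀ i, DecidableEq (V i)] {w : ∀ i, V i → ℝ} {red : ℤ → ∀ i, V i}

omit [Fintype ι] [DecidableEq ι] [∀ i, Fintype (V i)] [∀ i, DecidableEq (V i)] in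
theorem FB_le (g : PL) (PP : Finset ℕ) (kw : ℕ → ℕ → ℝ)
    (hG : ∀ (q : ℕ) (a : ℤ), 1 ≤ q → IsCoprime a (q : ℤ) → ‖GamN g PP a q‖ ≤ kapProd kw q)
    (k : ∀ i, V i → V i → ℝ) (S1 S2 : Finset ℤ) (f f' : ℤ → ℝ) (B : Finset ι) {q : ℕ}
    (hq : 1 ≤ q) :
    ‖FB g PP S1 S2 f f' (fun i n m => k i (red n i) (red m i)) B q‖ ≤
      ∑ a ∈ (range q).filter (Nat.Coprime q), kapProd kw q *
        (|Xp red k S1 S2 (fun n => f n * (zc a q n).re) (fun m => f' m * (zc a q m).re) B| +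
          |Xp red k S1 S2 (fun n => f n * (zc a q n).im) (fun m => f' m * (zc a q m).im) B| +
          (|Xp red k S1 S2 (fun n => f n * (zc a q n).im) (fun m => f' m * (zc a q m).re) B| +
          |Xp red k S1 S2 (fun n => f n * (zc a q n).re) (fun m => f' m * (zc a q m).im) B|)) := by
  have h1 : FB g PP S1 S2 f f' (fun i n m => k i (red n i) (red m i)) B q =
      ∑ a ∈ (range q).filter (Nat.Coprime q), GamN g PP a q *
        ∑ n ∈ S1, ∑ m ∈ S2, ((f n * f' m * ∏ i ∈ B, k i (red n i) (red m i) : ℝ) : ℂ) *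
          (zc a q n * (starRingEnd ℂ) (zc a q m)) := by
    unfold FB Ram cR
    have h2 : ∀ n ∈ S1, ∀ m ∈ S2,
        ((f n * f' m * ∏ i ∈ B, k i (red n i) (red m i) : ℝ) : ℂ) *
          ∑ a ∈ (range q).filter (Nat.Coprime q),
            GamN g PP a q * e (-(((n - m : ℤ) : ℝ) * ((a : ℝ) / q))) =
        ∑ a ∈ (range q).filter (Nat.Coprime q), GamN g PP a q *
          (((f n * f' m * ∏ i ∈ B, k i (red n i) (red m i) : ℝ) : ℂ) *
          (zc a q n * (starRingEnd ℂ) (zc a q m))) := by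
      intro n _ m _
      rw [mul_sum]
      refine sum_congr rfl fun a _ => ?_
      rw [zc_pair]
      ring
    rw [sum_congr rfl fun n hn => sum_congr rfl fun m hm => h2 n hn m hm]
    rw [sum_congr rfl fun n _ => sum_comm, sum_comm]
    refine sum_congr rfl fun a _ => ?_
    rw [mul_sum]
    refine sum_congr rfl fun n _ => ?_
    rw [mul_sum]
  rw [h1]
  refine (norm_sum_le _ _).trans (sum_le_sum fun a ha => ?_)
  rw [norm_mul]
  have hcop : IsCoprime (a : ℤ) (q : ℤ) :=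
    Nat.isCoprime_iff_coprime.2 (mem_filter.1 ha).2.symm
  refine mul_le_mul (hG q a hq hcop) ?_ (norm_nonneg _) ((norm_nonneg _).trans (hG q a hq hcop))
  exact twist_le S1 S2 (fun n m => ∏ i ∈ B, k i (red n i) (red m i)) f f' (zc a q)

/-- **S.7, reduction to energies** -/
theorem top_red (g : PL) (PP : Finset ℕ) (kw : ℕ → ℕ → ℝ)
    (hG : ∀ (q : ℕ) (a : ℤ), 1 ≤ q → IsCoprime a (q : ℤ) → ‖GamN g PP a q‖ ≤ kapProd kw q)
    (h0 : ∀ i a, 0 ≤ w i a) (h1 : ∀ i, ∑ a, w i a = 1)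
    {k : ∀ i, V i → V i → ℝ} {c : ι → ℝ} {u u' : ∀ i, V i → ℝ} {s : ∀ i, V i → V i → ℝ}
    {rho e : ι → ℝ} (hK : H365.OB w k c u u' s rho e) (D : Finset (Finset ι))
    (hD : ∀ B ∈ D, ∀ C ⊆ B, C ∈ D) {S1 S2 : Finset ℤ} {f f' : ℤ → ℝ}
    (hw : ∀ n ∈ S1, f n ≠ 0 → W w (red n) ≠ 0) (hw' : ∀ n ∈ S2, f' n ≠ 0 → W w (red n) ≠ 0)
    (M2 : Finset ℕ) (hM2 : ∀ m ∈ M2, 1 ≤ m) (om : ℕ → ℝ) (hom : ∀ m ∈ M2, 0 ≤ om m) :
    ∑ B ∈ D, ∑ m2 ∈ M2,
        om m2 * ‖FB g PP S1 S2 f f' (fun i n m => k i (red n i) (red m i)) B m2‖ ≤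
      2 * Real.exp (2 * ∑ i, e i) *
        (Real.sqrt (Ytop w red rho D M2 (fun m => om m * kapProd kw m) S1 f) *
          Real.sqrt (Ytop w red rho D M2 (fun m => om m * kapProd kw m) S2 f')) := by
  have hkap : ∀ m ∈ M2, 0 ≤ kapProd kw m := fun m hm =>
    (norm_nonneg _).trans (hG m 1 (hM2 m hm) isCoprime_one_left)
  obtain ⟨E, hE⟩ : ∃ E, E = 2 * Real.exp (2 * ∑ i, e i) := ⟨_, rfl⟩
  have hE0 : 0 ≤ E := by
    rw [hE]
    positivity
  have hfour : ∀ a q : ℕ, ∑ B ∈ D,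
        (|Xp red k S1 S2 (fun n => f n * (zc a q n).re) (fun m => f' m * (zc a q m).re) B| +
          |Xp red k S1 S2 (fun n => f n * (zc a q n).im) (fun m => f' m * (zc a q m).im) B| +
          (|Xp red k S1 S2 (fun n => f n * (zc a q n).im) (fun m => f' m * (zc a q m).re) B| +
          |Xp red k S1 S2 (fun n => f n * (zc a q n).re) (fun m => f' m * (zc a q m).im) B|)) ≤
      E * (Real.sqrt (EngC w red rho D S1 f a q) *
        Real.sqrt (EngC w red rho D S2 f' a q)) := fun a q => by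
    rw [hE]
    exact four_le h0 h1 hK D hD hw hw' a q
  rw [← hE]
  -- exchange of the sums
  rw [sum_comm]
  have a1 : ∀ m2 ∈ M2, ∑ B ∈ D,
      om m2 * ‖FB g PP S1 S2 f f' (fun i n m => k i (red n i) (red m i)) B m2‖ ≤
      ∑ a ∈ (range m2).filter (Nat.Coprime m2), E *
        ((om m2 * kapProd kw m2) * (Real.sqrt (EngC w red rho D S1 f a m2) *
        Real.sqrt (EngC w red rho D S2 f' a m2))) := by
    intro m2 hm2
    rw [← mul_sum]
    have b1 : ∑ B ∈ D, ‖FB g PP S1 S2 f f' (fun i n m => k i (red n i) (red m i)) B m2‖ ≤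
        ∑ a ∈ (range m2).filter (Nat.Coprime m2), kapProd kw m2 *
          (E * (Real.sqrt (EngC w red rho D S1 f a m2) *
        Real.sqrt (EngC w red rho D S2 f' a m2))) := by
      refine (sum_le_sum fun B _ => FB_le g PP kw hG k S1 S2 f f' B (hM2 m2 hm2)).trans ?_
      rw [sum_comm]
      refine sum_le_sum fun a _ => ?_
      rw [← mul_sum]
      exact mul_le_mul_of_nonneg_left (hfour a m2) (hkap m2 hm2)
    refine (mul_le_mul_of_nonneg_left b1 (hom m2 hm2)).trans (le_of_eq ?_)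
    rw [mul_sum]
    refine sum_congr rfl fun a _ => ?_
    ring
  refine (sum_le_sum a1).trans ?_
  -- Cauchy-Schwarz over the pairs
  have a2 : ∑ m2 ∈ M2, ∑ a ∈ (range m2).filter (Nat.Coprime m2), E *
        ((om m2 * kapProd kw m2) * (Real.sqrt (EngC w red rho D S1 f a m2) *
        Real.sqrt (EngC w red rho D S2 f' a m2))) =
      E *
      ∑ t ∈ M2.sigma (fun m2 => (range m2).filter (Nat.Coprime m2)),
        (Real.sqrt ((om t.1 * kapProd kw t.1) * EngC w red rho D S1 f t.2 t.1) *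
        Real.sqrt ((om t.1 * kapProd kw t.1) * EngC w red rho D S2 f' t.2 t.1)) := by
    rw [sum_sigma, mul_sum]
    refine sum_congr rfl fun m2 hm2 => ?_
    rw [mul_sum]
    refine sum_congr rfl fun a _ => ?_
    have hv : 0 ≤ om m2 * kapProd kw m2 := mul_nonneg (hom m2 hm2) (hkap m2 hm2)
    simp only
    rw [Real.sqrt_mul hv, Real.sqrt_mul hv]
    have h5 : Real.sqrt (om m2 * kapProd kw m2) * Real.sqrt (om m2 * kapProd kw m2) =
      om m2 * kapProd kw m2 := Real.mul_self_sqrt hv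
    calc _ = E *
        ((Real.sqrt (om m2 * kapProd kw m2) * Real.sqrt (om m2 * kapProd kw m2)) *
        (Real.sqrt (EngC w red rho D S1 f a m2) * Real.sqrt (EngC w red rho D S2 f' a m2))) := by
          rw [h5]
      _ = _ := by ring
  rw [a2]
  refine mul_le_mul_of_nonneg_left ?_ hE0
  have a3 := Real.sum_mul_le_sqrt_mul_sqrt (M2.sigma (fun m2 => (range m2).filter (Nat.Coprime m2)))
    (fun t => Real.sqrt ((om t.1 * kapProd kw t.1) * EngC w red rho D S1 f t.2 t.1))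
    (fun t => Real.sqrt ((om t.1 * kapProd kw t.1) * EngC w red rho D S2 f' t.2 t.1))
  refine a3.trans (le_of_eq ?_)
  have a4 : ∀ (S : Finset ℤ) (f : ℤ → ℝ),
      ∑ t ∈ M2.sigma (fun m2 => (range m2).filter (Nat.Coprime m2)),
        Real.sqrt ((om t.1 * kapProd kw t.1) * EngC w red rho D S f t.2 t.1) ^ 2 =
      Ytop w red rho D M2 (fun m => om m * kapProd kw m) S f := by
    intro S f
    unfold Ytop
    rw [sum_sigma]
    refine sum_congr rfl fun m2 hm2 => ?_
    rw [mul_sum]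
    refine sum_congr rfl fun a _ => ?_
    exact Real.sq_sqrt (mul_nonneg (mul_nonneg (hom m2 hm2) (hkap m2 hm2))
      (EngC_nonneg h0 hK.rho0 D S f a m2))
  rw [a4, a4]

end

end Vale.Agent.P042P.H944
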