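import Vale.Agent.P042PQ.H85Dict
import Vale.Agent.P042PQ.H944TopRed
import Vale.Agent.P042.H121.F1d

set_option autoImplicit false

/-!
P042, prime arguments: port of `P042.H121.F1d` to the pairs (polynomial, linear form).
-/

set_option linter.unusedSectionVars false

namespace Vale.Agent.P042P.H121
open Vale.Agent.P042 hiding AuxData AuxData.lam_le AuxData.lam_pos AuxData.natDegree_H DiffFree
  rMax
open Vale.Agent.P042.H121 hiding f1_full f1d two_sides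

open Polynomial Finset
open Vale.Agent.P042.SS hiding Gam
open Vale.Agent.P042.H74 hiding GamN GamN_coprime GamN_eq GamN_norm GamN_prime_norm GamN_tiny
  GamN_zero GamN_zero_one GamW GamW_eq_avC GamW_split GamW_zero_one NS NS_fer Ram Ram_index
  Ram_mul Ram_one Ram_prime Ram_prod Ram_tiny Ram_tiny_zero Ram_zero Ram_zero_of_Wq Wq Wq_mul
  Wq_per Wq_zero Wq_zero_num Wq_zero_tiny avC_om avC_om_single deriv_fer_eval dns dns_fer dns_ge
  dns_pos dvd_deriv_fer fer fer_coeff fer_const fer_eval fer_natDegree kN kN_form kN_per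
  multFam_GamN neg_one_le_kN nonconst_fer om om_ne_zero om_per om_union sum_Ram_full sum_Ram_index
  sum_Ram_tiny sum_Wq
open Vale.Agent.P042P.H74

open Vale.Agent.P042.H461 (W ip Hc)

open Vale.Agent.P042.TT.Loc (uo mask restr nW)

open Vale.Agent.P042.UU.Loc (tr)

open Vale.Agent.P042.H944 (pF Eng EngC Ytop zc)

open Vale.Agent.P042.H452 (low)
open Vale.Agent.P042P.H452 (FB)

section

variable {ι : Type} [Fintype ι] [DecidableEq ι] {V : ι → Type} [∀ i, Fintype (V i)]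
  [∀ i, DecidableEq (V i)] {w : ∀ i, V i → ℝ} {red : ℤ → ∀ i, V i}

/-- the two sides, with arbitrary radii at the low sites and weights of the moduli -/
theorem two_sides (g : PL) (PP : Finset ℕ) (kw : ℕ → ℕ → ℝ)
    (hG : ∀ (q : ℕ) (a : ℤ), 1 ≤ q → IsCoprime a (q : ℤ) → ‖GamN g PP a q‖ ≤ kapProd kw q)
    (h0 : ∀ i a, 0 ≤ w i a) (h1 : ∀ i, ∑ a, w i a = 1)
    {k : ∀ i, V i → V i → ℝ} {c0 : ι → ℝ} {u u' : ∀ i, V i → ℝ} {s : ∀ i, V i → V i → ℝ}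
    {rho e : ι → ℝ} (hK : H365.OB w k c0 u u' s rho e) (D : Finset (Finset ι))
    (hD : ∀ B ∈ D, ∀ C ⊆ B, C ∈ D) {S1 S2 : Finset ℤ} {f f' : ℤ → ℝ}
    (hw : ∀ n ∈ S1, f n ≠ 0 → W w (red n) ≠ 0) (hw' : ∀ n ∈ S2, f' n ≠ 0 → W w (red n) ≠ 0)
    (M2 : Finset ℕ) (hM2 : ∀ m ∈ M2, 1 ≤ m) (om : ℕ → ℝ) (hom : ∀ m ∈ M2, 0 ≤ om m)
    (χ : ι → ℝ) (hχ : ∀ i, 0 ≤ χ i) :
    ∑ B ∈ D, ∑ m2 ∈ M2, (∏ i ∈ B, χ i) *
        (om m2 * ‖FB g PP S1 S2 f f' (fun i n m => k i (red n i) (red m i)) B m2‖) ≤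
      2 * Real.exp (2 * ∑ i, χ i * e i) *
        (Real.sqrt (Ytop w red (fun i => χ i * rho i) D M2 (fun m => om m * kapProd kw m) S1 f) *
          Real.sqrt (Ytop w red (fun i => χ i * rho i) D M2
            (fun m => om m * kapProd kw m) S2 f')) := by
  have h := H944.top_red g PP kw hG h0 h1 (H779.Ab.Ll.OB_smul hK hχ) D hD hw hw' M2 hM2 om hom
  refine le_trans (le_of_eq ?_) h
  refine sum_congr rfl fun B _ => sum_congr rfl fun m2 _ => ?_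
  have e1 : FB g PP S1 S2 f f' (fun i n m => χ i * k i (red n i) (red m i)) B m2 =
      ((∏ i ∈ B, χ i : ℝ) : ℂ) *
        FB g PP S1 S2 f f' (fun i n m => k i (red n i) (red m i)) B m2 := by
    unfold H452.FB
    rw [mul_sum]
    refine sum_congr rfl fun n _ => ?_
    rw [mul_sum]
    refine sum_congr rfl fun n' _ => ?_
    rw [prod_mul_distrib]
    push_cast
    ring
  rw [e1, norm_mul, Complex.norm_real, Real.norm_eq_abs,
    abs_of_nonneg (prod_nonneg fun i _ => hχ i)]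
  ring

end

section reindex

variable {α : Type*} [Fintype α] [DecidableEq α] (lo : α → Prop) [DecidablePred lo]
  (prm : α → ℕ)

variable {lo} {prm}

end reindex

section final

variable {α J : Type} [Fintype α] [DecidableEq α] [Fintype J] [DecidableEq J]
  {ty : α → J} {lo : α → Prop} [DecidablePred lo] {prm : α → ℕ}
  {V : {i // lo i} → Type} [∀ i, Fintype (V i)] [∀ i, DecidableEq (V i)]
  {w : ∀ i, V i → ℝ} {red : ℤ → ∀ i, V i}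

/-- **F.F1d**: all typed sites, all super-moduli of `𝓜`, one vector of radii -/
theorem f1d (hp : ∀ i, (prm i).Prime) (hinj : Function.Injective prm)
    (g : PL) (PP : Finset ℕ) (kw : ℕ → ℕ → ℝ)
    (hG : ∀ (q : ℕ) (a : ℤ), 1 ≤ q → IsCoprime a (q : ℤ) → ‖GamN g PP a q‖ ≤ kapProd kw q)
    (h0 : ∀ i a, 0 ≤ w i a) (h1 : ∀ i, ∑ a, w i a = 1)
    {k : ∀ i, V i → V i → ℝ} {c0 : {i // lo i} → ℝ} {u u' : ∀ i, V i → ℝ}
    {s : ∀ i, V i → V i → ℝ} {rho e : {i // lo i} → ℝ} (hK : H365.OB w k c0 u u' s rho e)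
    {S1 S2 : Finset ℤ} {f f' : ℤ → ℝ}
    (hw : ∀ n ∈ S1, f n ≠ 0 → W w (red n) ≠ 0) (hw' : ∀ n ∈ S2, f' n ≠ 0 → W w (red n) ≠ 0)
    (m0 M0 : ℕ) {𝓜 : Finset ℕ} (h𝓜1 : ∀ m ∈ 𝓜, 1 ≤ m)
    (h𝓜 : ∀ m ∈ 𝓜, ∀ i, ¬ lo i → ¬ prm i ∣ m) {r : J → ℝ} (hr : ∀ j, 0 ≤ r j)
    {C0 gn U C1 : ℝ} {X Bl Bd : J → ℝ} (hC0 : 0 ≤ C0) (hgn : 0 ≤ gn) (hU : 0 ≤ U)
    (hBl0 : ∀ j, 0 ≤ Bl j)
    (hY : Ytop w red (fun i => r (ty i) * rho i) (low {i // lo i} m0) (M2f lo prm M0 𝓜)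
      (fun m => omr lo prm (fun i => r (ty i)) m * kapProd kw m) S1 f ≤
      2 * (C0 * gn * Real.exp (∑ j, X j * r j)) * (U * Real.exp (∑ j, Bl j * r j ^ 2) + 1))
    (hY' : Ytop w red (fun i => r (ty i) * rho i) (low {i // lo i} m0) (M2f lo prm M0 𝓜)
      (fun m => omr lo prm (fun i => r (ty i)) m * kapProd kw m) S2 f' ≤
      2 * (C0 * gn * Real.exp (∑ j, X j * r j)) * (U * Real.exp (∑ j, Bl j * r j ^ 2) + 1))
    (he : ∀ j, 2 * ∑ i : {i // lo i}, (if ty i = j then e i else 0) + X j ≤ Bd j)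
    (hBl : ∀ j, Bl j ≤ Bd j) (hC1 : 4 * C0 * (U + 1) ≤ Real.exp C1) :
    ∑ m ∈ 𝓜, ∑ B ∈ DDm lo prm m0 M0 m,
        ‖H85.FBa g PP S1 S2 f f' prm lo (fun i n m => k i (red n i) (red m i)) m B‖ *
          ∏ i ∈ B, r (ty i) ≤
      gn * Real.exp (C1 + ∑ j, Bd j * (r j + r j ^ 2)) := by
  have hD : ∀ B ∈ low {i // lo i} m0, ∀ C ⊆ B, C ∈ low {i // lo i} m0 := fun B hB C hC =>
    H452.mem_low.2 ((card_le_card hC).trans (H452.mem_low.1 hB))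
  have hM2 : ∀ m2 ∈ M2f lo prm M0 𝓜, 1 ≤ m2 := by
    intro m2 hm2
    obtain ⟨m, hm, T, _, _, rfl⟩ := mem_M2f.1 hm2
    exact Nat.mul_pos (prod_pos fun i _ => (hp i).pos) (h𝓜1 m hm)
  have h2 := two_sides g PP kw hG h0 h1 hK (low {i // lo i} m0) hD hw hw' (M2f lo prm M0 𝓜) hM2
    (omr lo prm fun i => r (ty i)) (fun m _ => omr_nonneg (fun i => hr _) m)
    (fun i => r (ty i)) (fun i => hr _)
  have h3 : ∑ m ∈ 𝓜, ∑ B ∈ DDm lo prm m0 M0 m,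
        ‖H85.FBa g PP S1 S2 f f' prm lo (fun i n m => k i (red n i) (red m i)) m B‖ *
          ∏ i ∈ B, r (ty i) =
      ∑ B ∈ low {i // lo i} m0, ∑ m2 ∈ M2f lo prm M0 𝓜, (∏ i ∈ B, r (ty i)) *
        (omr lo prm (fun i => r (ty i)) m2 *
          ‖FB g PP S1 S2 f f' (fun i n m => k i (red n i) (red m i)) B m2‖) := by
    rw [← reindex hp hinj m0 M0 h𝓜 (fun i => r (ty i))
      (fun C m2 => ‖FB g PP S1 S2 f f' (fun i n m => k i (red n i) (red m i)) C m2‖)]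
    refine sum_congr rfl fun m _ => sum_congr rfl fun B _ => ?_
    rw [mul_comm]
    rfl
  rw [h3]
  refine h2.trans ?_
  -- the square roots
  obtain ⟨x, hx⟩ : ∃ x, x = ∑ j, X j * r j := ⟨_, rfl⟩
  obtain ⟨y, hy⟩ : ∃ y, y = ∑ j, Bl j * r j ^ 2 := ⟨_, rfl⟩
  have hy0 : 0 ≤ y := hy ▸ sum_nonneg fun j _ => mul_nonneg (hBl0 j) (sq_nonneg _)
  rw [← hx, ← hy] at hY hY'
  have hb := yb_le (U := U) (x := x) hC0 hgn hy0
  obtain ⟨Yb, hYb⟩ : ∃ z, z = gn * (2 * C0 * (U + 1)) * Real.exp (x + y) := ⟨_, rfl⟩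
  have hYb0 : 0 ≤ Yb := by
    rw [hYb]
    positivity
  rw [← hYb] at hb
  have h4 := mul_le_mul (Real.sqrt_le_sqrt (hY.trans hb)) (Real.sqrt_le_sqrt (hY'.trans hb))
    (Real.sqrt_nonneg _) (Real.sqrt_nonneg _)
  rw [Real.mul_self_sqrt hYb0] at h4
  refine (mul_le_mul_of_nonneg_left h4 (by positivity)).trans ?_
  -- the exponents
  have h5 : 2 * ∑ i : {i // lo i}, r (ty i) * e i + x ≤ ∑ j, Bd j * r j := by
    have e1 : ∑ i : {i // lo i}, r (ty i) * e i =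
        ∑ j, r j * ∑ i : {i // lo i}, (if ty i = j then e i else 0) := by
      simp only [mul_sum, mul_ite, mul_zero]
      rw [sum_comm]
      refine sum_congr rfl fun i _ => ?_
      rw [sum_ite_eq]
      simp
    rw [e1, hx, mul_sum, ← sum_add_distrib]
    refine sum_le_sum fun j _ => ?_
    have := mul_le_mul_of_nonneg_right (he j) (hr j)
    linarith
  have h6 : y ≤ ∑ j, Bd j * r j ^ 2 := by
    rw [hy]
    exact sum_le_sum fun j _ => mul_le_mul_of_nonneg_right (hBl j) (sq_nonneg _)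
  have h7 : ∑ j, Bd j * (r j + r j ^ 2) = ∑ j, Bd j * r j + ∑ j, Bd j * r j ^ 2 := by
    rw [← sum_add_distrib]
    exact sum_congr rfl fun j _ => by ring
  calc 2 * Real.exp (2 * ∑ i : {i // lo i}, r (ty i) * e i) * Yb
      = gn * ((4 * C0 * (U + 1)) *
        Real.exp (2 * ∑ i : {i // lo i}, r (ty i) * e i + (x + y))) := by
        rw [hYb, Real.exp_add (2 * ∑ i : {i // lo i}, r (ty i) * e i)]
        ring
    _ ≤ gn * (Real.exp C1 * Real.exp (∑ j, Bd j * (r j + r j ^ 2))) := by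
        refine mul_le_mul_of_nonneg_left (mul_le_mul hC1 (Real.exp_le_exp.2 ?_)
          (Real.exp_pos _).le (Real.exp_pos _).le) hgn
        rw [h7]
        linarith
    _ = _ := by rw [Real.exp_add]

/-- **F.F1d, full form**: the numbers `F1Num` of `H258.NumD`, the two sides as `SideIn` -/
theorem f1_full (hp : ∀ i, (prm i).Prime) (hinj : Function.Injective prm)
    (g : PL) (PP : Finset ℕ) (kw : ℕ → ℕ → ℝ)
    (hG : ∀ (q : ℕ) (a : ℤ), 1 ≤ q → IsCoprime a (q : ℤ) → ‖GamN g PP a q‖ ≤ kapProd kw q)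
    (h0 : ∀ i a, 0 ≤ w i a) (h1 : ∀ i, ∑ a, w i a = 1)
    {k : ∀ i, V i → V i → ℝ} {c0 : {i // lo i} → ℝ} {u u' : ∀ i, V i → ℝ}
    {s : ∀ i, V i → V i → ℝ} {rho e : {i // lo i} → ℝ} (hK : H365.OB w k c0 u u' s rho e)
    {S1 S2 : Finset ℤ} {f f' : ℤ → ℝ}
    (hw : ∀ n ∈ S1, f n ≠ 0 → W w (red n) ≠ 0) (hw' : ∀ n ∈ S2, f' n ≠ 0 → W w (red n) ≠ 0)
    (m0 M0 : ℕ) {𝓜 : Finset ℕ} (h𝓜1 : ∀ m ∈ 𝓜, 1 ≤ m)
    (h𝓜 : ∀ m ∈ 𝓜, ∀ i, ¬ lo i → ¬ prm i ∣ m) {r : J → ℝ} (hr : ∀ j, 0 ≤ r j)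
    -- numbers
    {m d ns : ℕ} (hm : 1 ≤ m) {b γ ρ g0 Λ : ℝ} {sn : J → ℕ} {c ℓ : {i // lo i} → ℝ}
    (hc : ∀ i, 0 ≤ c i) {Rs : ℕ → ℝ}
    (N : H258.F1Num m b γ ρ g0 Λ sn (fun i : {i // lo i} => ty i) rho c ℓ r Rs ns m0 d)
    {C0 gn U C1 : ℝ} {X Bl Bd : J → ℝ} (hC0 : 0 ≤ C0) (hgn : 0 ≤ gn) (hU : 0 ≤ U)
    (hBl0 : ∀ j, 0 ≤ Bl j)
    (hs : SideIn m d w red (fun i => r (ty i) * rho i) c (M2f lo prm M0 𝓜)
      (fun m => omr lo prm (fun i => r (ty i)) m * kapProd kw m) C0 gn U (∑ j, X j * r j)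
      (∑ j, Bl j * r j ^ 2) S1 f)
    (hs' : SideIn m d w red (fun i => r (ty i) * rho i) c (M2f lo prm M0 𝓜)
      (fun m => omr lo prm (fun i => r (ty i)) m * kapProd kw m) C0 gn U (∑ j, X j * r j)
      (∑ j, Bl j * r j ^ 2) S2 f')
    (he : ∀ j, 2 * ∑ i : {i // lo i}, (if ty i = j then e i else 0) + X j ≤ Bd j)
    (hBl : ∀ j, Bl j ≤ Bd j) (hC1 : 4 * C0 * (U + 1) ≤ Real.exp C1) :
    ∑ m ∈ 𝓜, ∑ B ∈ DDm lo prm m0 M0 m,
        ‖H85.FBa g PP S1 S2 f f' prm lo (fun i n m => k i (red n i) (red m i)) m B‖ *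
          ∏ i ∈ B, r (ty i) ≤
      gn * Real.exp (C1 + ∑ j, Bd j * (r j + r j ^ 2)) := by
  have hrho : ∀ i : {i // lo i}, 0 ≤ r (ty i) * rho i := fun i =>
    mul_nonneg (hr _) (hK.rho0 i)
  have e2 : ∀ i : {i // lo i}, 2 * (r (ty i) * rho i) = 2 * rho i * r (ty i) := fun i => by ring
  have hr1 : ∀ i : {i // lo i}, (8 * m + 32) * (2 * (r (ty i) * rho i)) ≤ 1 := fun i => by
    rw [e2]
    exact N.r1 i
  have hs1 : ∀ i : {i // lo i}, (8 * m * (1 + c i)) ^ 2 * (2 * (r (ty i) * rho i)) ≤ 1 :=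
    fun i => by
      rw [e2]
      exact N.s1 i
  have hd : (m0 : ℝ) + 2 * ∑ i : {i // lo i}, (8 * m * (1 + c i)) ^ 2 *
      (2 * (r (ty i) * rho i)) ≤ d := by
    simp only [e2]
    exact N.hd
  have hkap : ∀ m2 ∈ M2f lo prm M0 𝓜, 0 ≤ omr lo prm (fun i => r (ty i)) m2 * kapProd kw m2 := by
    intro m2 hm2
    obtain ⟨m', hm', T, _, _, rfl⟩ := mem_M2f.1 hm2
    refine mul_nonneg (omr_nonneg (fun i => hr _) _) ((norm_nonneg _).trans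
      (hG _ 1 (Nat.mul_pos (prod_pos fun i _ => (hp i).pos) (h𝓜1 m' hm')) isCoprime_one_left))
  have hlow : ∀ B ∈ low {i // lo i} m0, B.card ≤ m0 := fun B hB => H452.mem_low.1 hB
  exact f1d hp hinj g PP kw hG h0 h1 hK hw hw' m0 M0 h𝓜1 h𝓜 hr hC0 hgn hU hBl0
    (side_exp m hm h0 h1 _ c hrho hc hr1 hs1 m0 d hd _ hlow S1 f _ _ hkap hC0 hgn hU hs)
    (side_exp m hm h0 h1 _ c hrho hc hr1 hs1 m0 d hd _ hlow S2 f' _ _ hkap hC0 hgn hU hs')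
    he hBl hC1

end final

end Vale.Agent.P042P.H121
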