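import Vale.Agent.P042PQ.H860Glue
import Vale.Agent.P042PQ.H944TopRed
import Vale.Agent.P042.H168.F1Law

set_option autoImplicit false

/-!
P042, prime arguments: port of `P042.H168.F1Law` to the pairs (polynomial, linear form).
-/

set_option linter.unusedSectionVars false

namespace Vale.Agent.P042P.H168
open Vale.Agent.P042 hiding AuxData AuxData.lam_le AuxData.lam_pos AuxData.natDegree_H DiffFree
  rMax
open Vale.Agent.P042.H168 hiding CellSt CellSt.N0 CellSt.cell_eq CellSt.cmass_eq CellSt.dens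
  CellSt.h00 CellSt.ms_pos qlc_cell thickG_cell

open Polynomial Finset
open Vale.Agent.P042.H461
open Vale.Agent.P042.H858

open Vale.Agent.P042.H599 (cm Law)

open Vale.Agent.P042.H945 (SM kl2 klc ms cl rst)

open Vale.Agent.P042.H779 (marg m1 phi)

open Vale.Agent.P042.H779.Ab (ce gdw Di Ref At)

open Vale.Agent.P042.H779.Ab.Ll (len ThickG)

open Vale.Agent.P042.H635 (lawc fcl)

open Vale.Agent.P042.H359 (cellZ cellZ_eq cmass cmass_eq redZ)

open Vale.Agent.P042.H739 (cell)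

open Vale.Agent.P042.H860 (rn)

section

variable {ι : Type} [Fintype ι] [DecidableEq ι] {qs : ι → ℕ} [∀ i, NeZero (qs i)]

end

/-- a cell of the state -/
structure CellSt (q : H362.FP) (W : Finset ℕ) (f : PL) (N : ℕ) (G : ℤ → ℝ) (mu : ℕ → ℝ)
    (Dm Lq : ℝ) (q0 : ℕ) (w : ZMod q0) (z h0 : ℕ) : Prop where
  hG : ∀ n : ℤ, G n = if 1 ≤ n then (N : ℝ) * mu n.toNat else 0
  one : H362.AtF W q f N mu Dm
  ql : H362.QL W q N mu Dm Lq
  hW : ∀ p ∈ W, p.Prime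
  hq0 : ∀ p ∈ W, ¬ p ∣ q0
  q01 : 1 ≤ q0
  zN : z + h0 ≤ N
  hN : N ≤ 100 * h0
  ma : (h0 : ℝ) / 2 ≤ q0 * cmass G q0 w z h0

section

variable {q : H362.FP} {W : Finset ℕ} {f : PL} {N : ℕ} {G : ℤ → ℝ} {mu : ℕ → ℝ} {Dm Lq : ℝ}
  {q0 : ℕ} {w : ZMod q0} {z h0 : ℕ}

theorem CellSt.N0 (h : CellSt q W f N G mu Dm Lq q0 w z h0) : (0 : ℝ) < N := by
  exact_mod_cast h.one.law.pos

theorem CellSt.h00 (h : CellSt q W f N G mu Dm Lq q0 w z h0) : 0 < h0 := by
  have := h.one.law.pos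
  have := h.hN
  omega

theorem CellSt.cell_eq (h : CellSt q W f N G mu Dm Lq q0 w z h0) :
    cell q0 w (z : ℤ) h0 = cellZ q0 w.val (z + 1) (z + h0) := by
  have : NeZero q0 := ⟨by have := h.q01; omega⟩
  exact cellZ_eq w z h0

theorem CellSt.cmass_eq (h : CellSt q W f N G mu Dm Lq q0 w z h0) :
    cmass G q0 w z h0 = N * ms mu N (cl q0 w.val (z + 1) (z + h0)) := by
  have : NeZero q0 := ⟨by have := h.q01; omega⟩
  exact H359.cmass_eq h.hG w h.zN

theorem CellSt.ms_pos (h : CellSt q W f N G mu Dm Lq q0 w z h0) :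
    0 < ms mu N (cl q0 w.val (z + 1) (z + h0)) := by
  have h1 := h.ma
  rw [h.cmass_eq] at h1
  have h2 : (0 : ℝ) < h0 := by exact_mod_cast h.h00
  rcases (H945.ms_nonneg h.one.law (cl q0 w.val (z + 1) (z + h0))).eq_or_lt with h3 | h3
  · rw [← h3, mul_zero, mul_zero] at h1
    linarith
  · exact h3

theorem CellSt.dens (h : CellSt q W f N G mu Dm Lq q0 w z h0) :
    -Real.log 2 ≤ Real.log (q0 * ms mu N (cl q0 w.val (z + 1) (z + h0)) * N / (h0 : ℝ)) := by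
  have h2 : (0 : ℝ) < h0 := by exact_mod_cast h.h00
  have h1 := h.ma
  rw [h.cmass_eq] at h1
  have h3 : (1 / 2 : ℝ) ≤ q0 * ms mu N (cl q0 w.val (z + 1) (z + h0)) * N / (h0 : ℝ) := by
    rw [le_div_iff₀ h2]
    calc 1 / 2 * (h0 : ℝ) = (h0 : ℝ) / 2 := by ring
      _ ≤ _ := h1
      _ = _ := by ring
  have h4 := Real.log_le_log (by norm_num) h3
  rw [one_div, Real.log_inv] at h4
  exact h4

/-- (QL) at the laws of all cells of density at least `exp (-Ds)` of the window -/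
theorem qlc_cell {g C1 : ℝ} (hg : 0 < g) (hg1 : g ≤ 1) (hC1 : 1 ≤ C1) :
    ∃ l0 : ℝ, ∀ {ι : Type} [Fintype ι] {q : H362.FP} {W : Finset ℕ} {f : PL} {N : ℕ}
      {G : ℤ → ℝ} {mu : ℕ → ℝ} {Dm Lq : ℝ} {q0 : ℕ} {w : ZMod q0} {z h0 : ℕ} {P : ℝ}
      {qs sc : ι → ℕ} {ns : ℕ} {γ A0 Λ Ds del QM : ℝ}, q.g = g → q.C1 = C1 → l0 ≤ Real.log P →
      CellSt q W f N G mu Dm Lq q0 w z h0 →
      LawNum q W N h0 q0 Dm Lq P qs sc ns γ A0 Λ Ds del QM →
      H743.QLc mu N W (fun p => (p : ℝ) ^ (-q.g)) (H743.cstF W q.be q.ga (cW q N h0))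
        (Real.exp Lq) Ds (h0 : ℝ) (z + 1) (z + h0) := by
  obtain ⟨l0, hl0⟩ := H743.qlc_thin hg hg1 hC1
  refine ⟨l0, ?_⟩
  intro ι _ q W f N G mu Dm Lq q0 w z h0 P qs sc ns γ A0 Λ Ds del QM eg eC hl H L
  subst eg eC
  have hP : 0 < P := lt_of_lt_of_le one_pos L.P1
  have hN0 := H.N0
  have hh0 : (0 : ℝ) < h0 := by exact_mod_cast H.h00
  have eV : z + h0 + 1 - (z + 1) = h0 := by omega
  have hDm0 : 0 ≤ Dm := le_trans (Real.log_nonneg (by norm_num)) L.D100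
  have hNh : (N : ℝ) ≤ 100 * h0 := by exact_mod_cast H.hN
  have h1 := qlc_of_ql (u := z + 1) (v := z + h0) H.hW H.ql H.one.law H.one.nn (by omega) H.zN
    hDm0 (by
      rw [eV]
      refine hNh.trans (mul_le_mul_of_nonneg_right ?_ hh0.le)
      calc (100 : ℝ) = Real.exp (Real.log 100) := (Real.exp_log (by norm_num)).symm
        _ ≤ _ := Real.exp_le_exp.2 L.D100)
  rw [eV] at h1
  have hbe := L.pin.be0
  have hcw : 0 ≤ cW q N h0 := by
    unfold cW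
    have h2 : Real.log (h0 : ℝ) ≤ Real.log N := by
      refine Real.log_le_log hh0 ?_
      have := H.zN
      exact_mod_cast (by omega : h0 ≤ N)
    have : 0 ≤ Real.log N - Real.log (h0 : ℝ) + 1 := by linarith
    exact mul_nonneg hbe this
  have h2 := hl0 (Real.log P) hl mu N H.one.law H.one.nn W H.hW L.Y H.one.atom
    (H743.cstF W q.be q.ga (cW q N h0)) (Real.exp Lq) Dm Ds (32 * Dm + Real.log 2) (z + 1)
    (z + h0) (by omega) (by
      have := Real.log_nonneg (by norm_num : (1 : ℝ) ≤ 2)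
      linarith) L.Ds0
    (fun n => by
      rw [le_div_iff₀ hN0, Real.exp_add, Real.exp_log (by norm_num)]
      have h3 := H.one.cap n
      linarith) (by
      rw [Real.exp_log hP]
      exact L.thin) (by
      rw [Real.exp_log hP]
      exact L.NP) (by
      rw [Real.exp_log hP, eV]
      exact L.VP) L.Dm2 (fun D hD _ => H743.cstF_nonneg hbe hcw hD)
  rw [eV] at h2
  exact h2 h1

/-- **`ThickG` of all classes of all top moduli of a cell of the state** (the slot of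
`H635.sideIn_of`) -/
theorem thickG_cell {g C1 : ℝ} (hg : 0 < g) (hg1 : g ≤ 1) (hC1 : 1 ≤ C1) :
    ∃ l0 : ℝ, ∀ {ι : Type} [Fintype ι] [DecidableEq ι] {q : H362.FP} {W : Finset ℕ} {f : PL}
      {N : ℕ} {G : ℤ → ℝ} {mu : ℕ → ℝ} {Dm Lq : ℝ} {q0 : ℕ} {w : ZMod q0} {z h0 : ℕ} {P : ℝ}
      {qs sc : ι → ℕ} [∀ i, NeZero (qs i)] {ns : ℕ} {γ A0 Λ Ds del QM : ℝ}, q.g = g → q.C1 = C1 →
      l0 ≤ Real.log P → CellSt q W f N G mu Dm Lq q0 w z h0 →
      LawNum q W N h0 q0 Dm Lq P qs sc ns γ A0 Λ Ds del QM →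
      ∀ {τ : ℝ}, q.be ≤ τ → ∀ d : ℕ, 1 ≤ d → (d : ℝ) ≤ QM →
      (∀ p ∈ d.primeFactors, ¬ p ∣ q0 ∧ (∀ i, qs i ≠ p) ∧
        (p ∈ W → (p : ℝ) ^ (-q.ga) ≤ (τ - q.be) * Real.log p)) →
      ∀ z' : ℕ, ∑ n ∈ cell q0 w (z : ℤ) h0,
        fcl (fun n => G n / cmass G q0 w z h0) d (z' : ℤ) n ≠ 0 →
      ThickG (Real.log 2) γ A0 (fun i (x : ZMod (qs i)) => cm mu 1 N (qs i) x.val)
        (H743.uq (V := fun i => ZMod (qs i)) qs)
        (lawc (redZ qs) (cell q0 w (z : ℤ) h0)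
          (fcl (fun n => G n / cmass G q0 w z h0) d (z' : ℤ))) sc ns
        (fun i => Real.log (qs i)) Λ (H743.Lq q.g qs) (H743.Aq q.g qs)
        (H743.αq q.be q.ga qs) (fun i => (qs i : ℝ) ^ (-q.g)) 0 del
        (d * ∑ n ∈ cell q0 w (z : ℤ) h0,
          fcl (fun n => G n / cmass G q0 w z h0) d (z' : ℤ) n) (kapF q N h0 q0 τ d) := by
  obtain ⟨l0, hl0⟩ := qlc_cell hg hg1 hC1
  refine ⟨l0, ?_⟩
  intro ι _ _ q W f N G mu Dm Lq q0 w z h0 P qs sc _ ns γ A0 Λ Ds del QM eg eC hl H L τ hτ d hd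
    hdQ hdp z' hz'
  have hQL := hl0 eg eC hl H L
  have : NeZero q0 := ⟨by have := H.q01; omega⟩
  have hh0 : (0 : ℝ) < h0 := by exact_mod_cast H.h00
  have hN0 := H.N0
  have hbe := L.pin.be0
  have hcw : 0 ≤ cW q N h0 := by
    unfold cW
    have h2 : Real.log (h0 : ℝ) ≤ Real.log N := by
      refine Real.log_le_log hh0 ?_
      have := H.zN
      exact_mod_cast (by omega : h0 ≤ N)
    have : 0 ≤ Real.log N - Real.log (h0 : ℝ) + 1 := by linarith
    exact mul_nonneg hbe this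
  have hl2 : 0 ≤ Real.log 2 := Real.log_nonneg (by norm_num)
  have hcopd : Nat.Coprime q0 d := by
    refine Nat.Coprime.symm (Nat.coprime_of_dvd fun p hp hpd hpq => ?_)
    exact (hdp p (Nat.mem_primeFactors.2 ⟨hp, hpd, by omega⟩)).1 hpq
  have hqD : ∀ i, (qs i).Coprime (q0 * d) := by
    intro i
    have hp := L.pin.hW _ (L.pin.qW i)
    refine Nat.Coprime.mul_right ?_ ?_
    · exact (hp.coprime_iff_not_dvd).2 (H.hq0 _ (L.pin.qW i))
    · refine (hp.coprime_iff_not_dvd).2 fun h => ?_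
      exact (hdp (qs i) (Nat.mem_primeFactors.2 ⟨hp, h, by omega⟩)).2.1 i rfl
  have hκ := kap_le (be := q.be) (ga := q.ga) (cw := cW q N h0) (τ := τ) (hh := Real.log 2)
    H.hW H.q01 hd H.hq0 (fun p hp hpd =>
      (hdp p (Nat.mem_primeFactors.2 ⟨H.hW p hp, hpd, by omega⟩)).2.2 hp) hτ
  have hDM : (q0 : ℝ) * d * Real.exp (3 * Λ) ≤ Real.exp Lq := by
    refine le_trans ?_ L.DM
    refine mul_le_mul_of_nonneg_right ?_ (Real.exp_pos _).le
    exact mul_le_mul_of_nonneg_left hdQ (Nat.cast_nonneg _)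
  rw [H.cell_eq] at hz' ⊢
  have hmain := thickG_side (ι := ι) (V := fun i => ZMod (qs i)) (q := qs) (red := redZ qs)
    (f := fun n => G n / cmass G q0 w z h0) (sc := sc) (ns := ns) (Λ := Λ) (γ := γ) (A0 := A0)
    (g := q.g) (be := q.be) (ga := q.ga) (a := 0) (cw := cW q N h0) (Ds := Ds) (del := del)
    (Vv := (h0 : ℝ)) (DM := Real.exp Lq) (hh := Real.log 2) (κ := kapF q N h0 q0 τ d)
    H.hG H.one.law H.one.nn (ZMod.val_lt w) (by omega) H.zN H.ms_pos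
    (fun n => by rw [H.cmass_eq]) hd hcopd hqD
    (fun i n m => by rw [red_rn, red_rn]; exact rn_res i n m) (fun i => ZMod.card (qs i)) L.pin
    hcw hQL H.one.atom hh0 hl2 H.dens hκ L.del0 L.del1 L.delB hDM L.DsΛ (z' : ℤ) hz'
  have e1 : (fun (i : ι) (n : ℕ) => redZ qs (n : ℤ) i) = rn qs := by
    funext i n
    exact red_rn i n
  have e2 : (fun i => m1 (pf (fun (i : ι) (n : ℕ) => redZ qs (n : ℤ) i) mu 1 N) i) =
      fun i (x : ZMod (qs i)) => cm mu 1 N (qs i) x.val := by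
    funext i x
    rw [e1]
    exact m1_rn mu N i x
  rw [e2] at hmain
  exact hmain

end

end Vale.Agent.P042P.H168
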