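import Vale.Agent.P042PQ.H362HInst
import Vale.Agent.P042.H635.F1Core

set_option autoImplicit false

/-!
P042, prime arguments: port of `P042.H635.F1Core` to the pairs (polynomial, linear form).
-/

set_option linter.unusedSectionVars false

namespace Vale.Agent.P042P.H635
open Vale.Agent.P042 hiding AuxData AuxData.lam_le AuxData.lam_pos AuxData.natDegree_H DiffFree
  rMax
open Vale.Agent.P042.H635 hiding f1_core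

open Finset Polynomial
open Vale.Agent.P042.TT.Loc
open Vale.Agent.P042.UU.Loc

open Vale.Agent.P042.H461 (W)

open Vale.Agent.P042P.H74 (GamN)

open Vale.Agent.P042.H121 (SideIn M2f omr DDm)

open Vale.Agent.P042.H892 (LVNum)

open Vale.Agent.P042P.H85 (FBa)

open Vale.Agent.P042.H362 (MMt)

open Vale.Agent.P042.H779.Ab.Ll (ThickG)

/-- **the absolute bounds at one vector of radii** -/
theorem f1_core {b γ ρ A0 η : ℝ} (hb : 0 < b) (hγ : 0 < γ) (hρ : 8 * γ + ρ ≤ 3 * b / 8)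
    (hA : 1 ≤ A0) (hη : 0 < η) (hη1 : η ≤ 1) : ∃ s1 : ℕ, ∀ {α J J' : Type} [Fintype α]
    [DecidableEq α] [Fintype J] [DecidableEq J] [Fintype J'] [DecidableEq J']
    {ty : α → J} {lo : α → Prop} [DecidablePred lo] {prm : α → ℕ}
    {V : {i // lo i} → Type} [∀ i, Fintype (V i)] [∀ i, DecidableEq (V i)]
    {w w2 : ∀ i, V i → ℝ} {red : ℤ → ∀ i, V i},
    (∀ i, (prm i).Prime) → Function.Injective prm →
    (∀ i a, 0 ≤ w i a) → (∀ i, ∑ a, w i a = 1) →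
    ∀ (g : PL) (PP : Finset ℕ) {kw : ℕ → ℕ → ℝ},
    (∀ (q : ℕ) (a : ℤ), 1 ≤ q → IsCoprime a (q : ℤ) → ‖GamN g PP a q‖ ≤ kapProd kw q) →
    ∀ {k : ∀ i, V i → V i → ℝ} {c0 : {i // lo i} → ℝ} {u u' : ∀ i, V i → ℝ}
      {s : ∀ i, V i → V i → ℝ} {rho e : {i // lo i} → ℝ}, H365.OB w k c0 u u' s rho e →
    ∀ {m0 M0 : ℕ} {𝓜 : Finset ℕ}, (∀ m ∈ 𝓜, 1 ≤ m) →
    (∀ m ∈ 𝓜, ∀ i, ¬ lo i → ¬ prm i ∣ m) →
    -- the numbers of the low part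
    ∀ {sn : J → ℕ}, (∀ i : {i // lo i}, s1 ≤ sn (ty i)) →
    ∀ {m d ns : ℕ} {g0 Λ : ℝ} {c ℓ : {i // lo i} → ℝ} {r : J → ℝ} {Rs : ℕ → ℝ},
    1 ≤ m → (∀ i, 0 ≤ c i) → (∀ j, 0 ≤ r j) →
    H258.F1Num m b γ ρ g0 Λ sn (fun i : {i // lo i} => ty i) rho c ℓ r Rs ns m0 d →
    ∀ lm : ℝ, 0 ≤ lm → (∀ i, ℓ i ≤ lm) → 4 * (d * lm) ≤ Λ →
    -- the numbers of the top part
    ∀ {tyP : ℕ → Prop} [DecidablePred tyP] {Pr : Finset ℕ} {R : ℕ → ℝ}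
      {tyN : ℕ → J'} {ell' X' : J' → ℝ} {g1 N Y M : ℕ} {A1 τ Θ σ MT δ c4 t gn : ℝ},
    (∀ p, tyP p ↔ ∃ i, ¬ lo i ∧ prm i = p) → (∀ i, ¬ lo i → R (prm i) = r (ty i)) →
    LVNum tyP Pr kw R tyN ell' X' (M2f lo prm M0 𝓜) g1 N Y M A1 τ Θ σ MT δ c4 t gn →
    0 ≤ gn →
    -- the two windows
    ∀ {L A al lamf : {i // lo i} → ℝ} {a del G0 : ℝ} {κ : ℕ → ℝ},
    (∀ i, Real.exp (al i + A i) ≤ c i) → 0 ≤ G0 →
    ∀ {y1 y2 : ℤ} {S1 S2 : Finset ℤ} {f1 f2 : ℤ → ℝ},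
    SideLaw w w2 red b γ A0 m d ns (fun i : {i // lo i} => sn (ty i)) ℓ L A al lamf Λ a del G0 τ κ
      Pr MT Θ A1 M y1 S1 f1 →
    SideLaw w w2 red b γ A0 m d ns (fun i : {i // lo i} => sn (ty i)) ℓ L A al lamf Λ a del G0 τ κ
      Pr MT Θ A1 M y2 S2 f2 →
    -- the bounds
    ∀ {X Bd : J → ℝ} {C2 : ℝ}, ∑ j, X' j ≤ ∑ j, X j * r j →
    (∀ j, 2 * ∑ i : {i // lo i}, (if ty i = j then e i else 0) + X j ≤ Bd j) →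
    (∀ j, Real.exp (19 * γ * sn j) * (16 * m + 64) ^ 2 ≤ Bd j) →
    4 * (288 * (G0 ^ 2 + 1) * Real.exp 1) * (32 * Real.exp (2 * a + η) + 1) ≤ Real.exp C2 →
    ∑ m ∈ 𝓜, ∑ B ∈ DDm lo prm m0 M0 m,
        ‖FBa g PP S1 S2 f1 f2 prm lo (fun i n m => k i (red n i) (red m i)) m B‖ *
          ∏ i ∈ B, r (ty i) ≤
      gn * Real.exp (C2 + ∑ j, Bd j * (r j + r j ^ 2)) := by
  obtain ⟨s1, hs1⟩ := sideIn_of hb hγ hρ hA hη hη1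
  refine ⟨s1, ?_⟩
  intro α J J' _ _ _ _ _ _ ty lo _ prm V _ _ w w2 red hp hinj hw0 hw1 g PP kw hG k c0 u u' s rho e
    hK m0 M0 𝓜 h𝓜1 h𝓜 sn hsn m d ns g0 Λ c ℓ r Rs hm hc hr hN lm hlm hℓ hlen tyP _ Pr R tyN ell' X'
    g1 N Y M A1 τ Θ σ MT δ c4 t gn htyP hR hLV hgn L A al lamf a del G0 κ hcA hG0 y1 y2 S1 S2 f1 f2
    h1 h2 X Bd C2 hX he hBl hC2
  have hC0 : 0 ≤ 288 * (G0 ^ 2 + 1) * Real.exp 1 := by positivity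
  have e1 := hs1 hp hinj hw0 hw1 hsn hm hc hN lm hlm hℓ hlen htyP hR hLV h1.win h1.nn h1.ch h1.sup
    hcA hG0 h1.cell
  have e2 := hs1 hp hinj hw0 hw1 hsn hm hc hN lm hlm hℓ hlen htyP hR hLV h2.win h2.nn h2.ch h2.sup
    hcA hG0 h2.cell
  exact H121.f1_full hp hinj g PP kw hG hw0 hw1 hK h1.ch h2.ch m0 M0 h𝓜1 h𝓜 hr hm hc hN hC0 hgn
    (by positivity) (fun j => by positivity) (sideIn_mono hC0 hgn hX e1)
    (sideIn_mono hC0 hgn hX e2) he hBl hC2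

end Vale.Agent.P042P.H635
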