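import Vale.Agent.P042PQ.H168F1Law
import Vale.Agent.P042PQ.H635F1Core
import Vale.Agent.P042.H168.F1Side

set_option autoImplicit false

/-!
P042, prime arguments: port of `P042.H168.F1Side` to the pairs (polynomial, linear form).
-/

set_option linter.unusedSectionVars false

namespace Vale.Agent.P042P.H168
open Vale.Agent.P042 hiding AuxData AuxData.lam_le AuxData.lam_pos AuxData.natDegree_H DiffFree
  rMax
open Vale.Agent.P042.H168 hiding CellSt CellSt.G_nonneg CellSt.N0 CellSt.cell_eq CellSt.ch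
  CellSt.cm_nonneg CellSt.cmass_eq CellSt.cmass_pos CellSt.dens CellSt.f_nonneg CellSt.h00
  CellSt.ms_pos CellSt.sup cellSt_1 cellSt_2 cell_sub qlc_cell sideLaw_cell thickG_cell

open Polynomial Finset
open Vale.Agent.P042.H461
open Vale.Agent.P042.H858

open Vale.Agent.P042.H599 (cm Law)

open Vale.Agent.P042.H945 (SM kl2 klc ms cl rst)

open Vale.Agent.P042.H779 (marg m1 phi)

open Vale.Agent.P042.H779.Ab.Ll (len ThickG)

open Vale.Agent.P042.H635 (lawc fcl SideLaw)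

open Vale.Agent.P042.H359 (cellZ cellZ_eq cmass cmass_eq redZ)

open Vale.Agent.P042.H739 (cell)

open Vale.Agent.P042.H860 (rn)

section

variable {q : H362.FP} {W : Finset ℕ} {f : PL} {N : ℕ} {G : ℤ → ℝ} {mu : ℕ → ℝ} {Dm Lq : ℝ}
  {q0 : ℕ} {w : ZMod q0} {z h0 : ℕ}

theorem CellSt.G_nonneg (h : CellSt q W f N G mu Dm Lq q0 w z h0) (n : ℤ) : 0 ≤ G n := by
  rw [h.hG n]
  split_ifs
  · exact mul_nonneg h.N0.le (h.one.nn _)
  · exact le_rfl

theorem CellSt.cmass_pos (h : CellSt q W f N G mu Dm Lq q0 w z h0) :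
    0 < cmass G q0 w z h0 := by
  rw [h.cmass_eq]
  exact mul_pos h.N0 h.ms_pos

theorem CellSt.f_nonneg (h : CellSt q W f N G mu Dm Lq q0 w z h0) (n : ℤ) :
    0 ≤ G n / cmass G q0 w z h0 := div_nonneg (h.G_nonneg n) h.cmass_pos.le

theorem cell_sub (h : CellSt q W f N G mu Dm Lq q0 w z h0) :
    cell q0 w (z : ℤ) h0 ⊆ Ioc (z : ℤ) (z + h0) := by
  rw [h.cell_eq]
  intro n hn
  unfold H359.cellZ at hn
  obtain ⟨h1, _⟩ := mem_filter.1 hn
  obtain ⟨h2, h3⟩ := mem_Icc.1 h1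
  rw [mem_Ioc]
  push_cast at h2 h3
  exact ⟨by linarith, h3⟩

theorem CellSt.cm_nonneg (h : CellSt q W f N G mu Dm Lq q0 w z h0) (p a : ℕ) :
    0 ≤ cm mu 1 N p a := by
  unfold H599.cm
  refine sum_nonneg fun j _ => ?_
  split_ifs
  · exact h.one.nn _
  · exact le_rfl

/-- a charged point charges its classes -/
theorem CellSt.ch (h : CellSt q W f N G mu Dm Lq q0 w z h0) {ι : Type} [Fintype ι]
    {qs : ι → ℕ} [∀ i, NeZero (qs i)] {n : ℤ} (hn : G n / cmass G q0 w z h0 ≠ 0) :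
    H461.W (fun i (x : ZMod (qs i)) => cm mu 1 N (qs i) x.val) (redZ qs n) ≠ 0 := by
  have hG0 : G n ≠ 0 := fun h0 => hn (by rw [h0, zero_div])
  rw [h.hG n] at hG0
  by_cases h1 : 1 ≤ n
  · rw [if_pos h1] at hG0
    have hmu : mu n.toNat ≠ 0 := fun h0 => hG0 (by rw [h0, mul_zero])
    obtain ⟨h2, h3⟩ := h.one.out _ hmu
    have hmu0 : 0 < mu n.toNat := lt_of_le_of_ne (h.one.nn _) (Ne.symm hmu)
    unfold H461.W
    rw [prod_ne_zero_iff]
    intro i _
    have h4 : (redZ qs n i).val = n.toNat % qs i := by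
      have e1 : redZ qs n i = ((n.toNat : ℕ) : ZMod (qs i)) := by
        unfold H359.redZ
        have e2 : n = ((n.toNat : ℕ) : ℤ) := (Int.toNat_of_nonneg (by omega)).symm
        conv_lhs => rw [e2]
        exact Int.cast_natCast _
      rw [e1, ZMod.val_natCast]
    refine ne_of_gt (lt_of_lt_of_le hmu0 ?_)
    beta_reduce
    rw [h4]
    unfold H599.cm
    have h5 : n.toNat - 1 ∈ range N := mem_range.2 (by omega)
    have h6 : 1 + (n.toNat - 1) = n.toNat := by omega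
    have h7 := single_le_sum (f := fun j => if (1 + j) % qs i = n.toNat % qs i
      then mu (1 + j) else 0) (fun j _ => by
        split_ifs
        · exact h.one.nn _
        · exact le_rfl) h5
    beta_reduce at h7
    rw [h6, if_pos rfl] at h7
    exact h7
  · rw [if_neg h1] at hG0
    exact absurd rfl hG0

/-- the sup of the normalised weight with at most `d` atoms -/
theorem CellSt.sup (h : CellSt q W f N G mu Dm Lq q0 w z h0) {ι : Type} [Fintype ι]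
    {qs : ι → ℕ} [∀ i, NeZero (qs i)] (hq : ∀ i, qs i ∈ W) (hg : 0 ≤ q.g) {d : ℕ} {lm A1 : ℝ}
    (hlm : 0 ≤ lm) (hl : ∀ i, Real.log (qs i) ≤ lm)
    (hA : 2 * q0 * Real.exp (Real.log 2 + 32 * Dm + d * ((1 + q.g) * lm + Real.log 4)) ≤ A1)
    (T : Finset ι) (x : ∀ i, ZMod (qs i)) (hT : T.card ≤ d)
    (hx : ∀ i ∈ T, 0 < cm mu 1 N (qs i) (x i).val) (n : ℤ) :
    (h0 : ℝ) * (G n / cmass G q0 w z h0 * ∏ i ∈ T, (cm mu 1 N (qs i) (x i).val)⁻¹) ≤ A1 := by
  have hc := h.cmass_pos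
  have hh0 : (0 : ℝ) < h0 := by exact_mod_cast h.h00
  have hq0 : (0 : ℝ) < q0 := by exact_mod_cast h.q01
  have h1 : (h0 : ℝ) / cmass G q0 w z h0 ≤ 2 * q0 := by
    rw [div_le_iff₀ hc]
    have := h.ma
    nlinarith
  have h2 : G n ≤ Real.exp (Real.log 2 + 32 * Dm) := by
    rw [Real.exp_add, Real.exp_log (by norm_num), h.hG n]
    split_ifs
    · exact h.one.cap _
    · positivity
  have h3 : ∏ i ∈ T, (cm mu 1 N (qs i) (x i).val)⁻¹ ≤
      Real.exp (d * ((1 + q.g) * lm + Real.log 4)) := by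
    have h4 : ∀ i ∈ T, (cm mu 1 N (qs i) (x i).val)⁻¹ ≤
        Real.exp ((1 + q.g) * lm + Real.log 4) := by
      intro i hi
      have hp := h.hW _ (hq i)
      have hqi : (0 : ℝ) < qs i := by exact_mod_cast hp.pos
      rcases h.one.atom _ (hq i) (x i).val with h5 | h5
      · exact absurd h5 (hx i hi).ne'
      · have h6 : Real.exp (-((1 + q.g) * Real.log (qs i) + Real.log 4)) ≤
            cm mu 1 N (qs i) (x i).val := by
          refine le_trans (le_of_eq ?_) h5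
          rw [show -((1 + q.g) * Real.log (qs i) + Real.log 4) =
            Real.log (qs i) * (-q.g) - Real.log (qs i) - Real.log 4 by ring, Real.exp_sub,
            Real.exp_sub, Real.exp_log hqi, Real.exp_log (by norm_num), ← Real.rpow_def_of_pos hqi]
          field_simp
        have h7 : (cm mu 1 N (qs i) (x i).val)⁻¹ ≤
            Real.exp ((1 + q.g) * Real.log (qs i) + Real.log 4) := by
          rw [← inv_inv (Real.exp ((1 + q.g) * Real.log (qs i) + Real.log 4)), ← Real.exp_neg]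
          exact inv_anti₀ (Real.exp_pos _) h6
        refine h7.trans (Real.exp_le_exp.2 ?_)
        have h8 := mul_le_mul_of_nonneg_left (hl i) (by linarith : 0 ≤ 1 + q.g)
        linarith
    calc ∏ i ∈ T, (cm mu 1 N (qs i) (x i).val)⁻¹
        ≤ ∏ _i ∈ T, Real.exp ((1 + q.g) * lm + Real.log 4) :=
          prod_le_prod (fun i _ => inv_nonneg.2 (h.cm_nonneg _ _)) h4
      _ = Real.exp ((1 + q.g) * lm + Real.log 4) ^ T.card := by rw [prod_const]
      _ ≤ Real.exp ((1 + q.g) * lm + Real.log 4) ^ d := by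
          refine pow_le_pow_right₀ (Real.one_le_exp ?_) hT
          have h9 : 0 ≤ Real.log 4 := Real.log_nonneg (by norm_num)
          have h10 : 0 ≤ (1 + q.g) * lm := mul_nonneg (by linarith) hlm
          linarith
      _ = _ := by rw [← Real.exp_nat_mul]
  have h4 : 0 ≤ ∏ i ∈ T, (cm mu 1 N (qs i) (x i).val)⁻¹ :=
    prod_nonneg fun i _ => inv_nonneg.2 (h.cm_nonneg _ _)
  calc (h0 : ℝ) * (G n / cmass G q0 w z h0 * ∏ i ∈ T, (cm mu 1 N (qs i) (x i).val)⁻¹)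
      = (h0 : ℝ) / cmass G q0 w z h0 * (G n * ∏ i ∈ T, (cm mu 1 N (qs i) (x i).val)⁻¹) := by
        ring
    _ ≤ 2 * q0 * (Real.exp (Real.log 2 + 32 * Dm) *
          Real.exp (d * ((1 + q.g) * lm + Real.log 4))) :=
        mul_le_mul h1 (mul_le_mul h2 h3 h4 (Real.exp_pos _).le)
          (mul_nonneg (h.G_nonneg n) h4) (by positivity)
    _ = 2 * q0 * Real.exp (Real.log 2 + 32 * Dm + d * ((1 + q.g) * lm + Real.log 4)) := by
        rw [← Real.exp_add]
    _ ≤ A1 := hA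

/-- **the law slots of `H635.f1_core` at a cell of the state** -/
theorem sideLaw_cell {g C1 : ℝ} (hg : 0 < g) (hg1 : g ≤ 1) (hC1 : 1 ≤ C1) :
    ∃ l0 : ℝ, ∀ {ι : Type} [Fintype ι] [DecidableEq ι] {q : H362.FP} {W : Finset ℕ} {f : PL}
      {N : ℕ} {G : ℤ → ℝ} {mu : ℕ → ℝ} {Dm Lq : ℝ} {q0 : ℕ} {w : ZMod q0} {z h0 : ℕ} {P : ℝ}
      {qs sc : ι → ℕ} [∀ i, NeZero (qs i)] {ns : ℕ} {γ A0 Λ Ds del MT Θ : ℝ}, q.g = g →
      q.C1 = C1 → l0 ≤ Real.log P → CellSt q W f N G mu Dm Lq q0 w z h0 →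
      LawNum q W N h0 q0 Dm Lq P qs sc ns γ A0 Λ Ds del (MT * Real.exp (Θ / 2)) →
      ∀ {m d : ℕ} {τ A1 lm : ℝ} {Pr : Finset ℕ}, q.be ≤ τ - 3 / (m : ℝ) →
      (∀ p ∈ Pr, ¬ p ∣ q0 ∧ (∀ i, qs i ≠ p) ∧
        (p ∈ W → (p : ℝ) ^ (-q.ga) ≤ (τ - 3 / (m : ℝ) - q.be) * Real.log p)) →
      0 ≤ lm → (∀ i, Real.log (qs i) ≤ lm) →
      2 * q0 * Real.exp (Real.log 2 + 32 * Dm + d * ((1 + q.g) * lm + Real.log 4)) ≤ A1 →
      SideLaw (fun i (x : ZMod (qs i)) => cm mu 1 N (qs i) x.val)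
        (H743.uq (V := fun i => ZMod (qs i)) qs) (redZ qs) (Real.log 2) γ A0 m d ns sc
        (fun i => Real.log (qs i)) (H743.Lq q.g qs) (H743.Aq q.g qs) (H743.αq q.be q.ga qs)
        (fun i => (qs i : ℝ) ^ (-q.g)) Λ 0 del (G0c q N h0 q0) τ
        (kapF q N h0 q0 (τ - 3 / (m : ℝ))) Pr MT Θ A1 h0 (z : ℤ) (cell q0 w (z : ℤ) h0)
        (fun n => G n / cmass G q0 w z h0) := by
  obtain ⟨l0, hl0⟩ := thickG_cell hg hg1 hC1
  refine ⟨l0, ?_⟩
  intro ι _ _ q W f N G mu Dm Lq q0 w z h0 P qs sc _ ns γ A0 Λ Ds del MT Θ eg eC hl H L m d τ A1 lm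
    Pr hbe hPr hlm hqlm hA
  refine ⟨cell_sub H, fun n _ => H.f_nonneg n, fun n _ hn => H.ch hn, fun T x hT hx n _ =>
    H.sup L.pin.qW L.pin.g0 hlm hqlm hA T x hT hx n, ?_⟩
  intro d' hd1 hdQ hdP
  have hd0 : (0 : ℝ) < d' := by exact_mod_cast hd1
  refine ⟨mul_pos (Real.exp_pos _) (Real.rpow_pos_of_pos hd0 _), ?_, ?_⟩
  · unfold kapF G0c
    rw [mul_assoc, ← Real.rpow_add hd0, sub_add_cancel]
  · intro z' _ hz'
    exact hl0 eg eC hl H L hbe d' hd1 hdQ (fun p hpd => hPr p (hdP p hpd)) z' hz'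

end

section

open Vale.Agent.P042.H860 hiding Inst Inst.PP Inst.S1 Inst.S2 Inst.f1 Inst.f2 Inst.g Inst.m1
  Inst.m2 Inst.nu1 Inst.nu2 Inst.q0 Inst.q1 Inst.w' Ok Ok.NS Ok.PP_eq Ok.gdeg Ok.gp Ok.gpg
  Ok.not_dvd_q1 Ok.q0_pos Ok.q1_pos lo loEquiv
open Vale.Agent.P042P.H860

variable {I : Inst} {κ : ℝ} {q : H362.FP} {κ' : Type} {fm : H599.Fam κ'} {Dm Lq : ℝ}

/-- the first cell of an instance is a cell of the state -/
theorem cellSt_1 (h : Ok I κ) (hK : I.K0 = max (max q.K0 I.R) (2 * I.k))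
    (st : H362.StF1 (H362.WF q I.k I.R I.P) q fm I.f I.N I.mu Dm Lq) :
    CellSt q (H362.WF q I.k I.R I.P) I.f I.N I.G I.mu Dm Lq I.q0 I.w I.z1 I.h0 where
  hG := h.hG
  one := st.toAtF
  ql := st.ql
  hW := fun p hp => by
    rw [WF_eq q I.k I.R I.K0 I.P hK, mem_Typ] at hp
    exact hp.2.1
  hq0 := fun p hp hd => by
    rw [WF_eq q I.k I.R I.K0 I.P hK, mem_Typ] at hp
    have h2 := h.tiny.mem_of_dvd_qnul hp.2.1 hd
    simp only [H739.Tst, mem_filter, mem_range] at h2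
    omega
  q01 := h.q0_pos
  zN := h.z1N
  hN := h.hN
  ma := h.ma1

/-- the second cell of an instance is a cell of the state -/
theorem cellSt_2 (h : Ok I κ) (hK : I.K0 = max (max q.K0 I.R) (2 * I.k))
    (st : H362.StF1 (H362.WF q I.k I.R I.P) q fm I.f I.N I.mu Dm Lq) :
    CellSt q (H362.WF q I.k I.R I.P) I.f I.N I.G I.mu Dm Lq I.q0 I.w' I.z2 I.h0 where
  hG := h.hG
  one := st.toAtF
  ql := st.ql
  hW := (cellSt_1 h hK st).hW
  hq0 := (cellSt_1 h hK st).hq0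
  q01 := h.q0_pos
  zN := h.z2N
  hN := h.hN
  ma := h.ma2

end

end Vale.Agent.P042P.H168
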