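import Vale.Agent.P042PQ.H635F1Sk
import Vale.Agent.P042.H258.F1NuA

set_option autoImplicit false

/-!
P042, prime arguments: port of `P042.H258.F1NuA` to the pairs (polynomial, linear form).
-/

set_option linter.unusedSectionVars false

namespace Vale.Agent.P042P.H258
open Vale.Agent.P042 hiding AuxData AuxData.lam_le AuxData.lam_pos AuxData.natDegree_H DiffFree
  rMax
open Vale.Agent.P042.H258 hiding card_Lo card_sc card_ty esN_qL log_qL_le q0_le qL_inj qL_le
  qL_prime scL_lt sc_le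

open Finset Polynomial

open Vale.Agent.P042.H739 (Tst Wst q0s q1s)

open Vale.Agent.P042.H860 (Si Typ mem_Typ)
open Vale.Agent.P042P.H860 (Inst Ok lo)

open Vale.Agent.P042.H883 (JT snT ellT scT esN)

open Vale.Agent.P042P.H635 (Lo qL scL M0I m0I F1Par)

section

variable {I : Inst} {κ kap : ℝ}

theorem qL_prime (i : Lo I kap) : (qL I kap i).Prime := (mem_Typ.1 i.1.2).2.1

theorem qL_inj : Function.Injective (qL I kap) := fun _ _ h => Subtype.ext (Subtype.ext h)

theorem esN_qL (i : Lo I kap) : esN (qL I kap i) = scL I kap i * Real.log 2 := rfl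

theorem qL_le (i : Lo I kap) : qL I kap i ≤ ⌊I.P ^ (2 - kap)⌋₊ := by
  have h := i.2
  simp only [H860.lo, H739.Wst, mem_filter, mem_range, Nat.lt_succ_iff] at h
  exact h.1

/-- sizes of the low sites -/
theorem sc_le (hP : 0 < I.P) (i : Lo I kap) :
    (scL I kap i : ℝ) * Real.log 2 ≤ (2 - kap) * Real.log I.P + Real.log 2 :=
  H883.lo1_site hP i.1 i.2

theorem log_qL_le (hP : 0 < I.P) (hl : 3 ≤ Real.log I.P) (hk : 0 ≤ kap) (i : Lo I kap) :
    Real.log (qL I kap i) ≤ 3 * Real.log I.P := by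
  have h1 := H883.log_le_esN (qL_prime i).one_lt.le
  rw [esN_qL] at h1
  have h2 := sc_le hP i
  have h3 : kap * Real.log I.P ≥ 0 := mul_nonneg hk (by linarith)
  have h4 : Real.log 2 ≤ 1 := by linarith [Real.log_two_lt_d9]
  linarith

theorem scL_lt (hP : 0 < I.P) (i : Lo I kap) : scL I kap i < nsI kap I.P := by
  have hl2 : 0 < Real.log 2 := Real.log_pos (by norm_num)
  have h1 := sc_le hP i
  unfold nsI
  rw [Nat.lt_succ_iff]
  refine Nat.le_floor ?_
  rw [le_div_iff₀ hl2, log_two_mul hP]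
  exact h1

/-- number of low sites of one scale -/
theorem card_sc (s : ℕ) : ((univ.filter fun i : Lo I kap => snT (scT i.1) = s).card : ℝ) ≤
    Real.exp (Real.log 2 * s) := by
  classical
  have h1 := H883.card_scale (univ : Finset (Lo I kap)) (qL I kap)
    (fun i _ => (qL_prime i).one_lt.le) (fun i _ j _ h => qL_inj h) (s * Real.log 2)
  rw [mul_comm (Real.log 2)]
  refine le_trans ?_ h1
  exact_mod_cast card_le_card fun i hi => by
    rw [mem_filter] at hi ⊢
    refine ⟨hi.1, ?_⟩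
    rw [esN_qL]
    have h2 : (scL I kap i : ℝ) = s := by exact_mod_cast hi.2
    rw [h2]

theorem card_ty (j : JT I.K0 I.C1 I.P) :
    ((univ.filter fun i : Lo I kap => scT i.1 = j).card : ℝ) ≤ Real.exp (ellT j) := by
  classical
  have h1 := card_sc (I := I) (kap := kap) (snT j)
  have h2 : Real.log 2 * (snT j : ℝ) = ellT j := mul_comm _ _
  rw [h2] at h1
  refine le_trans ?_ h1
  exact_mod_cast card_le_card fun i hi => by
    rw [mem_filter] at hi ⊢
    exact ⟨hi.1, by rw [hi.2]⟩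

/-- number of low sites -/
theorem card_Lo (hP : 1 ≤ I.P) (hk : 0 ≤ kap) : (Fintype.card (Lo I kap) : ℝ) ≤ I.P ^ 2 := by
  classical
  have h1 : Fintype.card (Lo I kap) ≤ ⌊I.P ^ (2 - kap)⌋₊ := by
    have h2 : (univ.image (qL I kap)).card = Fintype.card (Lo I kap) :=
      (card_image_of_injective _ qL_inj).trans card_univ
    rw [← h2]
    have h3 : univ.image (qL I kap) ⊆ Icc 1 ⌊I.P ^ (2 - kap)⌋₊ := by
      intro p hp
      obtain ⟨i, -, rfl⟩ := mem_image.1 hp
      rw [mem_Icc]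
      exact ⟨(qL_prime i).one_lt.le, qL_le i⟩
    refine (card_le_card h3).trans ?_
    rw [Nat.card_Icc]
    omega
  have h4 : (Fintype.card (Lo I kap) : ℝ) ≤ (⌊I.P ^ (2 - kap)⌋₊ : ℕ) := by exact_mod_cast h1
  refine h4.trans ((Nat.floor_le (Real.rpow_nonneg (by linarith) _)).trans ?_)
  rw [← Real.rpow_natCast]
  refine Real.rpow_le_rpow_of_exponent_le hP ?_
  push_cast
  linarith

/-- the modulus of the cells is bounded -/
theorem q0_le (hI : Ok I κ) : (I.q0 : ℝ) ≤ (q1s I.k I.R I.K0 : ℝ) ^ 2 := by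
  have h1 : 1 ≤ q1s I.k I.R I.K0 := hI.tiny.q1_pos
  have h2 : I.q0 ≤ q1s I.k I.R I.K0 * q1s I.k I.R I.K0 := by
    show H74.qnul I.f (q1s I.k I.R I.K0) I.z0 ≤ _
    unfold H74.qnul
    refine Nat.mul_le_mul_left _ ?_
    exact Int.gcd_le_natAbs_right _ (by exact_mod_cast (by omega : q1s I.k I.R I.K0 ≠ 0))
  rw [pow_two]
  exact_mod_cast h2

end

end Vale.Agent.P042P.H258
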