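import Vale.Agent.P042PQ.H452Seam3
import Vale.Agent.P042PQ.H944TopKw
import Vale.Agent.P042.H944.TopKwS

set_option autoImplicit false

/-!
P042, prime arguments: port of `P042.H944.TopKwS` to the pairs (polynomial, linear form).
-/

namespace Vale.Agent.P042P.H944
open Vale.Agent.P042 hiding AuxData AuxData.lam_le AuxData.lam_pos AuxData.natDegree_H DiffFree
  rMax
open Vale.Agent.P042.H944 hiding KwT kwT seamG2

open Polynomial Finset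
open Vale.Agent.P042.SS hiding Gam
open Vale.Agent.P042.H74 hiding GamN GamN_coprime GamN_eq GamN_norm GamN_prime_norm GamN_tiny
  GamN_zero GamN_zero_one GamW GamW_eq_avC GamW_split GamW_zero_one Gam_fer_norm NS NS_fer Ram
  Ram_index Ram_mul Ram_one Ram_prime Ram_prod Ram_tiny Ram_tiny_zero Ram_zero Ram_zero_of_Wq Wq
  Wq_mul Wq_per Wq_zero Wq_zero_num Wq_zero_tiny avC_om avC_om_single deriv_fer_eval dns dns_fer
  dns_ge dns_ge_exp dns_le_one dns_nonneg dns_pos dvd_deriv_fer fer fer_coeff fer_const fer_eval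
  fer_natDegree kN kN_form kN_per multFam_GamN neg_one_le_kN nonconst_fer not_dvd_of_nonconst om
  om_ne_zero om_per om_union prod_dns_ge prod_dns_ge_aux seamG sum_Ram_full sum_Ram_index
  sum_Ram_tiny sum_Wq
open Vale.Agent.P042P.H74
open Vale.Agent.P042.H245 hiding GWf
open Vale.Agent.P042.H452 hiding PS PS_eq SeamH SeamH.pos SeamH.prime SeamH.rho0 SeamH.term_bound
  Tt ps_l1
open Vale.Agent.P042P.H452

/-- the facts on the rates `kw`; `T` tiny primes, `PP` sieve primes, `g` the substituted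
polynomial -/
structure KwT (k : ℕ) (c : ℝ) (T PP : Finset ℕ) (g : PL) (kw : ℕ → ℕ → ℝ) : Prop where
  ns : NS g PP
  dis : Disjoint T PP
  nn : ∀ p j, 0 ≤ kw p j
  hG : ∀ (q : ℕ) (a : ℤ), 1 ≤ q → IsCoprime a (q : ℤ) → ‖GamN g PP a q‖ ≤ kapProd kw q
  zero : ∀ p ∈ PP, ∀ j : ℕ, 2 ≤ j → kw p j = 0
  one : ∀ p : ℕ, p.Prime → p ∉ T → ∀ j : ℕ, 1 ≤ j → kw p j ≤ 4 * k / Real.sqrt p
  two : ∀ p : ℕ, p.Prime → p ∉ T → ∀ j : ℕ, 2 ≤ j → kw p j ≤ k / p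
  pow : ∀ p : ℕ, p.Prime → p ∉ T → ∀ j : ℕ, 1 ≤ j → kw p j ≤ (p : ℝ) ^ (-(c * j))
  prod : ∀ m : ℕ, 1 ≤ m → (∀ p ∈ T, ¬ p ∣ m) → kapProd kw m ≤ (m : ℝ) ^ (-c)
  big : ∀ p : ℕ, p.Prime → p ∉ T → 2 * k < p

/-- **the rates**, for every `C1` -/
theorem kwT (k R : ℕ) (hk : 2 ≤ k) (hR : 1 ≤ R) :
    ∃ (c : ℝ) (kap : ℕ → ℕ → ℝ) (K0 : ℕ), 0 < c ∧ c ≤ 1 / 4 ∧ 1 ≤ K0 ∧
      ∀ f : PL, f.natDegree = k → 0 < f.leadingCoeff →
        (∀ g : ℤ, (∀ j : ℕ, 1 ≤ j → g ∣ f.coeff j) → g ∣ (R : ℤ)) →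
      ∀ (T : Finset ℕ) (V : ℕ → ℕ) (q1 : ℕ) (z0 : ℤ), (∀ p : ℕ, p.Prime → p ≤ K0 → p ∈ T) →
        TinyD f T V q1 z0 →
      ∀ (C1 P : ℝ),
        KwT k c T (PPf C1 (fer f q1 z0) P) (fer f q1 z0)
          (kwS k T (PPf C1 (fer f q1 z0) P) kap) ∧
        (∀ p : ℕ, p.Prime → p ∉ T → p ≤ ⌊P ^ C1⌋₊ → p ∈ PPf C1 (fer f q1 z0) P) := by
  obtain ⟨c, K0, kap, hc0, hc4, hkK, hRK, hkap0, hkap1, hmain⟩ := seamG2 k R hk hR
  refine ⟨c, kap, K0, hc0, hc4, by omega, fun f hfk hfl hfR T V q1 z0 hKT hD C1 P => ?_⟩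
  have hq1T : ∀ p : ℕ, p.Prime → p ∣ q1 → p ∈ T := fun p hp hd => hD.mem_of_dvd_q1 hp hd
  have hPPT : ∀ p ∈ PPf C1 (fer f q1 z0) P, p.Prime ∧ p ∉ T := by
    intro p hp
    obtain ⟨h1, h2, h3, h4⟩ := mem_PPf.1 hp
    exact ⟨h1, hD.notMem_of_nonconst h3⟩
  obtain ⟨m1, m2, m3, m4, m5, m6, m7, m8⟩ := hmain f hfk hfl hfR T (PPf C1 (fer f q1 z0) P) q1 z0
    hq1T hKT hPPT
  have hdeg : (fer f q1 z0).natDegree = k := by
    rw [fer_natDegree f _ hD.q1_pos, hfk]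
  refine ⟨⟨m1, ?_, fun p j => kwS_nonneg k T _ hkap0 p j, m3, ?_, m8, m6, m7, m4, ?_⟩, ?_⟩
  · rw [disjoint_left]
    intro p hp hp'
    exact (hPPT p hp').2 hp
  · intro p hp j hj
    unfold kwS kapW
    rw [if_pos hp, if_neg (by omega)]
  · intro p hp hpT
    by_contra hcon
    exact hpT (hKT p hp (by omega))
  · intro p hp hpT hpP
    rw [mem_PPf]
    refine ⟨hp, ?_, (m2 p hp hpT).2.2, hpP⟩
    rw [hdeg]
    exact (m2 p hp hpT).1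

end Vale.Agent.P042P.H944
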