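import Vale.Agent.P042PQ.H168F1Law
import Vale.Agent.P042PQ.H635F1Core
import Vale.Agent.P042PQ.H944TopKwS
import Vale.Agent.P042.H635.F1Sk

set_option autoImplicit false

/-!
P042, prime arguments: port of `P042.H635.F1Sk` to the pairs (polynomial, linear form).
-/

set_option linter.unusedSectionVars false

namespace Vale.Agent.P042P.H635
open Vale.Agent.P042 hiding AuxData AuxData.lam_le AuxData.lam_pos AuxData.natDegree_H DiffFree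
  rMax
open Vale.Agent.P042.H635 hiding F1Par Lo M0I PrI SideI YI ell_si f1_at f1_core m0I qL scL si_K0
  si_prime untyped wL wL_nonneg wL_sum

open Finset Polynomial

open Vale.Agent.P042.H461 (W)

open Vale.Agent.P042.H121 (M2f DDm)

open Vale.Agent.P042.H892

open Vale.Agent.P042P.H85 (FBa)

open Vale.Agent.P042.H739 (Tst Wst)

open Vale.Agent.P042.H599 (cm)

open Vale.Agent.P042.H860 (Si)
open Vale.Agent.P042P.H860 (Inst Ok lo)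

open Vale.Agent.P042.H883 (JT snT ellT scT)

open Vale.Agent.P042.H359 (redZ)

/-- the low sites -/
abbrev Lo (I : Inst) (kap : ℝ) : Type := {i : Si I.K0 I.C1 I.P // lo I kap i}

/-- the primes of the low sites -/
def qL (I : Inst) (kap : ℝ) (i : Lo I kap) : ℕ := i.1.1

instance (I : Inst) (kap : ℝ) (i : Lo I kap) : NeZero (qL I kap i) :=
  inferInstanceAs (NeZero i.1.1)

/-- the reference of the low sites: the class masses of the state -/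
noncomputable def wL (I : Inst) (kap : ℝ) (i : Lo I kap) (x : ZMod (qL I kap i)) : ℝ :=
  cm I.mu 1 I.N (qL I kap i) x.val

/-- the scale of a low site -/
def scL (I : Inst) (kap : ℝ) (i : Lo I kap) : ℕ := snT (scT i.1)

/-- the smallest untyped modulus -/
noncomputable def YI (I : Inst) : ℕ := ⌊I.P ^ I.C1⌋₊ + 1

/-- truncation of the number of low sites -/
noncomputable def m0I (I : Inst) (θ : ℝ) : ℕ := ⌊θ * I.P / Real.log I.P⌋₊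

/-- truncation of the moduli -/
noncomputable def M0I (I : Inst) (θ : ℝ) : ℕ := ⌊Real.exp (θ * I.P)⌋₊

/-- the primes of the top moduli -/
noncomputable def PrI (I : Inst) (kap θ : ℝ) : Finset ℕ :=
  PrF (lo I kap) (fun i : Si I.K0 I.C1 I.P => i.1) (Tst I.K0) (YI I) (M0I I θ)

/-- **the numbers of (F1*) and (A*) at one instance** -/
structure F1Par (I : Inst) (kap θ : ℝ) (c cr g' C2 c4 δ0 β' γ ρ η : ℝ) (m d ns : ℕ)
    (Λ lm τ σ Θ A1 G0 a : ℝ) (rho e : Lo I kap → ℝ) : Prop where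
  -- numbers which do not depend on the radii
  m1 : 1 ≤ m
  c0 : 0 < c
  c1 : c ≤ 1 / 4
  P4 : 4 ≤ I.C1
  lm0 : 0 ≤ lm
  lm1 : ∀ i : Lo I kap, Real.log (qL I kap i) ≤ lm
  dlm : 4 * (d * lm) ≤ Λ
  A11 : 1 ≤ A1
  τ0 : 0 ≤ τ
  τ1 : τ * g0c c ≤ 1 / 32
  Θ0 : 0 ≤ Θ
  Θ1 : Θ ≤ I.P
  σ0 : 0 ≤ σ
  σ1 : σ * g0c c ≤ 1 / 32
  σA : 2 * Real.log A1 ≤ σ * Θ
  c40 : 0 ≤ c4
  c41 : c4 * g0c c ≤ 1 / 16
  M01 : 1 ≤ M0I I θ
  M0Θ : 4 * g0c c * Real.log (M0I I θ) ≤ Θ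
  M0cap : (M0I I θ : ℝ) * Real.exp (5 * Θ) ≤ I.h0
  G00 : 0 ≤ G0
  C2 : 4 * (288 * (G0 ^ 2 + 1) * Real.exp 1) * (32 * Real.exp (2 * a + η) + 1) ≤ Real.exp C2
  δ : I.P ^ (-(1 / 8) : ℝ) ≤ δ0
  -- the scales
  X : ∀ j : JT I.K0 I.C1 I.P,
    XU (lo I kap) (scT : Si I.K0 I.C1 I.P → JT I.K0 I.C1 I.P) I.k Θ τ σ ellT j ≤
      Real.exp (g' * ellT j) / 4
  e : ∀ j : JT I.K0 I.C1 I.P,
    2 * ∑ i : Lo I kap, (if scT i.1 = j then e i else 0) ≤ Real.exp (g' * ellT j) / 4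
  -- the numbers of one vector of radii
  num : ∀ b0 : ℕ, (b0 : ℝ) ≤ 2 * I.P ^ β' → ∀ r : JT I.K0 I.C1 I.P → ℝ, (∀ j, 0 ≤ r j) →
    (∀ j, r j ≤ min (Real.exp (cr * ellT j)) ((b0 : ℝ) ^ cr)) →
    ∃ Rs : ℕ → ℝ, H258.F1Num m (Real.log 2) γ ρ g' Λ snT (fun i : Lo I kap => scT i.1) rho
      (fun i => Real.exp (γ * scL I kap i)) (fun i => Real.log (qL I kap i)) r Rs ns (m0I I θ) d

/-- the law slots at one cell of an instance -/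
abbrev SideI (I : Inst) (kap θ : ℝ) (γ A0 : ℝ) (m d ns : ℕ) (Λ a del G0 τ Θ A1 gs be ga : ℝ)
    (κ : ℕ → ℝ) (y : ℤ) (S : Finset ℤ) (f : ℤ → ℝ) : Prop :=
  SideLaw (V := fun i : Lo I kap => ZMod (qL I kap i)) (wL I kap)
    (H743.uq (V := fun i => ZMod (qL I kap i)) (qL I kap)) (redZ (qL I kap)) (Real.log 2) γ A0 m d
    ns (scL I kap) (fun i => Real.log (qL I kap i)) (H743.Lq gs (qL I kap))
    (H743.Aq gs (qL I kap)) (H743.αq be ga (qL I kap)) (fun i => (qL I kap i : ℝ) ^ (-gs)) Λ a del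
    G0 τ κ (PrI I kap θ) (M0I I θ) Θ A1 I.h0 y S f

theorem wL_nonneg {I : Inst} {kap : ℝ} (nn : ∀ n, 0 ≤ I.mu n) (i : Lo I kap)
    (x : ZMod (qL I kap i)) : 0 ≤ wL I kap i x := by
  unfold wL H599.cm
  refine sum_nonneg fun j _ => ?_
  split_ifs
  · exact nn _
  · exact le_rfl

theorem wL_sum {I : Inst} {kap : ℝ} (law : H599.Law I.mu 1 I.N) (i : Lo I kap) :
    ∑ x, wL I kap i x = 1 := by
  unfold wL
  rw [sum_val (p := qL I kap i) (fun a => cm I.mu 1 I.N (qL I kap i) a)]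
  exact H599.sum_cm law.sum (Nat.pos_of_ne_zero (NeZero.ne _))

theorem si_prime {I : Inst} (i : Si I.K0 I.C1 I.P) : (i.1 : ℕ).Prime :=
  (H860.mem_Typ.1 i.2).2.1

theorem si_K0 {I : Inst} (i : Si I.K0 I.C1 I.P) : I.K0 < i.1 :=
  (H860.mem_Typ.1 i.2).2.2

theorem ell_si {I : Inst} (i : Si I.K0 I.C1 I.P) :
    Real.log (i.1 : ℕ) ≤ ellT (scT i : JT I.K0 I.C1 I.P) ∧
      ellT (scT i : JT I.K0 I.C1 I.P) ≤ Real.log (i.1 : ℕ) + Real.log 2 := by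
  have h1 := H883.log_le_esN (si_prime i).one_lt.le
  have h2 := H883.esN_le_log (si_prime i).one_lt
  have h3 : ellT (scT i : JT I.K0 I.C1 I.P) = H883.esN i.1 := rfl
  rw [h3]
  exact ⟨h1, by linarith⟩

/-- the primes of an untyped modulus are large -/
theorem untyped {I : Inst} {m p : ℕ} (hp : p.Prime) (hpm : p ∣ m)
    (h1 : ∀ p ∈ Tst I.K0, ¬ p ∣ m) (h2 : ∀ i : Si I.K0 I.C1 I.P, ¬ i.1 ∣ m) :
    p ∉ Tst I.K0 ∧ YI I ≤ p := by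
  refine ⟨fun h => h1 p h hpm, ?_⟩
  by_contra h
  unfold YI at h
  have h3 : p ≤ ⌊I.P ^ I.C1⌋₊ := by omega
  have h4 : I.K0 < p := by
    by_contra h5
    exact h1 p (mem_Tst.2 ⟨by omega, hp⟩) hpm
  exact h2 ⟨p, H860.mem_Typ.2 ⟨h3, hp, h4⟩⟩ hpm

/-- **(F1*) and (A*) at one instance** -/
theorem f1_at {γ ρ A0 η : ℝ} (hγ : 0 < γ) (hρ : 8 * γ + ρ ≤ 3 * Real.log 2 / 8)
    (hA : 1 ≤ A0) (hη : 0 < η) (hη1 : η ≤ 1) (k : ℕ) {c : ℝ} (hc : 0 < c) (hc1 : c ≤ 1 / 4) :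
    ∃ (s1 : ℕ) (P0 : ℝ), ∀ (I : Inst) (κ kap : ℝ), I.k = k → P0 ≤ I.P → Ok I κ →
    (∀ j : JT I.K0 I.C1 I.P, s1 ≤ snT j) →
    H599.Law I.mu 1 I.N → (∀ n, 0 ≤ I.mu n) →
    -- the kernels
    ∀ (K : ∀ i : Si I.K0 I.C1 I.P, ZMod i.1 → ZMod i.1 → ℝ) {c0 : Lo I kap → ℝ}
      {u u' : ∀ i : Lo I kap, ZMod (qL I kap i) → ℝ}
      {s : ∀ i : Lo I kap, ZMod (qL I kap i) → ZMod (qL I kap i) → ℝ} {rho e : Lo I kap → ℝ},
    H365.OB (wL I kap) (fun i => K i.1) c0 u u' s rho e →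
    ∀ {kw : ℕ → ℕ → ℝ}, H944.KwT k c (Tst I.K0) I.PP I.g kw →
    -- the numbers and the laws
    ∀ {θ cr g' C2 c4 δ0 β' : ℝ} {m d ns : ℕ} {Λ lm τ σ Θ A1 G0 a : ℝ},
    F1Par I kap θ c cr g' C2 c4 δ0 β' γ ρ η m d ns Λ lm τ σ Θ A1 G0 a rho e →
    ∀ {gs be ga del : ℝ} {κ' : ℕ → ℝ},
    (∀ i : Lo I kap, Real.exp (H743.αq be ga (qL I kap) i + H743.Aq gs (qL I kap) i) ≤
      Real.exp (γ * scL I kap i)) →
    SideI I kap θ γ A0 m d ns Λ a del G0 τ Θ A1 gs be ga κ' (I.z1 : ℤ) I.S1 I.f1 →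
    SideI I kap θ γ A0 m d ns Λ a del G0 τ Θ A1 gs be ga κ' (I.z2 : ℤ) I.S2 I.f2 →
    ∀ b0 : ℕ, (b0 : ℝ) ≤ 2 * I.P ^ β' →
    ∀ r : JT I.K0 I.C1 I.P → ℝ, (∀ j, 0 ≤ r j) →
    (∀ j, r j ≤ min (Real.exp (cr * ellT j)) ((b0 : ℝ) ^ cr)) →
    (∑ B ∈ DDm (lo I kap) (fun i : Si I.K0 I.C1 I.P => i.1) (m0I I θ) (M0I I θ) 1,
      ‖FBa I.g I.PP I.S1 I.S2 I.f1 I.f2 (fun i : Si I.K0 I.C1 I.P => i.1) (lo I kap)
        (fun i n n' => K i.1 (redZ (fun i : Si I.K0 I.C1 I.P => i.1) n i.1)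
          (redZ (fun i : Si I.K0 I.C1 I.P => i.1) n' i.1)) 1 B‖ * ∏ i ∈ B, r (scT i) ≤
        Real.exp (C2 + ∑ j, Real.exp (g' * ellT j) * (r j + r j ^ 2))) ∧
    ∀ (M : Finset ℕ), (∀ m ∈ M, 1 ≤ m ∧ (∀ p ∈ Tst I.K0, ¬ p ∣ m) ∧
        ∀ i : Si I.K0 I.C1 I.P, ¬ i.1 ∣ m) →
      ∀ Z : ℝ, 1 ≤ Z → (∀ m ∈ M, Z < m) →
      ∑ m ∈ M, ∑ B ∈ DDm (lo I kap) (fun i : Si I.K0 I.C1 I.P => i.1) (m0I I θ) (M0I I θ) m,
      ‖FBa I.g I.PP I.S1 I.S2 I.f1 I.f2 (fun i : Si I.K0 I.C1 I.P => i.1) (lo I kap)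
        (fun i n n' => K i.1 (redZ (fun i : Si I.K0 I.C1 I.P => i.1) n i.1)
          (redZ (fun i : Si I.K0 I.C1 I.P => i.1) n' i.1)) m B‖ * ∏ i ∈ B, r (scT i) ≤
        δ0 * Real.exp (-(c4 * Real.log Z)) *
          Real.exp (C2 + ∑ j, Real.exp (g' * ellT j) * (r j + r j ^ 2)) := by
  obtain ⟨s1, hs1⟩ := f1_core (b := Real.log 2) (Real.log_pos (by norm_num)) hγ hρ hA hη hη1
  obtain ⟨P1, hP11, hlv⟩ := lv_inst k hc hc1
  refine ⟨max s1 2, P1, ?_⟩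
  intro I κ kap hk hP ok hsn law nn K c0 u u' s rho e hK kw hkw θ cr g' C2 c4 δ0 β' m d ns Λ lm τ σ
    Θ A1 G0 a hF gs be ga del κ' hcA h1 h2 b0 hb0 r hr0 hr
  subst hk
  classical
  have hP1 : 1 ≤ I.P := hP11.trans hP
  have hP0 : 0 < I.P := by linarith
  obtain ⟨Rs, hN⟩ := hF.num b0 hb0 r hr0 hr
  obtain ⟨X, hX⟩ : ∃ X, X = XU (lo I kap) (scT : Si I.K0 I.C1 I.P → JT I.K0 I.C1 I.P) I.k Θ τ σ
    ellT := ⟨_, rfl⟩
  have hinj : Function.Injective (fun i : Si I.K0 I.C1 I.P => i.1) := Subtype.val_injective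
  have hpp : ∀ i : Si I.K0 I.C1 I.P, ((fun i : Si I.K0 I.C1 I.P => i.1) i).Prime :=
    fun i => si_prime i
  have hell1 : ∀ j : JT I.K0 I.C1 I.P, 1 ≤ ellT j := fun j => by
    have h3 := hsn j
    have h4 : (2 : ℝ) ≤ (j.1 : ℝ) := by exact_mod_cast (le_max_right s1 2).trans h3
    have h5 := Real.log_two_gt_d9
    show (1 : ℝ) ≤ (j.1 : ℝ) * Real.log 2
    nlinarith
  have hY : I.P ^ 4 ≤ (YI I : ℝ) := by
    have h3 : I.P ^ (4 : ℕ) ≤ I.P ^ I.C1 := by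
      rw [← Real.rpow_natCast]
      exact Real.rpow_le_rpow_of_exponent_le hP1 (by exact_mod_cast hF.P4)
    have h4 := Nat.lt_floor_add_one (I.P ^ I.C1)
    unfold YI
    push_cast
    linarith
  have hl := hlv I.P hP (α := Si I.K0 I.C1 I.P) (J := JT I.K0 I.C1 I.P) (lo := lo I kap)
    (prm := fun i => i.1) (ty := scT) (ell := ellT) (r := r) (X := X) (T := Tst I.K0) (kw := kw)
    (Y := YI I) (M := I.h0) (M0 := M0I I θ) (A := A1) (τ := τ) (Θ := Θ) (σ := σ) (c4 := c4)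
    hpp hinj (fun i _ h => by
      have h3 := (mem_Tst.1 h).1
      have h4 := si_K0 i
      omega) (fun i _ => ell_si i) hell1 hr0
    (fun j => by rw [hX]; exact XU_nonneg hF.Θ0 j) (fun i hi => by rw [hX]; exact XU_ge hi)
    hkw.nn hkw.one hkw.pow hF.A11 hF.τ0 hF.τ1 hF.Θ0 hF.Θ1 hF.σ0 hF.σ1 hF.σA hF.c40 hF.c41 hY
    hF.M01 hF.M0Θ hF.M0cap
  obtain ⟨hl1, hl2⟩ := hl
  have hty : ∀ p, tyU (lo I kap) (fun i : Si I.K0 I.C1 I.P => i.1) p ↔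
      ∃ i : Si I.K0 I.C1 I.P, ¬ lo I kap i ∧ i.1 = p := fun p => Iff.rfl
  have hRU : ∀ i : Si I.K0 I.C1 I.P, ¬ lo I kap i →
      RU (lo I kap) (fun i : Si I.K0 I.C1 I.P => i.1) scT r i.1 = r (scT i) :=
    fun i hi => RU_prm (lo := lo I kap) (prm := fun i : Si I.K0 I.C1 I.P => i.1) hinj hi
  have hXs : ∑ o, XO X r o ≤ ∑ j, X j * r j := (sum_XO X r).le
  have hbd : ∀ j : JT I.K0 I.C1 I.P, 2 * ∑ i : Lo I kap, (if scT i.1 = j then e i else 0) + X j ≤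
      Real.exp (g' * ellT j) := fun j => by
    have h3 := hF.e j
    have h4 := hF.X j
    rw [← hX] at h4
    have h5 := Real.exp_pos (g' * ellT j)
    linarith
  have hbl : ∀ j : JT I.K0 I.C1 I.P, Real.exp (19 * γ * snT j) * (16 * m + 64) ^ 2 ≤
      Real.exp (g' * ellT j) := fun j => by
    have h3 := hN.Bl j
    have h5 := Real.exp_pos (g' * ellT j)
    have h6 : Real.log 2 * (snT j : ℝ) = ellT j := mul_comm _ _
    rw [h6] at h3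
    linarith
  have hcore : ∀ {𝓜 : Finset ℕ} {gn : ℝ}, (∀ m ∈ 𝓜, 1 ≤ m) →
      (∀ m ∈ 𝓜, ∀ i : Si I.K0 I.C1 I.P, ¬ lo I kap i → ¬ i.1 ∣ m) → 0 ≤ gn →
      LVNum (tyU (lo I kap) (fun i : Si I.K0 I.C1 I.P => i.1)) (PrI I kap θ) kw
        (RU (lo I kap) (fun i : Si I.K0 I.C1 I.P => i.1) scT r)
        (tyO (lo I kap) (fun i : Si I.K0 I.C1 I.P => i.1) scT) (ellO ellT) (XO X r)
        (M2f (lo I kap) (fun i : Si I.K0 I.C1 I.P => i.1) (M0I I θ) 𝓜) (g0c c)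
        (Nat.log 2 (M0I I θ)) (YI I) I.h0 A1 τ Θ σ (M0I I θ) (I.P ^ (-(1 / 8) : ℝ)) c4 (1 / 32)
        gn →
      ∑ m ∈ 𝓜, ∑ B ∈ DDm (lo I kap) (fun i : Si I.K0 I.C1 I.P => i.1) (m0I I θ) (M0I I θ) m,
        ‖FBa I.g I.PP I.S1 I.S2 I.f1 I.f2 (fun i : Si I.K0 I.C1 I.P => i.1) (lo I kap)
          (fun i n n' => K i.1 (redZ (fun i : Si I.K0 I.C1 I.P => i.1) n i.1)
            (redZ (fun i : Si I.K0 I.C1 I.P => i.1) n' i.1)) m B‖ * ∏ i ∈ B, r (scT i) ≤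
      gn * Real.exp (C2 + ∑ j, Real.exp (g' * ellT j) * (r j + r j ^ 2)) := by
    intro 𝓜 gn hM1 hM2 hgn hLV
    exact hs1 (V := fun i : Lo I kap => ZMod (qL I kap i)) (red := redZ (qL I kap)) hpp hinj
      (wL_nonneg nn) (wL_sum law) I.g I.PP hkw.hG hK hM1 hM2 (sn := snT)
      (fun i => (le_max_left s1 2).trans (hsn _)) hF.m1 (fun i => (Real.exp_pos _).le) hr0 hN lm
      hF.lm0 hF.lm1 hF.dlm hty hRU hLV hgn hcA hF.G00 h1 h2 hXs hbd hbl hF.C2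
  refine ⟨?_, ?_⟩
  · have h3 := hcore (𝓜 := {1}) (gn := 1) (fun m hm => (mem_singleton.1 hm).ge)
      (fun m hm i _ hd => by
        rw [mem_singleton.1 hm] at hd
        exact (si_prime i).one_lt.ne' (Nat.dvd_one.1 hd)) zero_le_one hl1
    rw [sum_singleton, one_mul] at h3
    exact h3
  · intro M hM Z hZ hMZ
    have hZ0 : 0 < Z := by linarith
    have h3 := hcore (𝓜 := M) (gn := I.P ^ (-(1 / 8) : ℝ) * Z ^ (-c4)) (fun m hm => (hM m hm).1)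
      (fun m hm i _ => (hM m hm).2.2 i)
      (mul_nonneg (Real.rpow_nonneg hP0.le _) (Real.rpow_nonneg hZ0.le _))
      (hl2 M Z hZ hMZ (fun m hm p hp hpm => untyped hp hpm (hM m hm).2.1 (hM m hm).2.2)
        (fun m hm i _ => (hM m hm).2.2 i))
    refine h3.trans (mul_le_mul_of_nonneg_right ?_ (Real.exp_pos _).le)
    have h4 : Z ^ (-c4) = Real.exp (-(c4 * Real.log Z)) := by
      rw [Real.rpow_def_of_pos hZ0]
      congr 1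
      ring
    rw [h4]
    exact mul_le_mul_of_nonneg_right hF.δ (Real.exp_pos _).le

end Vale.Agent.P042P.H635
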