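import Vale.Agent.P042PQ.H359CellsF
import Vale.Agent.P042.H387.Par

set_option autoImplicit false

/-!
P042, prime arguments: port of `P042.H387.Par` to the pairs (polynomial, linear form).
-/

namespace Vale.Agent.P042P.H387
open Vale.Agent.P042 hiding AuxData AuxData.lam_le AuxData.lam_pos AuxData.natDegree_H DiffFree
  rMax
open Vale.Agent.P042.H387 hiding constants

open Polynomial Finset
open Vale.Agent.P042.SS hiding Gam
open Vale.Agent.P042.H739 hiding Base6 GwTy LOWERF LOWat STat StTy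
open Vale.Agent.P042.H362 hiding AtEv AtF FF6 HypF MfEv QPF QlEv StF StF1
open Vale.Agent.P042P.H362

open Vale.Agent.P042.H972 hiding Mx_df StOf base6_of stat_of
open Vale.Agent.P042P.H972
open Vale.Agent.P042.H359 hiding CELLSF cells_StF
open Vale.Agent.P042P.H359

/-- **ALL CONSTANTS**: from the exponents (functions of `k` and `R`), the thresholds of the local
part and the bound `Q0 k R K0` of the moduli of the cells, parameters and families of the state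
which fit, with `K0` tending to infinity as `κ` tends to `0`, and with regular cells. -/
theorem constants (C1 : ℕ → ℝ) (hC1 : ∀ k, 2 ≤ k → 1 ≤ C1 k) (cs : ℕ → ℕ → Cst)
    (hcs : ∀ k R, 2 ≤ k → CstOk (cs k R)) (thk : ℕ → ℕ → ℝ → ℝ)
    (hthk : ∀ k R κ, 0 < thk k R κ) (thr : ℕ → ℕ → ℝ → ℕ) (thb : ℕ → ℕ → ℝ → ℕ → ℝ)
    (hthb : ∀ k R κ n, 0 < thb k R κ n) (Q0 : ℕ → ℕ → ℕ → ℕ) :
    ∃ par : ℕ → ℕ → ℝ → FP,
      (∀ k R κ, 2 ≤ k → 0 < κ → Fit C1 cs thk thr thb k R κ (par k R κ)) ∧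
      (∀ k R κ, 2 ≤ k → 0 < κ → FPOk (par k R κ) k κ) ∧
      (∀ k R κ, 2 ≤ k → 0 < κ → FamP (par k R κ) k R (mkFam C1 cs par k R κ)) ∧
      (∀ k R K00 : ℕ, ∃ κs : ℝ, 0 < κs ∧ ∀ κ : ℝ, 0 < κ → κ ≤ κs → K00 ≤ K0fun par k R κ) ∧
      CELLSF (K0fun par) (Q0fun Q0 par) (StF par (mkFam C1 cs par)) := by
  obtain ⟨par, hpar⟩ : ∃ par : ℕ → ℕ → ℝ → FP,
    par = mkPar C1 cs thk (fun k R κ => max (thr k R κ) ⌈1 / κ⌉₊) (thbC Q0 thb) := ⟨_, rfl⟩
  have hfit : ∀ k R κ, 2 ≤ k → 0 < κ →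
      Fit C1 cs thk (fun k R κ => max (thr k R κ) ⌈1 / κ⌉₊) (thbC Q0 thb) k R κ (par k R κ) := by
    intro k R κ hk hκ
    rw [hpar]
    exact mkPar_fit (hC1 k hk) (hcs k R hk) hk hκ (hthk k R κ) fun n => thbC_pos (hthb k R κ n)
  refine ⟨par, fun k R κ hk hκ => (hfit k R κ hk hκ).mono (le_max_left _ _) fun n =>
    min_le_left _ _, fun k R κ hk hκ => (hfit k R κ hk hκ).ok, fun k R κ hk hκ =>
    mkFam_ok (hC1 k hk) (hcs k R hk) hk (hfit k R κ hk hκ).ok (hfit k R κ hk hκ).eC1, ?_, ?_⟩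
  · intro k R K00
    refine ⟨1 / (K00 + 1), by positivity, fun κ hκ hκ1 => ?_⟩
    have h1 : K00 ≤ ⌈1 / κ⌉₊ := by
      have h2 : (K00 : ℝ) + 1 ≤ 1 / κ := by
        rw [le_div_iff₀ hκ, mul_comm]
        rw [le_div_iff₀ (by positivity)] at hκ1
        exact hκ1
      have h3 : (K00 : ℝ) ≤ (⌈1 / κ⌉₊ : ℕ) := by linarith [Nat.le_ceil (1 / κ)]
      exact_mod_cast h3
    have h2 : ⌈1 / κ⌉₊ ≤ (par k R κ).K0 := by
      rw [hpar]
      exact (le_max_right (thr k R κ) _).trans (le_max_left _ _)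
    exact (h1.trans h2).trans ((le_max_left _ _).trans (le_max_left _ _))
  · refine cells_StF par (mkFam C1 cs par) (K0fun par) (Q0fun Q0 par) fun k R hk hR =>
      ⟨1, one_pos, fun κ hκ _ => ?_⟩
    have hF := hfit k R κ hk hκ
    refine ⟨le_rfl, hF.ok.kp0, hF.ok.be0.le, ?_⟩
    obtain ⟨L, hL⟩ : ∃ L : ℝ, L = Real.log (Q0fun Q0 par k R κ) := ⟨_, rfl⟩
    have h1 : (par k R κ).be ≤ 1 / (20000 * (|L| + 8)) := by
      rw [hL]
      exact hF.be.trans (min_le_right _ _)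
    rw [← hL]
    have h3 : L + 8 ≤ |L| + 8 := by linarith [le_abs_self L]
    have h4 : (0 : ℝ) < |L| + 8 := by positivity
    calc (par k R κ).be * (L + 8) ≤ (par k R κ).be * (|L| + 8) :=
          mul_le_mul_of_nonneg_left h3 hF.ok.be0.le
      _ ≤ 1 / (20000 * (|L| + 8)) * (|L| + 8) := mul_le_mul_of_nonneg_right h1 h4.le
      _ = 1 / 20000 := by field_simp

end Vale.Agent.P042P.H387
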