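import Vale.Agent.P042PQ.H452PairK
import Vale.Agent.P042.H452.PairR

set_option autoImplicit false

/-!
P042, prime arguments: port of `P042.H452.PairR` to the pairs (polynomial, linear form).
-/

namespace Vale.Agent.P042P.H452
open Vale.Agent.P042 hiding AuxData AuxData.lam_le AuxData.lam_pos AuxData.natDegree_H DiffFree
  rMax
open Vale.Agent.P042.H452 hiding GamN_conj Ram_conj Ram_ramK Ram_shift Wq_conj abs_ramK_le kp_O
  kp_R norm_GamN_le ooK ooK_OB ooK_left ooK_op ooK_right pair_ker prSt_F ramK ramK_shift sum_Ram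
  sum_ramK

open Polynomial Finset
open Vale.Agent.P042.SS hiding Gam
open Vale.Agent.P042.H74 hiding GamN GamN_coprime GamN_eq GamN_norm GamN_prime_norm GamN_tiny
  GamN_zero GamN_zero_one GamW GamW_eq_avC GamW_split GamW_zero_one NS NS_fer Ram Ram_mul Ram_one
  Ram_prime Ram_prod Ram_tiny Ram_tiny_zero Ram_zero Ram_zero_of_Wq Wq Wq_mul Wq_per Wq_zero
  Wq_zero_num Wq_zero_tiny avC_om avC_om_single deriv_fer_eval dns dns_fer dns_ge dns_pos
  dvd_deriv_fer fer fer_coeff fer_const fer_eval fer_natDegree kN kN_form kN_per multFam_GamN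
  neg_one_le_kN nonconst_fer om om_ne_zero om_per om_union sum_Ram_tiny sum_Wq
open Vale.Agent.P042P.H74

open Vale.Agent.P042.H599 (cm Law klu)

open Vale.Agent.P042.H386 (OutW kLu refW GP)
open Vale.Agent.P042P.H386 (PrSt)

open Vale.Agent.P042.H438 (Rs uw)

open Vale.Agent.P042.H92 (Prm PLaw PPair)

section rep

variable {ι : Type*} {V : ι → Type*} [∀ i, Fintype (V i)] {q : ι → ℕ} {r : ∀ i, ℕ → V i}

end rep

section pair

variable {ι : Type} [Fintype ι] [DecidableEq ι] {V : ι → Type} [∀ i, Fintype (V i)]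
  [∀ i, DecidableEq (V i)] {q : ι → ℕ} {r : ∀ i, ℕ → V i}

/-- **the kernels on the typed sites** -/
theorem kp_R (k : ℕ) (hk : 1 ≤ k) (α γ : ℝ) (hα : 0 < α) (hα1 : α ≤ 1 / 48)
    (hγ : 14 * α ≤ γ) :
    ∃ K0 : ℝ, 1 ≤ K0 ∧ ∀ (f g : PL) (nu : ℕ → ℝ) (A M : ℕ) (ι : Type) [Fintype ι]
      [DecidableEq ι] (V : ι → Type) [∀ i, Fintype (V i)] [∀ i, DecidableEq (V i)]
      (q : ι → ℕ) (r : ∀ i, ℕ → V i) (lo : ι → Prop) [DecidablePred lo] (es : ι → ℝ)
      (lam : ∀ i, V i → ℝ) (Q : Prm) (H : Rs q r),
      Q.γ = γ → g.natDegree = k → Law nu A M → (∀ i, K0 ≤ q i ∧ GP g (q i)) →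
      (∀ i, lo i → (∀ t : ℤ, kN g (q i) t = kN f (q i) t) ∧
        PrSt f nu A M ((q i : ℝ) ^ α) (q i)) →
      (∀ i, es i - Real.log 2 ≤ Real.log (q i)) →
      (∀ i, Real.log 2 ≤ γ * es i) → (∀ i, 5 * Real.log 2 ≤ es i) →
      (∀ i, lo i → ∀ b < q i, lam i (r i b) = cm nu A M (q i) b) →
      (∀ i, lo i → es i ≤ (2 - Q.kap) * Q.p + Real.log 2) →
      (∀ i, ¬ lo i → (2 - Q.kap) * Q.p < es i) →
      ∃ (K : ∀ i, V i → V i → ℝ) (e e' : ∀ i, V i → ℝ) (w w' : ∀ i, V i → ℝ)
        (s : ∀ i, V i → V i → ℝ) (rho ee : ι → ℝ),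
        (∀ i, lo i → OutW (fun x => cm nu A M (q i) (vR H i x))
          (fun x y => kN g (q i) ((vR H i x : ℤ) - vR H i y)) (K i) (e i) (e' i) (q i) α) ∧
        (∀ i, ¬ lo i → K i = fun x y => kN g (q i) ((vR H i x : ℤ) - vR H i y)) ∧
        ∑ i, ee i ≤ 1 / 32 ∧
        KPair Q univ es lo lam (lam2R lo lam q) (uw q) K (fun _ => 0) w w' s rho ee := by
  obtain ⟨K0, hK0, H0⟩ := pair_ker k hk α γ hα hα1 hγ
  refine ⟨K0, hK0, fun f g nu A M ι _ _ V _ _ q r lo _ es lam Q H hQ hg hL hp hW hes hγes hes5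
    hlam hlo1 hlo2 => ?_⟩
  have hinj : Function.Injective q := by
    intro i j hij
    by_contra hne
    have h1 : (q i).Coprime (q j) := H.cop hne
    rw [← hij, Nat.coprime_self] at h1
    have := H.two i
    omega
  obtain ⟨K, e, e', w, w', s, rho, ee, h1, h2, h3, h4, h5, h6, h7, h8⟩ :=
    H0 f g nu A M ι q V (fun i => vR H i) lo (fun i => Real.log (q i)) es hg hL hinj hp
      (fun i => rs_vR H i) (fun i x => vR_lt H i x) hW
      (fun i => Real.exp_log (by exact_mod_cast H.pos i)) hes hγes hes5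
  have href : (fun i => refW (lo i) nu A M (q i) (vR H i)) = lam2R lo lam q := by
    funext i
    exact lam2R_eq H lo hlam i
  rw [href] at h3
  refine ⟨K, e, e', w, w', s, rho, ee, h1, h2, h8, ?_⟩
  exact
    { ob := h3
      nn := fun i a => by rw [← lam2R_eq H lo hlam i]; exact h4 i a
      one := fun i => by rw [← lam2R_eq H lo hlam i]; exact h5 i
      low := fun i hi => by unfold lam2R; rw [if_pos hi]
      high := fun i hi => by unfold lam2R; rw [if_neg hi]
      lo1 := fun i hi => ⟨mem_univ i, hlo1 i hi⟩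
      lo2 := fun i _ hi => hlo2 i hi
      rho1 := fun i _ => by rw [hQ]; exact h6 i
      e1 := fun i _ => by rw [hQ]; exact h7 i }

end pair

section opt

variable {ι : Type} [Fintype ι] [DecidableEq ι] {V : Option ι → Type} [∀ i, Fintype (V i)]
  [∀ i, DecidableEq (V i)] {q : Option ι → ℕ} {r : ∀ i, ℕ → V i}

/-- **the kernels with one super-modulus** at `none` -/
theorem kp_O (g : PL) (PP : Finset ℕ) (hPP : NS g PP) (H : Rs q r) {lo : ι → Prop}
    [DecidablePred lo] [DecidablePred (loO lo)] {es : Option ι → ℝ} {lam : ∀ i, V i → ℝ}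
    {Q : Prm} {K : ∀ i : ι, V (some i) → V (some i) → ℝ} {w w' : ∀ i : ι, V (some i) → ℝ}
    {s : ∀ i : ι, V (some i) → V (some i) → ℝ} {rho ee : ι → ℝ}
    (hP : KPair Q univ (fun i => es (some i)) lo
      (fun i => lam (some i)) (lam2R lo (fun i => lam (some i)) (fun i => q (some i)))
      (uw fun i => q (some i)) K (fun _ => 0) w w' s rho ee) :
    ∃ (K' : ∀ i, V i → V i → ℝ) (c' : Option ι → ℝ) (u1 u1' : ∀ i, V i → ℝ)
      (s' : ∀ i, V i → V i → ℝ) (rho' e' : Option ι → ℝ),
      (∀ i, K' (some i) = K i) ∧ K' none = ooK g PP (q none) (vR H none) ∧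
      (∀ i, rho' (some i) = rho i) ∧ rho' none = q none ∧ (∀ i, e' (some i) = ee i) ∧
      e' none = 0 ∧
      KPair Q (univ.erase none) es (loO lo) lam
          (lam2R (loO lo) lam q) (uw q) K' c' u1 u1' s' rho' e' := by
  have hs : ∀ i : ι, lam2R (loO lo) lam q (some i) =
      lam2R lo (fun i => lam (some i)) (fun i => q (some i)) i := by
    intro i
    unfold lam2R
    by_cases h : lo i
    · have h1 : loO lo (some i) := h
      rw [if_pos h, if_pos h1]
    · have h1 : ¬ loO lo (some i) := h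
      rw [if_neg h, if_neg h1]
      rfl
  have hn : lam2R (loO lo) lam q none = fun _ : V none => (Fintype.card (V none) : ℝ)⁻¹ := by
    have h1 : ¬ loO lo (none : Option ι) := fun h => h
    unfold lam2R
    rw [if_neg h1]
    funext x
    unfold uw
    rw [H.card none, one_div]
  have h0 := ooK_OB (g := g) hPP (H.two none) (rs_vR H none)
  have hob := hP.ob
  have hfun : (fun i : ι => lam2R (loO lo) lam q (some i)) =
      lam2R lo (fun i => lam (some i)) (fun i => q (some i)) := funext hs
  rw [← hfun] at hob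
  have h0' : H365.OB (fun _ : Unit => lam2R (loO lo) lam q none)
      (fun _ => ooK g PP (q none) (vR H none)) (fun _ => 0) (fun _ _ => 0) (fun _ _ => 0)
      (fun _ => ooK g PP (q none) (vR H none)) (fun _ => ((q none : ℕ) : ℝ)) (fun _ => 0) := by
    rw [hn]
    exact h0
  obtain ⟨K', c', u1, u1', s', rho', e', a1, a2, a3, a4, a5, a6, a7⟩ := OB_ext hob h0'
  refine ⟨K', c', u1, u1', s', rho', e', a1, a2, a3, a4, a5, a6, ?_⟩
  have hq0 : (0 : ℝ) < q none := by exact_mod_cast H.pos none
  exact
    { ob := a7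
      nn := fun i a => by
        cases i with
        | none =>
          rw [hn]
          positivity
        | some i =>
          rw [hs i]
          exact hP.nn i a
      one := fun i => by
        cases i with
        | none =>
          rw [hn, sum_const, card_univ, nsmul_eq_mul, H.card none, mul_inv_cancel₀ hq0.ne']
        | some i =>
          rw [hs i]
          exact hP.one i
      low := fun i hi => by unfold lam2R; rw [if_pos hi]
      high := fun i hi => by unfold lam2R; rw [if_neg hi]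
      lo1 := fun i hi => by
        cases i with
        | none => exact hi.elim
        | some i => exact ⟨mem_erase.2 ⟨Option.some_ne_none i, mem_univ _⟩, (hP.lo1 i hi).2⟩
      lo2 := fun i hi hl => by
        cases i with
        | none => exact absurd rfl (mem_erase.1 hi).1
        | some i => exact hP.lo2 i (mem_univ i) hl
      rho1 := fun i hi => by
        cases i with
        | none => exact absurd rfl (mem_erase.1 hi).1
        | some i =>
          rw [a3 i]
          exact hP.rho1 i (mem_univ i)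
      e1 := fun i hi => by
        cases i with
        | none => exact absurd rfl (mem_erase.1 hi).1
        | some i =>
          rw [a5 i]
          exact hP.e1 i (mem_univ i) }

end opt

end Vale.Agent.P042P.H452
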