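import Vale.Agent.P042PQ.H739SeamP
import Vale.Agent.P042PQ.H74SeamG
import Vale.Agent.P042.H739.LowF

set_option autoImplicit false

/-!
P042, prime arguments: port of `P042.H739.LowF` to the pairs (polynomial, linear form).
-/

namespace Vale.Agent.P042P.H739
open Vale.Agent.P042 hiding AuxData AuxData.lam_le AuxData.lam_pos AuxData.natDegree_H DiffFree
  rMax
open Vale.Agent.P042.H739 hiding Base6 CELLS GWk GwTy HLOC HLOCat LOWERF LOWat STat StTy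
  lowat_congr lowat_ofP lowerF_of lower_at seamH_of

open Polynomial Finset
open Vale.Agent.P042.SS hiding Gam
open Vale.Agent.P042.H74 hiding GamN GamN_coprime GamN_eq GamN_norm GamN_prime_norm GamN_tiny
  GamN_zero GamN_zero_one GamW GamW_eq_avC GamW_split GamW_zero_one Gam_fer_norm NS NS_fer Ram
  Ram_index Ram_mul Ram_one Ram_prime Ram_prod Ram_tiny Ram_tiny_zero Ram_zero Ram_zero_of_Wq Wq
  Wq_mul Wq_per Wq_zero Wq_zero_num Wq_zero_tiny avC_om avC_om_single deriv_fer_eval dns dns_fer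
  dns_ge dns_ge_exp dns_le_one dns_nonneg dns_pos dvd_deriv_fer fer fer_coeff fer_const fer_eval
  fer_natDegree kN kN_form kN_per multFam_GamN neg_one_le_kN nonconst_fer not_dvd_of_nonconst om
  om_ne_zero om_per om_union prod_dns_ge prod_dns_ge_aux seamG sum_Ram_full sum_Ram_index
  sum_Ram_tiny sum_Wq
open Vale.Agent.P042P.H74
open Vale.Agent.P042.H452 hiding FB GamW_eq_GamN PS PS_eq SeamH SeamH.pos SeamH.prime SeamH.rho0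
  SeamH.term_bound Tt crossT crossT_eq main_eq ps_l1 seam
open Vale.Agent.P042P.H452

open Vale.Agent.P042.H245 hiding GWf
open Vale.Agent.P042.H359

/-- no cell of the state is much heavier than the average, for moduli up to `Q0f k R κ` with
primes up to `K0f k R κ` only -/
def CELLS (K0f Q0f : ℕ → ℕ → ℝ → ℕ) (St : StTy) : Prop :=
  ∀ k R : ℕ, 2 ≤ k → 1 ≤ R → ∃ κs : ℝ, 0 < κs ∧ ∀ κ : ℝ, 0 < κ → κ ≤ κs →
  ∃ P0 : ℝ, ∀ P : ℝ, P0 ≤ P → ∀ (f : PL) (N' : ℕ) (G : ℤ → ℝ), f.natDegree = k →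
    0 < f.leadingCoeff → Base6 f κ P N' G → St k R f κ P N' G →
    ∀ q : ℕ, 1 ≤ q → q ≤ Q0f k R κ → (∀ p : ℕ, p.Prime → p ∣ q → p ≤ K0f k R κ) →
      ∀ (z : ℤ) (V : ℕ), 0 ≤ z → z + V ≤ N' → N' ≤ 1000 * V →
      ∀ w : ZMod q, q * cmass G q w z V ≤ (1 + 1 / 8000) * V

/-- the lower bound of the local sum at one state -/
def HLOCat (C1 : ℝ) (k R K0 : ℕ) (g θ ε P : ℝ) (f : PL) (N' : ℕ) (G : ℤ → ℝ) : Prop :=
  ∀ z0 : ℕ, TinyD f (Tst K0) (Vp k R) (q1s k R K0) z0 →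
  ∀ (h0 : ℕ) (z1 z2 : ℤ) (w : ZMod (q0s k R K0 f z0)), 0 ≤ z1 → z1 + h0 ≤ N' → 0 ≤ z2 →
    z2 + h0 ≤ N' → N' ≤ 100 * h0 →
    (h0 : ℝ) / 2 ≤ q0s k R K0 f z0 * cmass G (q0s k R K0 f z0) w z1 h0 →
    (h0 : ℝ) / 2 ≤ q0s k R K0 f z0 *
      cmass G (q0s k R K0 f z0) (w - ((f.eval (z0 : ℤ) : ℤ) : ZMod _)) z2 h0 →
  ∃ (e e' : {p // p ∈ Wst K0 g P} → ℤ → ℝ) (b b' : {p // p ∈ Wst K0 g P} → ℝ)
    (K : {p // p ∈ Wst K0 g P} → ℤ → ℤ → ℝ),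
    (∀ i, 0 ≤ b i) ∧ (∀ i, 0 ≤ b' i) ∧
    (∀ i n, e i (n + (i.1 : ℕ)) = e i n) ∧ (∀ i n, e' i (n + (i.1 : ℕ)) = e' i n) ∧
    (∀ i, ∑ x ∈ range i.1, e i (x : ℤ) ^ 2 ≤ (i.1 : ℕ) * b i ^ 2) ∧
    (∀ i, ∑ x ∈ range i.1, e' i (x : ℤ) ^ 2 ≤ (i.1 : ℕ) * b' i ^ 2) ∧
    (∑ i, (b i + b' i) ≤ P ^ (1 - g / 4)) ∧
    (∀ i, ∀ n ∈ cell (q0s k R K0 f z0) w z1 h0,
      ∀ m ∈ cell (q0s k R K0 f z0) (w - ((f.eval (z0 : ℤ) : ℤ) : ZMod _)) z2 h0,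
      1 + K i n m =
        (1 + e i n) * (1 + kN (fer f (q1s k R K0) z0) i.1 (n - m)) * (1 + e' i m)) ∧
    Real.exp (-(ε * P)) * (cmass G (q0s k R K0 f z0) w z1 h0 *
        cmass G (q0s k R K0 f z0) (w - ((f.eval (z0 : ℤ) : ℤ) : ZMod _)) z2 h0) ≤
      ‖∑ B ∈ low {p // p ∈ Wst K0 g P} ⌊θ * P / Real.log P⌋₊,
        ∑ m2 ∈ MM (Tst K0) (fun i : {p // p ∈ Wst K0 g P} => i.1) ⌊Real.exp (θ * P)⌋₊,
        FB (fer f (q1s k R K0) z0) (PPf C1 (fer f (q1s k R K0) z0) P)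
          (cell (q0s k R K0 f z0) w z1 h0)
          (cell (q0s k R K0 f z0) (w - ((f.eval (z0 : ℤ) : ℤ) : ZMod _)) z2 h0) G G K B m2‖

/-- the lower bound of the local sum; order of the constants: `g, θ`, then `κ`, then
`K0 = K0f k R κ`, then `ε`, then `P` -/
def HLOC (K0f : ℕ → ℕ → ℝ → ℕ) (C1f : ℕ → ℝ) (St : StTy) : Prop :=
  ∀ k R : ℕ, 2 ≤ k → 1 ≤ R → ∀ thQ : ℝ, 0 < thQ → thQ ≤ 1 / 16 →
  ∃ g θ κs : ℝ, 0 < g ∧ g ≤ 1 / 2 ∧ 0 < θ ∧ θ ≤ thQ / 16 ∧ 0 < κs ∧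
  ∀ κ : ℝ, 0 < κ → κ ≤ κs → ∀ ε : ℝ, 0 < ε → ∃ P0 : ℝ, ∀ P : ℝ, P0 ≤ P →
  ∀ (f : PL) (N' : ℕ) (G : ℤ → ℝ), f.natDegree = k → 0 < f.leadingCoeff →
    (∀ g : ℤ, (∀ j : ℕ, 1 ≤ j → g ∣ f.coeff j) → g ∣ (R : ℤ)) →
    (∀ j : ℕ, |(f.coeff j : ℝ)| ≤ Real.exp (2 * k * κ * P)) →
    Base6 f κ P N' G → St k R f κ P N' G → HLOCat (C1f k) k R (K0f k R κ) g θ ε P f N' G

/-- the hypotheses of the seam at the sites of the power version -/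
theorem seamH_of {C1 : ℝ} (hC1 : 2 ≤ C1) {k R K0 : ℕ} {kap : ℕ → ℕ → ℝ} {f : PL}
    {z0 N' : ℕ} {G : ℤ → ℝ} {g θ κ thQ P : ℝ} (hg : 0 < g) (hP1 : 1 ≤ P)
    (hlg : 0 < Real.log P) (hθ0 : 0 < θ) (hθ1 : θ ≤ thQ / 16) (hthQ : 0 < thQ)
    (hthQ16 : thQ ≤ 1 / 16) (hkap0 : ∀ p j, 0 ≤ kap p j)
    (hfk : f.natDegree = k)
    (hT : TinyD f (Tst K0) (Vp k R) (q1s k R K0) z0)
    {PP : Finset ℕ} (hPPe : PP = PPf C1 (fer f (q1s k R K0) z0) P)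
    (hNS : NS (fer f (q1s k R K0) z0) PP)
    (hnT : ∀ p : ℕ, p.Prime → p ∉ Tst K0 → k < p ∧
      (∃ j : ℕ, 1 ≤ j ∧ ¬ (p : ℤ) ∣ f.coeff j) ∧
      ∃ j : ℕ, 1 ≤ j ∧ ¬ (p : ℤ) ∣ (fer f (q1s k R K0) z0).coeff j)
    (hGam : ∀ (q : ℕ) (a : ℤ), 1 ≤ q → IsCoprime a (q : ℤ) →
      ‖GamN (fer f (q1s k R K0) z0) PP a q‖ ≤ kapProd (kwS k (Tst K0) PP kap) q)
    (hρ : ∀ p : ℕ, p.Prime → p ∉ Tst K0 → kwS k (Tst K0) PP kap p 1 ≤ 4 * k / Real.sqrt p)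
    {b b' : {p // p ∈ Wst K0 g P} → ℝ} {e e' : {p // p ∈ Wst K0 g P} → ℤ → ℝ}
    (hb0 : ∀ i, 0 ≤ b i) (hb0' : ∀ i, 0 ≤ b' i)
    (hper : ∀ i n, e i (n + (i.1 : ℕ)) = e i n) (hper' : ∀ i n, e' i (n + (i.1 : ℕ)) = e' i n)
    (he : ∀ i, ∑ x ∈ range i.1, e i (x : ℤ) ^ 2 ≤ (i.1 : ℕ) * b i ^ 2)
    (he' : ∀ i, ∑ x ∈ range i.1, e' i (x : ℤ) ^ 2 ≤ (i.1 : ℕ) * b' i ^ 2)
    {S1 S2 : Finset ℤ} (hS1I : S1 ⊆ Icc (1 : ℤ) N') (hS2I : S2 ⊆ Icc (1 : ℤ) N')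
    (habs : ∀ n : ℤ, |G n| ≤ Real.exp (κ * P)) (hlo : Real.exp (P / 2) ≤ N') :
    SeamH (fer f (q1s k R K0) z0) PP (Tst K0)
      (fun i : {p // p ∈ Wst K0 g P} => (i.1 : ℕ)) (kwS k (Tst K0) PP kap)
      (fun i => 4 * (k : ℝ) / Real.sqrt ((i.1 : ℕ) : ℝ)) b b' e e' S1 S2 G G
      (Real.exp (κ * P)) N' ⌊Real.exp (thQ * P)⌋₊ ⌊θ * P / Real.log P⌋₊ := by
  have hP0 : 0 < P := by linarith
  have hWT : ∀ i : {p // p ∈ Wst K0 g P}, (i.1 : ℕ) ∉ Tst K0 := fun i hi => by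
    have := (mem_Tst.1 hi).2
    have := ((mem_Wst hP0.le).1 i.2).2.1
    omega
  have hWp : ∀ i : {p // p ∈ Wst K0 g P}, (i.1 : ℕ).Prime := fun i => ((mem_Wst hP0.le).1 i.2).1
  have hdeg : (fer f (q1s k R K0) (z0 : ℤ)).natDegree = k := by
    rw [fer_natDegree f _ hT.q1_pos, hfk]
  have hWPP : ∀ i : {p // p ∈ Wst K0 g P}, (i.1 : ℕ) ∈ PP := by
    intro i
    obtain ⟨a1, a2, a3⟩ := hnT i.1 (hWp i) (hWT i)
    rw [hPPe, mem_PPf]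
    refine ⟨hWp i, by rw [hdeg]; exact a1, a3,
      Nat.le_floor ((((mem_Wst hP0.le).1 i.2).2.2).trans ?_)⟩
    exact Real.rpow_le_rpow_of_exponent_le hP1 (by linarith)
  refine ⟨hNS, Subtype.val_injective, hWPP, fun p j => kwS_nonneg k _ _ hkap0 p j, hGam,
    fun i => hρ i.1 (hWp i) (hWT i), hb0, hb0', hper, hper', he, he', hS1I, hS2I,
    (Real.exp_pos _).le, fun n _ => habs n, fun n _ => habs n, ?_, ?_, ?_⟩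
  · apply Nat.le_floor
    rw [Nat.cast_one]
    exact Real.one_le_exp (by positivity)
  · have h1 : ((⌊Real.exp (thQ * P)⌋₊ : ℝ)) ^ 4 ≤ N' := by
      refine le_trans (pow_le_pow_left₀ (Nat.cast_nonneg _) (Nat.floor_le (Real.exp_pos _).le) 4) ?_
      refine le_trans ?_ hlo
      rw [← Real.exp_nat_mul, Real.exp_le_exp]
      push_cast
      nlinarith
    exact_mod_cast h1
  · intro B hBc
    have h1 := (prod_num hg hP1 hlg hθ0 B hBc).trans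
      (le_trans (Real.exp_le_exp.2 (by nlinarith)) hlo)
    exact_mod_cast h1

/-- the assembly at one state, after the choice of the cells -/
theorem lower_at {C1 : ℝ} {k R K0 Q0 : ℕ} {c : ℝ} {kap : ℕ → ℕ → ℝ}
    {f : PL} {z0 N' : ℕ} {G : ℤ → ℝ} {g θ κ κ0 β ε thQ P : ℝ} (hc0 : 0 < c) (hg : 0 < g)
    (hθ0 : 0 < θ) (hθ1 : θ ≤ thQ / 16) (hthQ : 0 < thQ) (hthQ16 : thQ ≤ 1 / 16)
    (hκ0 : 0 < κ0) (hβ : β = min (g * θ / 16) (c * θ / 2))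
    (hκ3 : κ ≤ κ0 / 8) (hκ5 : κ ≤ β / 8) (hε1 : ε ≤ κ0 / 4) (hε2 : ε ≤ β / 4)
    (N : NumP g θ c κ κ0 ε thQ Q0 k P)
    (hfk : f.natDegree = k)
    (hT : TinyD f (Tst K0) (Vp k R) (q1s k R K0) z0) (hz0 : z0 ≤ q1s k R K0)
    (hq0le : q0s k R K0 f z0 ≤ Q0)
    (hdn : Real.exp (-(ε * P)) ≤
      ∏ p ∈ PPf C1 (fer f (q1s k R K0) z0) P, dns (fer f (q1s k R K0) z0) p)
    {PP : Finset ℕ} (hPPe : PP = PPf C1 (fer f (q1s k R K0) z0) P)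
    (H1 : ∀ {b b' : {p // p ∈ Wst K0 g P} → ℝ} {e e' : {p // p ∈ Wst K0 g P} → ℤ → ℝ},
      (∀ i, 0 ≤ b i) → (∀ i, 0 ≤ b' i) →
      (∀ i n, e i (n + (i.1 : ℕ)) = e i n) → (∀ i n, e' i (n + (i.1 : ℕ)) = e' i n) →
      (∀ i, ∑ x ∈ range i.1, e i (x : ℤ) ^ 2 ≤ (i.1 : ℕ) * b i ^ 2) →
      (∀ i, ∑ x ∈ range i.1, e' i (x : ℤ) ^ 2 ≤ (i.1 : ℕ) * b' i ^ 2) →
      ∀ {S1 S2 : Finset ℤ}, S1 ⊆ Icc (1 : ℤ) N' → S2 ⊆ Icc (1 : ℤ) N' →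
      SeamH (fer f (q1s k R K0) z0) PP (Tst K0)
        (fun i : {p // p ∈ Wst K0 g P} => (i.1 : ℕ)) (kwS k (Tst K0) PP kap)
        (fun i => 4 * (k : ℝ) / Real.sqrt ((i.1 : ℕ) : ℝ)) b b' e e' S1 S2 G G
        (Real.exp (κ * P)) N' ⌊Real.exp (thQ * P)⌋₊ ⌊θ * P / Real.log P⌋₊)
    (hkw : ∀ m : ℕ, 1 ≤ m → (∀ p ∈ Tst K0, ¬ p ∣ m) →
          kapProd (kwS k (Tst K0) PP kap) m ≤ (m : ℝ) ^ (-c))
    (hPPm : ∀ p ∈ PP, p.Prime ∧ p ∉ Tst K0)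
    {Hw h0 : ℕ} (h8 : 8 * (Hw + h0) ≤ N') (h16 : N' ≤ 16 * Hw) (hh0 : 1 ≤ h0)
    (hh : 2 * h0 ≤ Hw) (hzN : 3 * Hw + 2 * h0 ≤ N') (hN100 : N' ≤ 100 * h0)
    (w : ZMod (q0s k R K0 f z0))
    (hw1 : (h0 : ℝ) / 2 ≤ q0s k R K0 f z0 *
      cmass G (q0s k R K0 f z0) w ((3 * Hw + h0 : ℕ) : ℤ) h0)
    (hw2 : (h0 : ℝ) / 2 ≤ q0s k R K0 f z0 *
      cmass G (q0s k R K0 f z0) (w - ((f.eval (z0 : ℤ) : ℤ) : ZMod _)) 0 h0)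
    (e e' : {p // p ∈ Wst K0 g P} → ℤ → ℝ) (b b' : {p // p ∈ Wst K0 g P} → ℝ)
    (K : {p // p ∈ Wst K0 g P} → ℤ → ℤ → ℝ)
    (hb0 : ∀ i, 0 ≤ b i) (hb0' : ∀ i, 0 ≤ b' i)
    (hper : ∀ i n, e i (n + (i.1 : ℕ)) = e i n) (hper' : ∀ i n, e' i (n + (i.1 : ℕ)) = e' i n)
    (he : ∀ i, ∑ x ∈ range i.1, e i (x : ℤ) ^ 2 ≤ (i.1 : ℕ) * b i ^ 2)
    (he' : ∀ i, ∑ x ∈ range i.1, e' i (x : ℤ) ^ 2 ≤ (i.1 : ℕ) * b' i ^ 2)
    (hbs : ∑ i, (b i + b' i) ≤ P ^ (1 - g / 4))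
    (hK : ∀ i, ∀ n ∈ cell (q0s k R K0 f z0) w ((3 * Hw + h0 : ℕ) : ℤ) h0,
      ∀ m ∈ cell (q0s k R K0 f z0) (w - ((f.eval (z0 : ℤ) : ℤ) : ZMod _)) 0 h0,
      1 + K i n m =
        (1 + e i n) * (1 + kN (fer f (q1s k R K0) z0) i.1 (n - m)) * (1 + e' i m))
    (hlow : Real.exp (-(ε * P)) * (cmass G (q0s k R K0 f z0) w ((3 * Hw + h0 : ℕ) : ℤ) h0 *
        cmass G (q0s k R K0 f z0) (w - ((f.eval (z0 : ℤ) : ℤ) : ZMod _)) 0 h0) ≤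
      ‖∑ B ∈ low {p // p ∈ Wst K0 g P} ⌊θ * P / Real.log P⌋₊,
        ∑ m2 ∈ MM (Tst K0) (fun i : {p // p ∈ Wst K0 g P} => i.1) ⌊Real.exp (θ * P)⌋₊,
        FB (fer f (q1s k R K0) z0) (PPf C1 (fer f (q1s k R K0) z0) P)
          (cell (q0s k R K0 f z0) w ((3 * Hw + h0 : ℕ) : ℤ) h0)
          (cell (q0s k R K0 f z0) (w - ((f.eval (z0 : ℤ) : ℤ) : ZMod _)) 0 h0) G G K B m2‖) :
    LOWat (GWf C1) K0 κ0 thQ P f N' G := by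
  classical
  have hP1 : 1 ≤ P := N.P1
  have hP0 : 0 < P := by linarith
  have hlg : 0 < Real.log P := by have := N.lg; linarith
  have hq1pos := hT.q1_pos
  have hq0pos : 1 ≤ q0s k R K0 f z0 := qnul_pos (z0 : ℤ) hq1pos
  have hQ01 : (1 : ℝ) ≤ Q0 := by exact_mod_cast hq0pos.trans hq0le
  have hq1le : q1s k R K0 ≤ Q0 := by
    refine le_trans ?_ hq0le
    unfold q0s qnul
    apply Nat.le_mul_of_pos_right
    rw [Int.gcd_pos_iff]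
    right
    have : q1s k R K0 ≠ 0 := by omega
    exact_mod_cast this
  have hNr0 : (0 : ℝ) ≤ N' := Nat.cast_nonneg _
  have hmm := mass_num (N' := (N' : ℝ)) (Q0 := (Q0 : ℝ)) hNr0 (by exact_mod_cast hN100)
    (by exact_mod_cast hq0pos) (by exact_mod_cast hq0le) hw1 hw2
  obtain ⟨m1, hm1⟩ : ∃ x : ℝ, x = cmass G (q0s k R K0 f z0) w ((3 * Hw + h0 : ℕ) : ℤ) h0 :=
    ⟨_, rfl⟩
  obtain ⟨m2, hm2⟩ : ∃ x : ℝ, x = cmass G (q0s k R K0 f z0)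
    (w - ((f.eval (z0 : ℤ) : ℤ) : ZMod _)) 0 h0 := ⟨_, rfl⟩
  rw [← hm1, ← hm2] at hmm hlow
  obtain ⟨L0, hL0⟩ : ∃ x : ℝ, x = Real.exp (-(ε * P)) / 2 * (m1 * m2) := ⟨_, rfl⟩
  have hL0l : Real.exp (-(ε * P)) * ((N' : ℝ) ^ 2 / (80000 * Q0 ^ 2)) ≤ L0 := by
    rw [hL0]
    have h1 : Real.exp (-(ε * P)) * ((N' : ℝ) ^ 2 / (80000 * Q0 ^ 2)) =
        Real.exp (-(ε * P)) / 2 * ((N' : ℝ) ^ 2 / (40000 * Q0 ^ 2)) := by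
      field_simp
      ring
    rw [h1]
    exact mul_le_mul_of_nonneg_left hmm (by positivity)
  -- the sums of the rates
  have hsρ := (sum_rho k K0 g P hP1).trans N.rate
  have hS : ∑ i : {p // p ∈ Wst K0 g P}, (4 * (k : ℝ) / Real.sqrt ((i.1 : ℕ) : ℝ) + b i + b' i) ≤
      2 * P ^ (1 - g / 4) := by
    have h1 : ∑ i : {p // p ∈ Wst K0 g P}, (4 * (k : ℝ) / Real.sqrt ((i.1 : ℕ) : ℝ) + b i + b' i) =
        ∑ i : {p // p ∈ Wst K0 g P}, 4 * (k : ℝ) / Real.sqrt ((i.1 : ℕ) : ℝ) +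
          ∑ i, (b i + b' i) := by
      rw [← sum_add_distrib]
      exact sum_congr rfl fun i _ => by ring
    rw [h1]
    linarith
  have hsb : ∑ i, b i ≤ P ^ (1 - g / 4) :=
    (sum_le_sum fun i _ => by have := hb0' i; linarith).trans hbs
  have hsb' : ∑ i, b' i ≤ P ^ (1 - g / 4) :=
    (sum_le_sum fun i _ => by have := hb0 i; linarith).trans hbs
  have hβ1 : β ≤ g * θ / 16 := by rw [hβ]; exact min_le_left _ _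
  have hβ2 : β ≤ c * θ / 2 := by rw [hβ]; exact min_le_right _ _
  have hx1 := (x1_le hg hP1 N.lg hS N.x1).trans
    (Real.exp_le_exp.2 (neg_le_neg (mul_le_mul_of_nonneg_right hβ1 hP0.le)))
  have hx2 := (x2_le hc0 N.c6 hθ0 hP1 hS N.x2).trans
    (Real.exp_le_exp.2 (neg_le_neg (mul_le_mul_of_nonneg_right hβ2 hP0.le)))
  have hc3 : 640000 * (Q0 : ℝ) ^ 2 ≤ Real.exp (β / 2 * P) := by
    rw [← Real.log_le_iff_le_exp (by positivity)]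
    have := N.c3
    rw [← hβ] at this
    exact this
  have hc2 : 80000 * (Q0 : ℝ) ^ 2 ≤ Real.exp (κ0 / 2 * P) := by
    rw [← Real.log_le_iff_le_exp (by positivity)]
    exact N.c2
  have hH := H1 hb0 hb0' hper hper' he he'
    (cell_sub (w := w) (z := ((3 * Hw + h0 : ℕ) : ℤ)) (V := h0) (N' := N') (by omega) (by omega))
    (cell_sub (w := w - ((f.eval (z0 : ℤ) : ℤ) : ZMod _)) (z := 0) (V := h0) (N' := N') (by omega)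
      (by omega))
  have hkw1 : ∀ m2 : ℕ, 1 ≤ m2 → m2 ≤ ⌊Real.exp (thQ * P)⌋₊ → (∀ p ∈ Tst K0, ¬ p ∣ m2) →
      (∀ i : {p // p ∈ Wst K0 g P}, ¬ (i.1 : ℕ) ∣ m2) →
      kapProd (kwS k (Tst K0) PP kap) m2 ≤ 1 := by
    intro m2 hm2 _ hmT _
    refine (hkw m2 hm2 hmT).trans ?_
    exact Real.rpow_le_one_of_one_le_of_nonpos (by exact_mod_cast hm2) (by linarith)
  have hkwδ : ∀ m2 : ℕ, 1 ≤ m2 → m2 ≤ ⌊Real.exp (thQ * P)⌋₊ → (∀ p ∈ Tst K0, ¬ p ∣ m2) →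
      (∀ i : {p // p ∈ Wst K0 g P}, ¬ (i.1 : ℕ) ∣ m2) → ⌊Real.exp (θ * P)⌋₊ < m2 →
      kapProd (kwS k (Tst K0) PP kap) m2 ≤ (⌊Real.exp (θ * P)⌋₊ : ℝ) ^ (-c) := by
    intro m2 hm2 _ hmT _ hM
    refine (hkw m2 hm2 hmT).trans ?_
    apply Real.rpow_le_rpow_of_nonpos
    · have : 1 ≤ ⌊Real.exp (θ * P)⌋₊ := by
        apply Nat.le_floor
        rw [Nat.cast_one]
        exact Real.one_le_exp (by positivity)
      exact_mod_cast this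
    · exact_mod_cast hM.le
    · linarith
  have hQ : ⌊Real.exp (2 * θ * P)⌋₊ * ⌊Real.exp (θ * P)⌋₊ * qnul f (q1s k R K0) z0 ≤
      ⌊Real.exp (thQ * P)⌋₊ := by
    apply Nat.le_floor
    push_cast
    have h1 : (⌊Real.exp (2 * θ * P)⌋₊ : ℝ) ≤ Real.exp (2 * θ * P) :=
      Nat.floor_le (Real.exp_pos _).le
    have h2 : (⌊Real.exp (θ * P)⌋₊ : ℝ) ≤ Real.exp (θ * P) := Nat.floor_le (Real.exp_pos _).le
    have h3 : (qnul f (q1s k R K0) z0 : ℝ) ≤ Real.exp (thQ / 16 * P) := by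
      refine le_trans (Nat.cast_le.2 hq0le) ?_
      rw [← Real.log_le_iff_le_exp (by linarith)]
      exact N.c4
    calc (⌊Real.exp (2 * θ * P)⌋₊ : ℝ) * (⌊Real.exp (θ * P)⌋₊ : ℝ) * (qnul f (q1s k R K0) z0 : ℝ)
        ≤ Real.exp (2 * θ * P) * Real.exp (θ * P) * Real.exp (thQ / 16 * P) := by
          gcongr
      _ = Real.exp (2 * θ * P + θ * P + thQ / 16 * P) := by rw [Real.exp_add, Real.exp_add]
      _ ≤ Real.exp (thQ * P) := Real.exp_le_exp.2 (by nlinarith)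
  have hq1e : (q1s k R K0 : ℝ) ≤ Real.exp (κ0 * P) := by
    refine le_trans (Nat.cast_le.2 hq1le) ?_
    rw [← Real.log_le_iff_le_exp (by linarith)]
    exact N.q1
  rw [← hPPe] at hdn
  refine lowat_ofP (GWf C1) hT hz0 hq1e ?_ (fun p hp => (mem_Tst.1 hp).2) ?_ hH (cell_cl (s := f.eval (z0 : ℤ)))
    (Hw := Hw) (h0 := h0) (z := 0) h8 h16 hh0
    hh le_rfl (by omega) ?_ ?_ K hK ⌊Real.exp (θ * P)⌋₊ ⌊Real.exp (2 * θ * P)⌋₊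
    (fun B hBc => Nat.le_floor (prod_num hg hP1 hlg hθ0 B hBc)) hQ
    (P ^ (g / 8)) ((⌊Real.exp (θ * P)⌋₊ : ℝ) ^ (-c)) (Real.one_le_rpow hP1 (by positivity))
    (by positivity) hkw1 hkwδ L0 ?_ ?_ ?_ ?_ ?_
  · -- disjoint
    rw [Finset.disjoint_left]
    intro p hp hpP
    exact (hPPm p hpP).2 hp
  · -- GW
    intro a q
    unfold GWf
    rw [hPPe]
  · -- window 1
    intro n hn
    unfold cell at hn
    rw [mem_filter, mem_Ioc] at hn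
    push_cast at hn
    omega
  · intro n hn
    unfold cell at hn
    rw [mem_filter, mem_Ioc] at hn
    omega
  · -- the local sum
    have h1 : 2 * L0 = Real.exp (-(ε * P)) * (m1 * m2) := by
      rw [hL0]
      ring
    rw [h1, hPPe]
    exact hlow
  · exact err_num hP0.le hQ01 hκ5 hε2 hc3 (by linarith) (by positivity) hL0l
  · exact low_num hP0.le hQ01 hε1 hc2 (by exact_mod_cast hq0pos) hdn hL0l
  · exact sq_num hNr0 hP0.le hκ0.le hκ3 (by have := N.bs; linarith) N.c1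
  · exact sq_num hNr0 hP0.le hκ0.le hκ3 (by have := N.bs; linarith) N.c1

end Vale.Agent.P042P.H739
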