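import Vale.Agent.P042PQ.H452Seam4
import Vale.Agent.P042.H85.Dict

set_option autoImplicit false

/-!
P042, prime arguments: port of `P042.H85.Dict` to the pairs (polynomial, linear form).
-/

set_option linter.unusedSectionVars false

namespace Vale.Agent.P042P.H85
open Vale.Agent.P042 hiding AuxData AuxData.lam_le AuxData.lam_pos AuxData.natDegree_H DiffFree
  rMax
open Vale.Agent.P042.H85 hiding FBa FBa_eq FBa_one FBa_oo

open Finset Polynomial

open Vale.Agent.P042.H284 (FK)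

open Vale.Agent.P042P.H74 (Ram NS Ram_index Ram_one)

open Vale.Agent.P042P.H452 (FB)

universe u v

section gen

variable {ι : Type u} [Fintype ι] [DecidableEq ι] {V : ι → Type v} [∀ i, Fintype (V i)]
  [∀ i, DecidableEq (V i)]

end gen

section main

variable {a : Type u} [Fintype a] [DecidableEq a]

/-- helper121's family over all typed sites. -/
noncomputable def FBa (g : PL) (PP : Finset ℕ) (S1 S2 : Finset ℤ) (f f' : ℤ → ℝ)
    (prm : a → ℕ) (lo : a → Prop) [DecidablePred lo] (K : {i // lo i} → ℤ → ℤ → ℝ) (m : ℕ)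
    (B : Finset a) : ℂ :=
  FB g PP S1 S2 f f' K (B.subtype lo) ((∏ i ∈ B.filter (fun i => ¬ lo i), prm i) * m)

/-- The value of `FBa` as a pair sum. -/
theorem FBa_eq (g : PL) (PP : Finset ℕ) (hPP : NS g PP) (S1 S2 : Finset ℤ) (f f' : ℤ → ℝ)
    (prm : a → ℕ) (hinj : Function.Injective prm) (hprm : ∀ i, prm i ∈ PP) (lo : a → Prop)
    [DecidablePred lo] (K : {i // lo i} → ℤ → ℤ → ℝ) (m : ℕ) (hm : 1 ≤ m)
    (hpm : ∀ i, ¬ prm i ∣ m) (B : Finset a) :
    FBa g PP S1 S2 f f' prm lo K m B =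
      ∑ n ∈ S1, ∑ n' ∈ S2, ((f n * f' n' * ((∏ i ∈ B.subtype lo, K i n n') *
        ∏ i ∈ B.filter (fun i => ¬ lo i), kN g (prm i) (n - n')) : ℝ) : ℂ) *
          Ram g PP m (n - n') := by
  unfold FBa FB
  refine Finset.sum_congr rfl fun n _ => Finset.sum_congr rfl fun n' _ => ?_
  rw [Ram_index g PP hPP prm hinj hprm _ m hm (fun i _ => hpm i)]
  push_cast
  ring

variable {V : a → Type v} [∀ i, Fintype (V i)] [∀ i, DecidableEq (V i)]

/-- **The dictionary, main system.**  `Kf` = the kernels on the residues: at the low sites the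
recombined kernels, at the other typed sites the kernel of the prime. -/
theorem FBa_one (g : PL) (PP : Finset ℕ) (hPP : NS g PP) (S1 S2 : Finset ℤ) (f f' : ℤ → ℝ)
    (prm : a → ℕ) (hinj : Function.Injective prm) (hprm : ∀ i, prm i ∈ PP)
    (hp1 : ∀ i, prm i ≠ 1) (lo : a → Prop)
    [DecidablePred lo] (K : {i // lo i} → ℤ → ℤ → ℝ) (red : ℤ → ∀ i, V i)
    (Kf : ∀ i, V i → V i → ℝ)
    (hK : ∀ (i : {i // lo i}), ∀ n ∈ S1, ∀ n' ∈ S2, K i n n' = Kf i (red n i) (red n' i))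
    (hU : ∀ i, ¬ lo i → ∀ n ∈ S1, ∀ n' ∈ S2, kN g (prm i) (n - n') = Kf i (red n i) (red n' i))
    (B : Finset a) :
    FBa g PP S1 S2 f f' prm lo K 1 B = ((FK Kf (pw red S1 f) (pw red S2 f') B : ℝ) : ℂ) := by
  rw [FBa_eq g PP hPP S1 S2 f f' prm hinj hprm lo K 1 le_rfl
    (fun i h => hp1 i (Nat.dvd_one.1 h)) B, FK_pw]
  rw [Complex.ofReal_sum]
  refine Finset.sum_congr rfl fun n hn => ?_
  rw [Complex.ofReal_sum]
  refine Finset.sum_congr rfl fun n' hn' => ?_
  rw [Ram_one g PP hPP, mul_one]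
  have h1 := prod_split lo B fun i => Kf i (red n i) (red n' i)
  have h2 : ∏ i ∈ B.subtype lo, K i n n' = ∏ i ∈ B.subtype lo, Kf i (red n i) (red n' i) :=
    Finset.prod_congr rfl fun i _ => hK i n hn n' hn'
  have h3 : ∏ i ∈ B.filter (fun i => ¬ lo i), kN g (prm i) (n - n') =
      ∏ i ∈ B.filter (fun i => ¬ lo i), Kf i (red n i) (red n' i) :=
    Finset.prod_congr rfl fun i hi => hU i (Finset.mem_filter.1 hi).2 n hn n' hn'
  rw [h2, h3, ← h1]

end main

section oo

variable {a : Type u} [Fintype a] [DecidableEq a] {V : Option a → Type v}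
  [∀ i, Fintype (V i)] [∀ i, DecidableEq (V i)]

/-- **The dictionary with the extra modulus.** -/
theorem FBa_oo (g : PL) (PP : Finset ℕ) (hPP : NS g PP) (S1 S2 : Finset ℤ) (f f' : ℤ → ℝ)
    (prm : a → ℕ) (hinj : Function.Injective prm) (hprm : ∀ i, prm i ∈ PP) (lo : a → Prop)
    [DecidablePred lo] (K : {i // lo i} → ℤ → ℤ → ℝ) (m : ℕ) (hm : 1 ≤ m)
    (hpm : ∀ i, ¬ prm i ∣ m) (red : ℤ → ∀ i, V i) (Kf : ∀ i, V i → V i → ℝ)
    (hK : ∀ (i : {i // lo i}), ∀ n ∈ S1, ∀ n' ∈ S2,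
      K i n n' = Kf (some i) (red n (some i)) (red n' (some i)))
    (hU : ∀ i, ¬ lo i → ∀ n ∈ S1, ∀ n' ∈ S2,
      kN g (prm i) (n - n') = Kf (some i) (red n (some i)) (red n' (some i)))
    (M0 : ℝ) (hR : ∀ n ∈ S1, ∀ n' ∈ S2,
      Ram g PP m (n - n') = ((M0 * Kf none (red n none) (red n' none) : ℝ) : ℂ))
    (B : Finset a) :
    FBa g PP S1 S2 f f' prm lo K m B =
      ((M0 * FK Kf (pw red S1 f) (pw red S2 f') (Finset.insertNone B) : ℝ) : ℂ) := by
  rw [FBa_eq g PP hPP S1 S2 f f' prm hinj hprm lo K m hm hpm B, FK_pw, Finset.mul_sum,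
    Complex.ofReal_sum]
  refine Finset.sum_congr rfl fun n hn => ?_
  rw [Finset.mul_sum, Complex.ofReal_sum]
  refine Finset.sum_congr rfl fun n' hn' => ?_
  rw [hR n hn n' hn']
  have h1 := prod_split lo B fun i => Kf (some i) (red n (some i)) (red n' (some i))
  have h2 : ∏ i ∈ B.subtype lo, K i n n' =
      ∏ i ∈ B.subtype lo, Kf (some (i : a)) (red n (some (i : a))) (red n' (some (i : a))) :=
    Finset.prod_congr rfl fun i _ => hK i n hn n' hn'
  have h3 : ∏ i ∈ B.filter (fun i => ¬ lo i), kN g (prm i) (n - n') =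
      ∏ i ∈ B.filter (fun i => ¬ lo i), Kf (some i) (red n (some i)) (red n' (some i)) :=
    Finset.prod_congr rfl fun i hi => hU i (Finset.mem_filter.1 hi).2 n hn n' hn'
  have h5 : ∏ i ∈ Finset.insertNone B, Kf i (red n i) (red n' i) =
      Kf none (red n none) (red n' none) *
        ∏ i ∈ B, Kf (some i) (red n (some i)) (red n' (some i)) := by
    rw [Finset.insertNone, OrderEmbedding.coe_ofMapLEIff, Finset.prod_cons, Finset.prod_map]
    rfl
  rw [h2, h3, ← h1, h5, ← Complex.ofReal_mul]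
  congr 1
  ring

end oo

end Vale.Agent.P042P.H85
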