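import Vale.Agent.P042PQ.H362StF
import Vale.Agent.P042PQ.H739LowF
import Vale.Agent.P042PQ.H85Dict
import Vale.Agent.P042.H860.Inst

set_option autoImplicit false

/-!
P042, prime arguments: port of `P042.H860.Inst` to the pairs (polynomial, linear form).
-/

namespace Vale.Agent.P042P.H860
open Vale.Agent.P042 hiding AuxData AuxData.lam_le AuxData.lam_pos AuxData.natDegree_H DiffFree
  rMax
open Vale.Agent.P042.H860 hiding Inst Inst.PP Inst.S1 Inst.S2 Inst.f1 Inst.f2 Inst.g Inst.m1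
  Inst.m2 Inst.nu1 Inst.nu2 Inst.q0 Inst.q1 Inst.w'

open Polynomial Finset
open Vale.Agent.P042.SS hiding Gam
open Vale.Agent.P042.H74 hiding GamN GamN_coprime GamN_eq GamN_norm GamN_prime_norm GamN_tiny
  GamN_zero GamN_zero_one GamW GamW_eq_avC GamW_split GamW_zero_one Gam_fer_norm NS NS_fer Ram
  Ram_index Ram_mul Ram_one Ram_prime Ram_prod Ram_tiny Ram_tiny_zero Ram_zero Ram_zero_of_Wq Wq
  Wq_mul Wq_per Wq_zero Wq_zero_num Wq_zero_tiny avC_om avC_om_single deriv_fer_eval dns dns_fer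
  dns_ge dns_ge_exp dns_le_one dns_nonneg dns_pos dvd_deriv_fer fer fer_coeff fer_const fer_eval
  fer_natDegree kN kN_form kN_per multFam_GamN neg_one_le_kN nonconst_fer not_dvd_of_nonconst om
  om_ne_zero om_per om_union prod_dns_ge prod_dns_ge_aux seamG sum_Ram_full sum_Ram_index
  sum_Ram_tiny sum_Wq
open Vale.Agent.P042P.H74
open Vale.Agent.P042.H452 hiding FB GamW_eq_GamN PS PS_eq SeamH SeamH.pos SeamH.prime SeamH.rho0
  SeamH.term_bound Tt crossT crossT_eq main_eq ps_l1 seam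
open Vale.Agent.P042P.H452

open Vale.Agent.P042.H739 hiding Base6 CELLS GWk GwTy HLOC HLOCat LOWERF LOWat STat StTy
  lowat_congr lowat_ofP lowerF_of lower_at seamH_of
open Vale.Agent.P042P.H739
open Vale.Agent.P042.H245 hiding GWf
open Vale.Agent.P042.H359

open Vale.Agent.P042.H945 (cl rst ms SM)

open Vale.Agent.P042.H858 (pf)

open Vale.Agent.P042.H599 (cm Law)

instance {K0 : ℕ} {C1 P : ℝ} (i : Si K0 C1 P) : NeZero i.1 :=
  ⟨(mem_Typ.1 i.2).2.1.ne_zero⟩

instance {a : Type} (q : a → ℕ) (m : ℕ) [h : ∀ i, NeZero (q i)] [NeZero m] (o : Option a) :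
    NeZero (mo q m o) := by
  cases o with
  | none => exact inferInstanceAs (NeZero m)
  | some i => exact h i

/-- one instance of the data of `HLOC` -/
structure Inst where
  k : ℕ
  R : ℕ
  K0 : ℕ
  C1 : ℝ
  P : ℝ
  f : PL
  N : ℕ
  G : ℤ → ℝ
  mu : ℕ → ℝ
  z0 : ℕ
  h0 : ℕ
  z1 : ℕ
  z2 : ℕ
  w : ZMod (q0s k R K0 f z0)

namespace Inst
open Vale.Agent.P042.H860.Inst hiding PP S1 S2 f1 f2 g m1 m2 nu1 nu2 q0 q1 w'

variable (I : Inst)

/-- the modulus of the cells -/
noncomputable abbrev q0 : ℕ := q0s I.k I.R I.K0 I.f I.z0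

/-- the modulus of the substitution -/
def q1 : ℕ := q1s I.k I.R I.K0

/-- the fibre polynomial -/
noncomputable def g : PL := fer I.f I.q1 I.z0

/-- the primes of the sieve weight -/
noncomputable def PP : Finset ℕ := PPf I.C1 I.g I.P

/-- the class of the second cell -/
noncomputable def w' : ZMod I.q0 := I.w - ((I.f.eval (I.z0 : ℤ) : ℤ) : ZMod I.q0)

/-- the first cell -/
noncomputable def S1 : Finset ℤ := cell I.q0 I.w I.z1 I.h0

/-- the second cell -/
noncomputable def S2 : Finset ℤ := cell I.q0 I.w' I.z2 I.h0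

/-- the mass of the first cell -/
noncomputable def m1 : ℝ := cmass I.G I.q0 I.w I.z1 I.h0

/-- the mass of the second cell -/
noncomputable def m2 : ℝ := cmass I.G I.q0 I.w' I.z2 I.h0

/-- the normalised weights -/
noncomputable def f1 (n : ℤ) : ℝ := I.G n / I.m1

/-- the normalised weights -/
noncomputable def f2 (n : ℤ) : ℝ := I.G n / I.m2

/-- the law of the first cell -/
noncomputable def nu1 : ℕ → ℝ :=
  rst I.mu I.N (cl I.q0 (ZMod.val I.w) (I.z1 + 1) (I.z1 + I.h0))

/-- the law of the second cell -/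
noncomputable def nu2 : ℕ → ℝ :=
  rst I.mu I.N (cl I.q0 I.w'.val (I.z2 + 1) (I.z2 + I.h0))

end Inst

end Vale.Agent.P042P.H860
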