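import Vale.Agent.P042PQ.H386K5
import Vale.Agent.P042PQ.H860Inst
import Vale.Agent.P042.H860.Glue

set_option autoImplicit false

/-!
P042, prime arguments: port of `P042.H860.Glue` to the pairs (polynomial, linear form).
-/

namespace Vale.Agent.P042P.H860
open Vale.Agent.P042 hiding AuxData AuxData.lam_le AuxData.lam_pos AuxData.natDegree_H DiffFree
  rMax
open Vale.Agent.P042.H860 hiding Inst Inst.PP Inst.S1 Inst.S2 Inst.f1 Inst.f2 Inst.g Inst.m1
  Inst.m2 Inst.nu1 Inst.nu2 Inst.q0 Inst.q1 Inst.w' Ok Ok.NS Ok.PP_eq Ok.gdeg Ok.gp Ok.gpg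
  Ok.not_dvd_q1 Ok.q0_pos Ok.q1_pos lo loEquiv

open Polynomial Finset
open Vale.Agent.P042.SS hiding Gam
open Vale.Agent.P042.H74 hiding GamN GamN_coprime GamN_eq GamN_norm GamN_prime_norm GamN_tiny
  GamN_zero GamN_zero_one GamW GamW_eq_avC GamW_split GamW_zero_one Gam_fer_norm NS NS_fer Ram
  Ram_index Ram_mul Ram_one Ram_prime Ram_prod Ram_tiny Ram_tiny_zero Ram_zero Ram_zero_of_Wq Wq
  Wq_mul Wq_per Wq_zero Wq_zero_num Wq_zero_tiny avC_om avC_om_single deriv_fer_eval dns dns_fer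
  dns_ge dns_ge_exp dns_le_one dns_nonneg dns_pos dvd_deriv_fer fer fer_coeff fer_const fer_eval
  fer_natDegree kN kN_form kN_per multFam_GamN neg_one_le_kN nonconst_fer not_dvd_of_nonconst om
  om_ne_zero om_per om_union prod_dns_ge prod_dns_ge_aux seamG sum_Ram_full sum_Ram_index
  sum_Ram_tiny sum_Wq
open Vale.Agent.P042P.H74
open Vale.Agent.P042.H452 hiding FB GamW_eq_GamN PS PS_eq SeamH SeamH.pos SeamH.prime SeamH.rho0
  SeamH.term_bound Tt crossT crossT_eq main_eq ps_l1 seam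
open Vale.Agent.P042P.H452

open Vale.Agent.P042.H739 hiding Base6 CELLS GWk GwTy HLOC HLOCat LOWERF LOWat STat StTy
  lowat_congr lowat_ofP lowerF_of lower_at seamH_of
open Vale.Agent.P042P.H739
open Vale.Agent.P042.H245 hiding GWf
open Vale.Agent.P042.H359

open Vale.Agent.P042.H945 (cl rst ms SM)

open Vale.Agent.P042.H858 (pf)

open Vale.Agent.P042.H599 (cm Law)

/-- the hypotheses at an instance -/
structure Ok (I : Inst) (κ : ℝ) : Prop where
  k2 : 2 ≤ I.k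
  R1 : 1 ≤ I.R
  K0R : I.R ≤ I.K0
  K0k : 2 * I.k ≤ I.K0
  deg : I.f.natDegree = I.k
  lead : 0 < I.f.leadingCoeff
  cont : ∀ g : ℤ, (∀ j : ℕ, 1 ≤ j → g ∣ I.f.coeff j) → g ∣ (I.R : ℤ)
  base : Base6 I.f κ I.P I.N I.G
  hG : ∀ n : ℤ, I.G n = if 1 ≤ n then (I.N : ℝ) * I.mu n.toNat else 0
  tiny : TinyD I.f (Tst I.K0) (Vp I.k I.R) I.q1 I.z0
  z1N : I.z1 + I.h0 ≤ I.N
  z2N : I.z2 + I.h0 ≤ I.N
  hN : I.N ≤ 100 * I.h0
  ma1 : (I.h0 : ℝ) / 2 ≤ I.q0 * I.m1
  ma2 : (I.h0 : ℝ) / 2 ≤ I.q0 * I.m2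

section

variable {I : Inst} {κ : ℝ}

/-- primes above `K0` are good for `f` -/
theorem Ok.gp (h : Ok I κ) {p : ℕ} (hp : p.Prime) (hK : I.K0 < p) : H386.GP I.f p := by
  refine ⟨hp, ?_, ?_, ?_⟩
  · rw [h.deg]
    have := h.K0k
    omega
  · rw [h.deg]
    have := h.k2
    omega
  · by_contra hc
    push Not at hc
    have h1 := h.cont p (fun j hj => hc j hj)
    have h2 : p ∣ I.R := by exact_mod_cast h1
    have h3 := Nat.le_of_dvd (by have := h.R1; omega) h2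
    have := h.K0R
    omega

theorem Ok.not_dvd_q1 (h : Ok I κ) {p : ℕ} (hp : p.Prime) (hK : I.K0 < p) : ¬ p ∣ I.q1 := by
  intro hd
  have h1 := h.tiny.mem_of_dvd_q1 hp hd
  simp only [Tst, mem_filter, mem_range] at h1
  omega

/-- primes above `K0` are good for the fibre polynomial -/
theorem Ok.gpg (h : Ok I κ) {p : ℕ} (hp : p.Prime) (hK : I.K0 < p) : H386.GP I.g p :=
  (h.gp hp hK).fer (h.not_dvd_q1 hp hK) _

theorem Ok.q1_pos (h : Ok I κ) : 1 ≤ I.q1 := h.tiny.q1_pos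

theorem Ok.gdeg (h : Ok I κ) : I.g.natDegree = I.k := by
  unfold Inst.g
  rw [fer_natDegree I.f I.q1 h.q1_pos I.z0, h.deg]

/-- **the primes of the sieve weight are the sites** -/
theorem Ok.PP_eq (h : Ok I κ) : I.PP = Typ I.K0 I.C1 I.P := by
  ext p
  unfold Inst.PP
  rw [mem_PPf, mem_Typ]
  constructor
  · rintro ⟨h1, h2, h3, h4⟩
    refine ⟨h4, h1, ?_⟩
    have h5 := h.tiny.notMem_of_nonconst h3
    simp only [Tst, mem_filter, mem_range] at h5
    by_contra hc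
    exact h5 ⟨by omega, h1⟩
  · rintro ⟨h1, h2, h3⟩
    have h4 := h.gpg h2 h3
    refine ⟨h2, ?_, h4.nc, h1⟩
    rw [h.gdeg]
    have := h.K0k
    omega

/-- the residues of the fibre polynomial exist -/
theorem Ok.NS (h : Ok I κ) : NS I.g I.PP := by
  intro p hp
  rw [h.PP_eq, mem_Typ] at hp
  have h1 := H386.GP_dns (h.gpg hp.2.1 hp.2.2)
  exact ⟨hp.2.1, by linarith⟩

theorem Ok.q0_pos (h : Ok I κ) : 1 ≤ I.q0 := qnul_pos _ h.tiny.q1_pos

/-- a site is low -/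
def lo (I : Inst) (kap : ℝ) (i : Si I.K0 I.C1 I.P) : Prop := i.1 ∈ Wst I.K0 kap I.P

noncomputable instance (I : Inst) (kap : ℝ) : DecidablePred (lo I kap) :=
  fun _ => Classical.propDecidable _

/-- the low sites are the primes of the integer side -/
def loEquiv (I : Inst) (kap : ℝ) (hsub : Wst I.K0 kap I.P ⊆ Typ I.K0 I.C1 I.P) :
    {i : Si I.K0 I.C1 I.P // lo I kap i} ≃ {p // p ∈ Wst I.K0 kap I.P} where
  toFun i := ⟨i.1.1, i.2⟩
  invFun p := ⟨⟨p.1, hsub p.2⟩, p.2⟩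
  left_inv _ := rfl
  right_inv _ := rfl

end

end Vale.Agent.P042P.H860
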