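import Vale.Agent.P042PQ.H121F1d
import Vale.Agent.P042PQ.H387Par
import Vale.Agent.P042PQ.H452PairR
import Vale.Agent.P042PQ.H860Glue
import Vale.Agent.P042.H860.Loc

set_option autoImplicit false

/-!
P042, prime arguments: port of `P042.H860.Loc` to the pairs (polynomial, linear form).
-/

namespace Vale.Agent.P042P.H860
open Vale.Agent.P042 hiding AuxData AuxData.lam_le AuxData.lam_pos AuxData.natDegree_H DiffFree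
  rMax
open Vale.Agent.P042.H860 hiding At F1At F1F FBI Inst Inst.PP Inst.S1 Inst.S2 Inst.f1 Inst.f2
  Inst.g Inst.m1 Inst.m2 Inst.nu1 Inst.nu2 Inst.q0 Inst.q1 Inst.w' LawAt LawF Ok Ok.NS Ok.PP_eq
  Ok.gdeg Ok.gp Ok.gpg Ok.not_dvd_q1 Ok.q0_pos Ok.q1_pos lo loEquiv prm ref2

open Polynomial Finset
open Vale.Agent.P042.SS hiding Gam
open Vale.Agent.P042.H74 hiding GamN GamN_coprime GamN_eq GamN_norm GamN_prime_norm GamN_tiny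
  GamN_zero GamN_zero_one GamW GamW_eq_avC GamW_split GamW_zero_one Gam_fer_norm NS NS_fer Ram
  Ram_index Ram_mul Ram_one Ram_prime Ram_prod Ram_tiny Ram_tiny_zero Ram_zero Ram_zero_of_Wq Wq
  Wq_mul Wq_per Wq_zero Wq_zero_num Wq_zero_tiny avC_om avC_om_single deriv_fer_eval dns dns_fer
  dns_ge dns_ge_exp dns_le_one dns_nonneg dns_pos dvd_deriv_fer fer fer_coeff fer_const fer_eval
  fer_natDegree kN kN_form kN_per multFam_GamN neg_one_le_kN nonconst_fer not_dvd_of_nonconst om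
  om_ne_zero om_per om_union prod_dns_ge prod_dns_ge_aux seamG sum_Ram_full sum_Ram_index
  sum_Ram_tiny sum_Wq
open Vale.Agent.P042P.H74
open Vale.Agent.P042.H452 hiding FB GamN_conj GamW_eq_GamN PS PS_eq Ram_conj Ram_ramK Ram_shift
  SeamH SeamH.pos SeamH.prime SeamH.rho0 SeamH.term_bound Tt Wq_conj abs_ramK_le crossT crossT_eq
  kp_O kp_R main_eq norm_GamN_le ooK ooK_OB ooK_left ooK_op ooK_right pair_ker prSt_F ps_l1 ramK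
  ramK_shift seam sum_Ram sum_ramK
open Vale.Agent.P042P.H452

open Vale.Agent.P042.H739 hiding Base6 CELLS GWk GwTy HLOC HLOCat LOWERF LOWat STat StTy
  lowat_congr lowat_ofP lowerF_of lower_at seamH_of
open Vale.Agent.P042P.H739
open Vale.Agent.P042.H245 hiding GWf
open Vale.Agent.P042.H359 hiding CELLSF cells_StF
open Vale.Agent.P042P.H359

open Vale.Agent.P042.H945 (cl rst ms SM lamR)

open Vale.Agent.P042.H858 (pf)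

open Vale.Agent.P042.H599 (cm Law)

open Vale.Agent.P042.H438 (Rs)

open Vale.Agent.P042.H92 (Prm PLaw PPair Scl BTSof BOof)

open Vale.Agent.P042.H883 (JT snT ellT scT esN)

/-- the instances at the parameters `k R κ P` of the state -/
structure At (C1 : ℕ → ℝ) (cs : ℕ → ℕ → H387.Cst) (par : ℕ → ℕ → ℝ → H362.FP) (k R : ℕ)
    (κ P : ℝ) (I : Inst) : Prop where
  hk : I.k = k
  hR : I.R = R
  hK0 : I.K0 = H387.K0fun par k R κ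
  hC1 : I.C1 = C1 k
  hP : I.P = P
  ok : Ok I κ
  st : H362.StF1 (H362.WF (par k R κ) k R P) (par k R κ) (H387.mkFam C1 cs par k R κ P) I.f I.N
    I.mu ((par k R κ).kp * P / 64) (P / (16 * k))

/-- the law hypotheses for one system of sites -/
def LawAt (I : Inst) (Q : Prm) : Prop :=
  ∀ (ι : Type) [Fintype ι] [DecidableEq ι] (q : ι → ℕ) [∀ i, NeZero (q i)] (S : Finset ι)
    (es : ι → ℝ), Rs (V := fun i => ZMod (q i)) q (rn q) →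
    (∀ i ∈ S, q i ∈ Typ I.K0 I.C1 I.P) → (∀ p ∈ Typ I.K0 I.C1 I.P, ∃ i ∈ S, q i = p) →
    (∀ i, i ∉ S → ∀ p ∈ Typ I.K0 I.C1 I.P, ¬ p ∣ q i) → (∀ i, (q i).Coprime I.q0) →
    (∀ i ∈ S, es i = esN (q i)) →
    PLaw Q S (fun i => Real.log (q i)) es (lamR S q (rn q) I.mu I.N) (H438.uw q)
        (pf (rn q) I.nu1 1 I.N) ∧
      PLaw Q S (fun i => Real.log (q i)) es (lamR S q (rn q) I.mu I.N) (H438.uw q)
        (pf (rn q) I.nu2 1 I.N)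

/-- **the law side** (945) -/
def LawF : Prop := ∀ (k R : ℕ) (z : Loc), 2 ≤ k → 1 ≤ R → LocOk z →
  ∃ (thr : ℝ → ℕ) (thb : ℝ → ℕ → ℝ), (∀ κ n, 0 < thb κ n) ∧
  ∀ (C1 : ℕ → ℝ) (cs : ℕ → ℕ → H387.Cst) (par : ℕ → ℕ → ℝ → H362.FP),
    FitAt z thr thb C1 cs par k R →
  ∃ θ0 : ℝ, 0 < θ0 ∧ ∀ θ : ℝ, 0 < θ → θ ≤ θ0 →
  ∃ κs : ℝ, 0 < κs ∧ ∀ κ : ℝ, 0 < κ → κ ≤ κs →
  ∃ c0 cD : ℝ, 0 < c0 ∧ 0 < cD ∧ cD ≤ z.k0 * (z.γ * θ) ∧
  ∃ P0 : ℝ, ∀ P : ℝ, P0 ≤ P → ∀ I : Inst, At C1 cs par k R κ P I →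
    LawAt I (z.Q θ c0 cD (Real.log P))

/-- the prime of a site -/
abbrev prm {I : Inst} (i : Si I.K0 I.C1 I.P) : ℕ := i.1

/-- the reference of the kernels -/
noncomputable def ref2 (I : Inst) (kap : ℝ) : ∀ i : Si I.K0 I.C1 I.P, ZMod (prm i) → ℝ :=
  lam2R (lo I kap) (lamR univ prm (rn prm) I.mu I.N) prm

/-- the family with the moduli at the normalised cells; `K` = kernels on the residues -/
noncomputable def FBI (I : Inst) (kap : ℝ)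
    (K : ∀ i : Si I.K0 I.C1 I.P, ZMod (prm i) → ZMod (prm i) → ℝ) (m : ℕ)
    (B : Finset (Si I.K0 I.C1 I.P)) : ℂ :=
  H85.FBa I.g I.PP I.S1 I.S2 I.f1 I.f2 prm (lo I kap)
    (fun i n n' => K i.1 (redZ prm n i.1) (redZ prm n' i.1)) m B

/-- the bounds (F1*) and (A*) at one instance -/
def F1At (I : Inst) (z : Loc) (θ : ℝ)
    (K : ∀ i : Si I.K0 I.C1 I.P, ZMod (prm i) → ZMod (prm i) → ℝ) : Prop :=
  ∀ b0 : ℕ, (b0 : ℝ) ≤ 2 * I.P ^ (12 * (z.g * z.C1)) →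
    ∀ r : JT I.K0 I.C1 I.P → ℝ, (∀ j, 0 ≤ r j) →
    (∀ j, r j ≤ min (Real.exp (z.cr * ellT j)) ((b0 : ℝ) ^ z.cr)) →
    (∑ B ∈ H121.DDm (lo I z.kap) prm ⌊θ * I.P / Real.log I.P⌋₊ ⌊Real.exp (θ * I.P)⌋₊ 1,
      ‖FBI I z.kap K 1 B‖ * ∏ i ∈ B, r (scT i) ≤
        Real.exp (z.C2 + ∑ j, Real.exp (8 * z.g * ellT j) * (r j + r j ^ 2))) ∧
    ∀ (M : Finset ℕ), (∀ m ∈ M, 1 ≤ m ∧ (∀ p ∈ Tst I.K0, ¬ p ∣ m) ∧
        ∀ i : Si I.K0 I.C1 I.P, ¬ prm i ∣ m) →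
      ∀ Z : ℝ, 1 ≤ Z → (∀ m ∈ M, Z < m) →
      ∑ m ∈ M, ∑ B ∈ H121.DDm (lo I z.kap) prm ⌊θ * I.P / Real.log I.P⌋₊
        ⌊Real.exp (θ * I.P)⌋₊ m, ‖FBI I z.kap K m B‖ * ∏ i ∈ B, r (scT i) ≤
        z.δ0 * Real.exp (-(z.c4 * Real.log Z)) *
          Real.exp (z.C2 + ∑ j, Real.exp (8 * z.g * ellT j) * (r j + r j ^ 2))

/-- **the absolute bounds** (258), `C2 c4` depend on `k`, `R` only -/
def F1F : Prop := ∀ k R : ℕ, 2 ≤ k → 1 ≤ R → ∃ C2 c4 : ℝ, 0 ≤ C2 ∧ 0 < c4 ∧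
  ∀ z : Loc, LocOk z → z.C2 = C2 → z.c4 = c4 →
  ∃ (thr : ℝ → ℕ) (thb : ℝ → ℕ → ℝ), (∀ κ n, 0 < thb κ n) ∧
  ∀ (C1 : ℕ → ℝ) (cs : ℕ → ℕ → H387.Cst) (par : ℕ → ℕ → ℝ → H362.FP),
    FitAt z thr thb C1 cs par k R →
  ∃ θ0 : ℝ, 0 < θ0 ∧ ∀ θ : ℝ, 0 < θ → θ ≤ θ0 →
  ∃ κs : ℝ, 0 < κs ∧ ∀ κ : ℝ, 0 < κ → κ ≤ κs →
  ∃ P0 : ℝ, ∀ P : ℝ, P0 ≤ P → ∀ I : Inst, At C1 cs par k R κ P I →
  ∀ (K : ∀ i : Si I.K0 I.C1 I.P, ZMod (prm i) → ZMod (prm i) → ℝ)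
    (w w' : ∀ i : Si I.K0 I.C1 I.P, ZMod (prm i) → ℝ)
    (s : ∀ i : Si I.K0 I.C1 I.P, ZMod (prm i) → ZMod (prm i) → ℝ)
    (rho ee : Si I.K0 I.C1 I.P → ℝ),
    H365.OB (ref2 I z.kap) K (fun _ => 0) w w' s rho ee →
    (∀ i, rho i ≤ Real.exp (-(1 / 2) * esN (prm i) + z.γ * esN (prm i))) →
    (∀ i, ee i ≤ Real.exp (-esN (prm i) + z.γ * esN (prm i))) →
    (∀ i, ¬ lo I z.kap i → ∀ n n' : ℤ,
      K i (redZ prm n i) (redZ prm n' i) = kN I.g (prm i) (n - n')) →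
    F1At I z θ K

end Vale.Agent.P042P.H860
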