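import Vale.Agent.P042PQ.H121F1d
import Vale.Agent.P042PQ.H860Glue
import Vale.Agent.P042PQ.H944TopKwS
import Vale.Agent.P042.H892.LVI

set_option autoImplicit false

/-!
P042, prime arguments: port of `P042.H892.LVI` to the pairs (polynomial, linear form).
-/

set_option linter.unusedSectionVars false

namespace Vale.Agent.P042P.H892
open Vale.Agent.P042 hiding AuxData AuxData.lam_le AuxData.lam_pos AuxData.natDegree_H DiffFree
  rMax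
open Vale.Agent.P042.H892 hiding PrF_facts X_I ell_prm kw_I prm prm_gt prm_inj prm_prime up_ge

open Finset
open Vale.Agent.P042 hiding AuxData AuxData.lam_le AuxData.lam_pos AuxData.natDegree_H DiffFree
  rMax
open Vale.Agent.P042.H188

open Vale.Agent.P042.H121 (M2f mem_M2f)

open Vale.Agent.P042.H739 (Tst Wst)

open Vale.Agent.P042P.H74 (GamN)

open Vale.Agent.P042.H860 (Si Typ mem_Typ)
open Vale.Agent.P042P.H860 (Inst Ok lo)

open Vale.Agent.P042.H883 (JT snT ellT scT esN)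

/-- the prime of a site -/
abbrev prm {I : Inst} (i : Si I.K0 I.C1 I.P) : ℕ := i.1

section

variable {I : Inst} {κ : ℝ}

lemma prm_prime (i : Si I.K0 I.C1 I.P) : (prm i).Prime := (mem_Typ.1 i.2).2.1

lemma prm_inj : Function.Injective (prm : Si I.K0 I.C1 I.P → ℕ) := fun _ _ h => Subtype.ext h

lemma prm_gt (i : Si I.K0 I.C1 I.P) : I.K0 < prm i := (mem_Typ.1 i.2).2.2

/-- lengths of the sites -/
lemma ell_prm (i : Si I.K0 I.C1 I.P) : Real.log (prm i) ≤ ellT (scT i : JT I.K0 I.C1 I.P) ∧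
    ellT (scT i : JT I.K0 I.C1 I.P) ≤ Real.log (prm i) + Real.log 2 := by
  have h1 : 1 < prm i := (prm_prime i).one_lt
  have h2 := H883.log_le_esN h1.le
  have h3 := H883.esN_le_log h1
  have h4 : ellT (scT i : JT I.K0 I.C1 I.P) = esN (prm i) := rfl
  rw [h4]
  exact ⟨h2, by linarith⟩

/-- the upper sites are large -/
lemma up_ge (hP : 1 ≤ I.P) {kap : ℝ} {i : Si I.K0 I.C1 I.P} (hi : ¬ lo I kap i) :
    (2 - kap) * Real.log I.P ≤ ellT (scT i : JT I.K0 I.C1 I.P) := by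
  have h1 : ⌊I.P ^ (2 - kap)⌋₊ < prm i := by
    by_contra hcon
    refine hi ?_
    unfold H860.lo Wst
    rw [mem_filter, mem_range]
    exact ⟨Nat.lt_succ_of_le (not_lt.1 hcon), prm_prime i, prm_gt i⟩
  have hP0 : 0 < I.P := by linarith
  have h2 : I.P ^ (2 - kap) < prm i := (Nat.floor_lt (Real.rpow_nonneg hP0.le _)).1 h1
  have h3 := Real.log_le_log (Real.rpow_pos_of_pos hP0 _) h2.le
  rw [Real.log_rpow hP0] at h3
  exact h3.trans (ell_prm i).1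

/-- **the rates at an instance** -/
theorem kw_I (k R : ℕ) (hk : 2 ≤ k) (hR : 1 ≤ R) : ∃ (c : ℝ) (kp : ℕ → ℕ → ℝ) (K00 : ℕ),
    0 < c ∧ c ≤ 1 / 4 ∧ ∀ (I : Inst) (κ : ℝ), I.k = k → I.R = R → K00 ≤ I.K0 → Ok I κ →
      H944.KwT k c (Tst I.K0) I.PP I.g (H74.kwS k (Tst I.K0) I.PP kp) := by
  obtain ⟨c, kp, K00, hc, hc1, _, h⟩ := H944.kwT k R hk hR
  refine ⟨c, kp, K00, hc, hc1, fun I κ hIk hIR hK hok => ?_⟩
  have h1 := h I.f (by rw [hok.deg, hIk]) hok.lead (by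
    intro g hg
    rw [← hIR]
    exact hok.cont g hg) (Tst I.K0) (H74.Vp I.k I.R) I.q1 I.z0
    (fun p hp hpK => mem_Tst.2 ⟨hp, hpK.trans hK⟩) hok.tiny I.C1 I.P
  exact h1.1

/-- the primes of the moduli -/
lemma PrF_facts {kap : ℝ} {M0 p : ℕ} (h : Ok I κ)
    (hp : p ∈ PrF (lo I kap) prm (Tst I.K0) (⌊I.P ^ I.C1⌋₊ + 1) M0) :
    p.Prime ∧ p ∉ Tst I.K0 ∧ I.K0 < p ∧ ¬ p ∣ I.q0 ∧
      (∀ i : Si I.K0 I.C1 I.P, lo I kap i → prm i ≠ p) ∧ p ≤ M0 := by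
  unfold PrF at hp
  obtain ⟨h0, h1, h2, h3⟩ := mem_filter.1 hp
  rw [mem_range] at h0
  refine ⟨h1, h2, ?_, fun hd => h2 (h.tiny.mem_of_dvd_qnul h1 hd), ?_, by omega⟩
  · by_contra hcon
    exact h2 (mem_Tst.2 ⟨h1, by omega⟩)
  · rintro i hi rfl
    rcases h3 with h4 | h4
    · obtain ⟨j, hj, hji⟩ := h4
      exact hj (prm_inj hji ▸ hi)
    · have h5 : prm i ≤ ⌊I.P ^ I.C1⌋₊ := (mem_Typ.1 i.2).1
      omega

end

/-- **the costs of the upper scales at an instance** -/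
theorem X_I (k : ℕ) {Γ : ℝ} (hΓ : 0 < Γ) : ∃ P0 : ℝ, 1 ≤ P0 ∧ ∀ (I : Inst), P0 ≤ I.P →
    ∀ {kap τ σ Θ : ℝ}, kap ≤ Γ → kap ≤ 1 → 0 ≤ Θ → Θ ≤ I.P → τ + σ ≤ Γ / 4 → τ + σ ≤ 1 / 2 →
    ∀ j, XU (lo I kap) (scT : Si I.K0 I.C1 I.P → JT I.K0 I.C1 I.P) k Θ τ σ ellT j
        ≤ Real.exp (Γ * ellT j) / 4 := by
  obtain ⟨P2, hP2, h2⟩ := XU_le k hΓ
  refine ⟨P2, hP2, ?_⟩
  intro I hP kap τ σ Θ hkap hkap1 hΘ0 hΘ hτσ hτσ1
  exact h2 I.P hP hkap hkap1 hΘ0 hΘ hτσ hτσ1 (fun i hi => up_ge (hP2.trans hP) hi)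

end Vale.Agent.P042P.H892
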