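import Vale.Agent.P042PQ.H168F1Side
import Vale.Agent.P042PQ.H635F1Sk
import Vale.Agent.P042PQ.H860Loc
import Vale.Agent.P042PQ.H892LVI
import Vale.Agent.P042.H635.F1Fin

set_option autoImplicit false

/-!
P042, prime arguments: port of `P042.H635.F1Fin` to the pairs (polynomial, linear form).
-/

set_option linter.unusedSectionVars false

namespace Vale.Agent.P042P.H635
open Vale.Agent.P042 hiding AuxData AuxData.lam_le AuxData.lam_pos AuxData.natDegree_H DiffFree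
  rMax
open Vale.Agent.P042.H635 hiding F1Nums F1Par Lo M0I NumAt PrI SideI YI ell_si f1F_of f1_at
  f1_core m0I ob_low qL scL si_K0 si_prime untyped wL wL_nonneg wL_sum

open Finset Polynomial

open Vale.Agent.P042.H121 (M2f DDm)

open Vale.Agent.P042.H892 (PrF)
open Vale.Agent.P042P.H892 (PrF_facts kw_I)

open Vale.Agent.P042P.H85 (FBa)

open Vale.Agent.P042.H739 (Tst Wst)

open Vale.Agent.P042.H599 (cm)

open Vale.Agent.P042.H860 hiding At F1At F1F FBI Inst Inst.PP Inst.S1 Inst.S2 Inst.f1 Inst.f2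
  Inst.g Inst.m1 Inst.m2 Inst.nu1 Inst.nu2 Inst.q0 Inst.q1 Inst.w' LawAt LawF Ok Ok.NS Ok.PP_eq
  Ok.gdeg Ok.gp Ok.gpg Ok.not_dvd_q1 Ok.q0_pos Ok.q1_pos lo loEquiv prm ref2
open Vale.Agent.P042P.H860

open Vale.Agent.P042.H883 (JT snT ellT scT esN)

open Vale.Agent.P042.H359 (redZ)

open Vale.Agent.P042.H168 (LawNum G0c kapF)
open Vale.Agent.P042P.H168 (sideLaw_cell cellSt_1 cellSt_2)

open Vale.Agent.P042.H945 (lamR)

open Vale.Agent.P042.H452 (lam2R)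

/-- **the numbers at one instance** -/
def NumAt (I : Inst) (z : Loc) (q : H362.FP) (k R : ℕ) (P θ c γ ρ : ℝ)
    (rho ee : Si I.K0 I.C1 I.P → ℝ) : Prop :=
  ∃ (m d ns : ℕ) (Λ lm τ σ Θ A1 del Ds : ℝ),
    F1Par I z.kap θ c z.cr (8 * z.g) z.C2 z.c4 z.δ0 (12 * (z.g * z.C1)) γ ρ 1 m d ns Λ lm τ σ Θ A1
      (G0c q I.N I.h0 I.q0) 0 (fun i : Lo I z.kap => rho i.1) (fun i : Lo I z.kap => ee i.1) ∧
    LawNum q (H362.WF q k R P) I.N I.h0 I.q0 (q.kp * P / 64) (P / (16 * k)) P (qL I z.kap)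
      (scL I z.kap) ns γ 3 Λ Ds del (M0I I θ * Real.exp (Θ / 2)) ∧
    q.be ≤ τ - 3 / (m : ℝ) ∧
    (∀ p : ℕ, p.Prime → I.K0 < p → (p : ℝ) ^ (-q.ga) ≤ (τ - 3 / (m : ℝ) - q.be) * Real.log p) ∧
    2 * I.q0 * Real.exp (Real.log 2 + 32 * (q.kp * P / 64) +
      d * ((1 + q.g) * lm + Real.log 4)) ≤ A1

/-- **the numbers of `H860.F1F`** -/
def F1Nums : Prop := ∀ (k R : ℕ) (c : ℝ), 2 ≤ k → 1 ≤ R → 0 < c → c ≤ 1 / 4 →
  ∃ C2 c4 : ℝ, 0 ≤ C2 ∧ 0 < c4 ∧ ∀ z : Loc, LocOk z → z.C2 = C2 → z.c4 = c4 →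
  ∃ γ ρ : ℝ, 0 < γ ∧ 8 * γ + ρ ≤ 3 * Real.log 2 / 8 ∧
  ∃ (thr : ℝ → ℕ) (thb : ℝ → ℕ → ℝ), (∀ κ n, 0 < thb κ n) ∧
  ∀ (C1 : ℕ → ℝ) (cs : ℕ → ℕ → H387.Cst) (par : ℕ → ℕ → ℝ → H362.FP),
    FitAt z thr thb C1 cs par k R →
  ∃ θ0 : ℝ, 0 < θ0 ∧ ∀ θ : ℝ, 0 < θ → θ ≤ θ0 →
  ∃ κs : ℝ, 0 < κs ∧ ∀ κ : ℝ, 0 < κ → κ ≤ κs →
  ∃ P0 : ℝ, ∀ P : ℝ, P0 ≤ P → ∀ I : Inst, At C1 cs par k R κ P I →
  ∀ rho ee : Si I.K0 I.C1 I.P → ℝ, (∀ i, 0 ≤ rho i) → (∀ i, 0 ≤ ee i) →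
    (∀ i, rho i ≤ Real.exp (-(1 / 2) * esN i.1 + z.γ * esN i.1)) →
    (∀ i, ee i ≤ Real.exp (-esN i.1 + z.γ * esN i.1)) →
    NumAt I z (par k R κ) k R P θ c γ ρ rho ee

/-- the kernels of the low sites -/
theorem ob_low {I : Inst} {kap : ℝ} {K : ∀ i : Si I.K0 I.C1 I.P, ZMod (prm i) → ZMod (prm i) → ℝ}
    {w w' : ∀ i : Si I.K0 I.C1 I.P, ZMod (prm i) → ℝ}
    {s : ∀ i : Si I.K0 I.C1 I.P, ZMod (prm i) → ZMod (prm i) → ℝ}
    {rho ee : Si I.K0 I.C1 I.P → ℝ} (h : H365.OB (ref2 I kap) K (fun _ => 0) w w' s rho ee) :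
    H365.OB (V := fun i : Lo I kap => ZMod (qL I kap i)) (wL I kap) (fun i => K i.1)
      (fun _ => 0) (fun i => w i.1) (fun i => w' i.1) (fun i => s i.1) (fun i => rho i.1)
      (fun i => ee i.1) := by
  have e1 : ∀ (i : Lo I kap) (x : ZMod (qL I kap i)), wL I kap i x = ref2 I kap i.1 x := by
    intro i x
    unfold ref2 lam2R
    rw [if_pos i.2]
    unfold H945.lamR
    rw [if_pos (mem_univ _)]
    exact (H168.m1_rn (qs := (prm : Si I.K0 I.C1 I.P → ℕ)) I.mu I.N i.1 x).symm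
  have e2 : ∀ i : Lo I kap, wL I kap i = ref2 I kap i.1 := fun i => funext (e1 i)
  refine ⟨fun i => h.rho0 i.1, fun i => h.e0 i.1, fun i a b => h.split i.1 a b, ?_, ?_, ?_, ?_,
    fun i => h.cn i.1, ?_, ?_, ?_⟩
  · intro i b
    rw [e2]
    exact h.sl i.1 b
  · intro i a
    rw [e2]
    exact h.sr i.1 a
  · intro i
    rw [e2]
    exact h.ul i.1
  · intro i
    rw [e2]
    exact h.ur i.1
  · intro i
    rw [e2]
    exact h.un i.1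
  · intro i
    rw [e2]
    exact h.un' i.1
  · intro i f
    rw [e2]
    exact h.sn i.1 f

/-- **the absolute bounds from their numbers** -/
theorem f1F_of (hN : F1Nums) : F1F := by
  intro k R hk hR
  obtain ⟨c, kp, K00, hc, hc1, hkw⟩ := kw_I k R hk hR
  obtain ⟨C2, c4, hC2, hc4, hz⟩ := hN k R c hk hR hc hc1
  refine ⟨C2, c4, hC2, hc4, fun z hzok e2 e4 => ?_⟩
  obtain ⟨γ, ρ, hγ, hρ, thr, thb, hthb, hnum⟩ := hz z hzok e2 e4
  obtain ⟨s1, P1, hat⟩ := f1_at hγ hρ (A0 := 3) (η := 1) (by norm_num) one_pos le_rfl k hc hc1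
  have hα : 0 < z.α := hzok.α0
  have hα1 : z.α / 16 ≤ 1 := by
    have h1 := hzok.αγ
    have h2 := hzok.γkap
    have h3 := hzok.kap
    have h4 := hzok.gC1
    have h5 := hzok.C1
    have h6 := hzok.g0
    have h7 := hzok.γ0
    have h8 : z.g ≤ 1 := by nlinarith
    have h9 : z.γ ≤ 1 := by linarith
    rw [h1]
    have h10 : z.γ / (64 * z.C1) ≤ z.γ := div_le_self h7.le (by linarith)
    linarith
  have hC1 : 1 ≤ z.C1 := by linarith [hzok.C1]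
  obtain ⟨l0, hside⟩ := sideLaw_cell (g := z.α / 16) (C1 := z.C1) (by positivity) hα1 hC1
  refine ⟨fun κ => max (thr κ) (max K00 (2 ^ s1)), thb, hthb, fun C1 cs par hfit => ?_⟩
  obtain ⟨θ0, hθ0, hθ⟩ := hnum C1 cs par (hfit.mono (fun κ => le_max_left _ _) fun _ _ => le_rfl)
  refine ⟨θ0, hθ0, fun θ h1 h2 => ?_⟩
  obtain ⟨κs, hκs, hκ⟩ := hθ θ h1 h2
  refine ⟨κs, hκs, fun κ h3 h4 => ?_⟩
  obtain ⟨P0, hP0⟩ := hκ κ h3 h4
  refine ⟨max P0 (max P1 (Real.exp l0)), fun P hP I hI K w w' s rho ee hOB hrho hee _ => ?_⟩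
  have hPa : P0 ≤ P := (le_max_left _ _).trans hP
  have hPb : P1 ≤ P := ((le_max_left _ _).trans (le_max_right _ _)).trans hP
  have hPc : Real.exp l0 ≤ P := ((le_max_right _ _).trans (le_max_right _ _)).trans hP
  have hl : l0 ≤ Real.log P := by
    rw [Real.le_log_iff_exp_le (lt_of_lt_of_le (Real.exp_pos _) hPc)]
    exact hPc
  have hf := hfit.fit κ h3
  have hq : (par k R κ).g = z.α / 16 := by
    rw [hf.g, hfit.ecs]
    rfl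
  have hqC : (par k R κ).C1 = z.C1 := by rw [hf.eC1, hfit.eC1]
  obtain ⟨m, d, ns, Λ, lm, τ, σ, Θ, A1, del, Ds, hF, hL, hbe, hga, hA1⟩ :=
    hP0 P hPa I hI rho ee hOB.rho0 hOB.e0 hrho hee
  -- the instance
  have hIK : I.K0 = max (max (par k R κ).K0 I.R) (2 * I.k) := by
    rw [hI.hK0, hI.hR, hI.hk]
    rfl
  have hK00 : max K00 (2 ^ s1) ≤ I.K0 := by
    rw [hIK]
    exact ((le_max_right _ _).trans hf.K0).trans ((le_max_left _ _).trans (le_max_left _ _))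
  have est : H362.StF1 (H362.WF (par k R κ) I.k I.R I.P) (par k R κ)
      (H387.mkFam C1 cs par k R κ P) I.f I.N I.mu ((par k R κ).kp * P / 64) (P / (16 * k)) := by
    rw [hI.hk, hI.hR, hI.hP]
    exact hI.st
  have c1 := cellSt_1 hI.ok hIK est
  have c2 := cellSt_2 hI.ok hIK est
  rw [hI.hk, hI.hR, hI.hP] at c1 c2
  have hPr : ∀ p ∈ PrI I z.kap θ, ¬ p ∣ I.q0 ∧ (∀ i, qL I z.kap i ≠ p) ∧
      (p ∈ H362.WF (par k R κ) k R P → (p : ℝ) ^ (-(par k R κ).ga) ≤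
        (τ - 3 / (m : ℝ) - (par k R κ).be) * Real.log p) := by
    intro p hp
    obtain ⟨g1, -, g2, g3, g4, -⟩ := PrF_facts hI.ok hp
    exact ⟨g3, fun i => g4 i.1 i.2, fun _ => hga p g1 g2⟩
  have s1' := hside hq hqC hl c1 hL hbe hPr hF.lm0 hF.lm1 hA1
  have s2' := hside hq hqC hl c2 hL hbe hPr hF.lm0 hF.lm1 hA1
  intro b0 hb0 r hr0 hr
  exact hat I κ z.kap hI.hk (by rw [hI.hP]; exact hPb) hI.ok
    (fun j => H883.snT_lo ((le_max_right _ _).trans hK00) j) c1.one.law c1.one.nn K (ob_low hOB)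
    (hkw I κ hI.hk hI.hR ((le_max_left _ _).trans hK00) hI.ok) hF hL.cost s1' s2' b0 hb0 r hr0 hr

end Vale.Agent.P042P.H635
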