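import Vale.Agent.P042PQ.H258F1NuA
import Vale.Agent.P042PQ.H635F1Fin
import Vale.Agent.P042.H258.F1NuB

set_option autoImplicit false

/-!
P042, prime arguments: port of `P042.H258.F1NuB` to the pairs (polynomial, linear form).
-/

set_option linter.unusedSectionVars false

namespace Vale.Agent.P042P.H258
open Vale.Agent.P042 hiding AuxData AuxData.lam_le AuxData.lam_pos AuxData.natDegree_H DiffFree
  rMax
open Vale.Agent.P042.H258 hiding G0c_le' card_Lo card_sc card_ty del_sum esN_qL lawNum_of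
  log_qL_le log_win q0_le qL_inj qL_le qL_prime scL_lt sc_le

open Finset Polynomial

open Vale.Agent.P042.H739 (Tst Wst q0s q1s)

open Vale.Agent.P042.H860 hiding At F1At F1F FBI Inst Inst.PP Inst.S1 Inst.S2 Inst.f1 Inst.f2
  Inst.g Inst.m1 Inst.m2 Inst.nu1 Inst.nu2 Inst.q0 Inst.q1 Inst.w' LawAt LawF Ok Ok.NS Ok.PP_eq
  Ok.gdeg Ok.gp Ok.gpg Ok.not_dvd_q1 Ok.q0_pos Ok.q1_pos lo loEquiv prm ref2
open Vale.Agent.P042P.H860

open Vale.Agent.P042.H883 (JT snT ellT scT esN)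

open Vale.Agent.P042P.H635 (Lo qL scL M0I m0I F1Par)

open Vale.Agent.P042.H168 (LawNum G0c cW)

section

variable {I : Inst} {z : Loc} {k R : ℕ} {κ γ τ : ℝ} {q : H362.FP}

/-- `log N - log h0 ≤ log 100` -/
theorem log_win (hI : Ok I κ) (hN : 0 < (I.N : ℝ)) :
    0 < (I.h0 : ℝ) ∧ Real.log I.N - Real.log I.h0 ≤ Real.log 100 := by
  have h1 : (I.N : ℝ) ≤ 100 * I.h0 := by exact_mod_cast hI.hN
  have h2 : 0 < (I.h0 : ℝ) := by linarith
  refine ⟨h2, ?_⟩
  have h3 := Real.log_le_log hN h1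
  rw [Real.log_mul (by norm_num) h2.ne'] at h3
  linarith

/-- the constant of the level inequality -/
theorem G0c_le' (hI : Ok I κ) (hN : 0 < (I.N : ℝ)) (hk : I.k = k) (hR : I.R = R)
    (hS : StC z k R κ γ τ q I.K0) : G0c q I.N I.h0 I.q0 ≤ 2 * Real.exp 1 := by
  obtain ⟨hh, hl⟩ := log_win hI hN
  have hq := q0_le hI
  rw [hk, hR] at hq
  have hq1 : (0 : ℝ) < I.q0 := by exact_mod_cast hI.q0_pos
  have h1 := Real.log_le_log hq1 hq
  have h2 := hS.beQ
  have h3 := hS.be0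
  have h4 : q.be * Real.log I.q0 + q.be * ((Real.log I.N - Real.log (I.h0 : ℝ)) + 1) ≤ 1 := by
    rw [← mul_add]
    refine le_trans (mul_le_mul_of_nonneg_left ?_ h3.le) h2
    linarith
  unfold H168.G0c H168.cW
  rw [show (2 : ℝ) * Real.exp 1 = Real.exp (1 + Real.log 2) by
    rw [Real.exp_add, Real.exp_log (by norm_num), mul_comm]]
  exact Real.exp_le_exp.2 (by linarith)

/-- the atoms of the reference: total cost -/
theorem del_sum (hP : 1 ≤ I.P) (hl : 3 ≤ Real.log I.P) {kap gs : ℝ} (hk : 0 ≤ kap) (hg : 0 ≤ gs) :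
    ∑ j : Lo I kap, (qL I kap j : ℝ) ^ (-gs) * (1 + H743.Lq gs (qL I kap) j) ≤
      I.P ^ 2 * (1 + ((1 + gs) * (3 * Real.log I.P) + Real.log 4)) := by
  have hP0 : 0 < I.P := by linarith
  have l4 : 0 ≤ Real.log 4 := Real.log_nonneg (by norm_num)
  have h1 : ∀ j ∈ (univ : Finset (Lo I kap)),
      (qL I kap j : ℝ) ^ (-gs) * (1 + H743.Lq gs (qL I kap) j) ≤
        1 + ((1 + gs) * (3 * Real.log I.P) + Real.log 4) := by
    intro j _
    have h2 : (1 : ℝ) ≤ qL I kap j := by exact_mod_cast (qL_prime j).one_lt.le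
    have h3 : (qL I kap j : ℝ) ^ (-gs) ≤ 1 :=
      Real.rpow_le_one_of_one_le_of_nonpos h2 (by linarith)
    have h4 := log_qL_le (kap := kap) hP0 hl hk j
    have h5 : 0 ≤ Real.log (qL I kap j) := Real.log_nonneg h2
    unfold H743.Lq
    have h6 : (1 + gs) * Real.log (qL I kap j) ≤ (1 + gs) * (3 * Real.log I.P) :=
      mul_le_mul_of_nonneg_left h4 (by linarith)
    have h7 : 0 ≤ (1 + gs) * Real.log (qL I kap j) := mul_nonneg (by linarith) h5
    refine (mul_le_of_le_one_left (by linarith) h3).trans (by linarith)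
  refine (sum_le_card_nsmul _ _ _ h1).trans ?_
  rw [nsmul_eq_mul, card_univ]
  refine mul_le_mul_of_nonneg_right (card_Lo hP hk) ?_
  have : 0 ≤ (1 + gs) * (3 * Real.log I.P) := mul_nonneg (by linarith) (by linarith)
  linarith

/-- **the numbers of the laws at one instance** -/
theorem lawNum_of (hI : Ok I κ) (hk : I.k = k) (hR : I.R = R) (hC : I.C1 = z.C1)
    (hS : StC z k R κ γ τ q I.K0) (hz : 0 ≤ z.kap) (hγ : 0 < γ) {θ σ δ0 g0 : ℝ} (hθ : 0 < θ)
    (hn : PNum k q.C1 q.g q.kp κ θ σ δ0 ((q1s k R I.K0 : ℝ) ^ 2) g0 I.P) :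
    LawNum q (H362.WF q k R I.P) I.N I.h0 I.q0 (q.kp * I.P / 64) (I.P / (16 * k)) I.P
      (qL I z.kap) (scL I z.kap) (nsI z.kap I.P) γ 3 (24 * θ * I.P)
      (q.g / (5200 * q.C1) * I.P) (Real.exp (-(4 * Real.log I.P)))
      ((M0I I θ : ℝ) * Real.exp (I.P / (64 * k) / 2)) := by
  have hP1 := hn.P1
  have hP0 : 0 < I.P := by linarith
  have hl := hn.lP
  have hN0 : Real.exp ((1 - κ) * I.P) ≤ (I.N : ℝ) := hI.base.lo
  have hh : Real.exp ((1 - κ) * I.P) / 100 ≤ (I.h0 : ℝ) := by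
    have h1 : (I.N : ℝ) ≤ 100 * I.h0 := by exact_mod_cast hI.hN
    rw [div_le_iff₀ (by norm_num)]
    linarith
  have hW : H362.WF q k R I.P = Typ I.K0 q.C1 I.P := WF_eq q k R I.K0 I.P hS.K0e
  have hCq : I.C1 = q.C1 := by rw [hC, hS.C1]
  have hqW : ∀ i : Lo I z.kap, qL I z.kap i ∈ H362.WF q k R I.P := fun i => by
    rw [hW, ← hCq]
    exact i.1.2
  have hWp : ∀ p ∈ H362.WF q k R I.P, p.Prime ∧ I.K0 ≤ p := fun p hp => by
    rw [hW, mem_Typ] at hp
    exact ⟨hp.2.1, hp.2.2.le⟩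
  have hK1 : 1 ≤ I.K0 := by
    have := hI.K0k
    have := hI.k2
    omega
  have hC0 : 0 < q.C1 := by linarith [hS.C14]
  have hq0 : (0 : ℝ) < I.q0 := by exact_mod_cast hI.q0_pos
  have hq := q0_le hI
  rw [hk, hR] at hq
  have hM0 : (M0I I θ : ℝ) ≤ Real.exp (θ * I.P) := Nat.floor_le (Real.exp_pos _).le
  refine ⟨?_, hn.D100, ?_, hP1, ?_, hn.thin, hn.NP.trans hN0, hn.VP.trans hh, hn.Dm2,
    Real.exp_pos _, ?_, ?_, ?_, ?_⟩
  · refine H743.pinNum_of (le_refl 3) hS.g0 hS.g1 hS.be0.le hS.ga0.le le_rfl hγ.le hS.gγ hK1 hS.K4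
      (by linarith [hS.Kγ]) hWp hqW qL_inj (fun i => ?_) (scL_lt hP0) (by positivity)
      (fun i => ?_)
    · exact Nat.le_pow_clog (by norm_num) _
    · have h1 := log_qL_le (kap := z.kap) hP0 hl hz i
      linarith [hn.ΛP]
  · intro p hp
    rw [hW, mem_Typ] at hp
    have h1 : (p : ℝ) ≤ I.P ^ q.C1 := (Nat.le_floor_iff (Real.rpow_nonneg hP0.le _)).1 hp.1
    rwa [Real.rpow_def_of_pos hP0, mul_comm] at h1
  · have h1 := hS.g0
    positivity
  · exact Real.exp_le_one_iff.2 (by linarith)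
  · have h1 := del_sum hP1 hl hz hS.g0.le
    have h2 := mul_le_mul_of_nonneg_left (h1.trans hn.cnt) (Real.exp_pos (-(4 * Real.log I.P))).le
    refine h2.trans (le_of_eq ?_)
    rw [← Real.exp_add, neg_add_cancel, Real.exp_zero]
  · have h1 : Real.log (1 / Real.exp (-(4 * Real.log I.P))) = 4 * Real.log I.P := by
      rw [one_div, ← Real.exp_neg, neg_neg, Real.log_exp]
    rw [h1]
    exact hn.DsΛ
  · refine le_trans ?_ hn.DM
    refine mul_le_mul_of_nonneg_right ?_ (Real.exp_pos _).le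
    refine mul_le_mul hq ?_ (by positivity) (by positivity)
    exact mul_le_mul_of_nonneg_right hM0 (Real.exp_pos _).le

end

end Vale.Agent.P042P.H258
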