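import Vale.Agent.P042PQ.H258F1NuB
import Vale.Agent.P042.H258.F1NuC

set_option autoImplicit false

/-!
P042, prime arguments: port of `P042.H258.F1NuC` to the pairs (polynomial, linear form).
-/

set_option linter.unusedSectionVars false

namespace Vale.Agent.P042P.H258
open Vale.Agent.P042 hiding AuxData AuxData.lam_le AuxData.lam_pos AuxData.natDegree_H DiffFree
  rMax
open Vale.Agent.P042.H258 hiding G0c_le' card_Lo card_sc card_ty del_sum e_I esN_qL lawNum_of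
  log_qL_le log_win num_I q0_le qL_inj qL_le qL_prime scL_lt sc_le

open Finset Polynomial

open Vale.Agent.P042.H739 (Tst Wst q0s q1s)

open Vale.Agent.P042.H860 hiding At F1At F1F FBI Inst Inst.PP Inst.S1 Inst.S2 Inst.f1 Inst.f2
  Inst.g Inst.m1 Inst.m2 Inst.nu1 Inst.nu2 Inst.q0 Inst.q1 Inst.w' LawAt LawF Ok Ok.NS Ok.PP_eq
  Ok.gdeg Ok.gp Ok.gpg Ok.not_dvd_q1 Ok.q0_pos Ok.q1_pos lo loEquiv prm ref2
open Vale.Agent.P042P.H860

open Vale.Agent.P042.H883 (JT snT ellT scT esN)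

open Vale.Agent.P042P.H635 (Lo qL scL M0I m0I F1Par)

open Vale.Agent.P042.H168 (LawNum G0c cW)

/-- **the numbers of one vector of radii at one instance** -/
theorem num_I {z : Loc} (h : LocOk z) (m : ℕ) {γ ρ : ℝ} (hγe : γ = z.kap / 50)
    (hρe : ρ = 3 * Real.log 2 / 8 - 8 * γ) :
    ∃ s0 : ℕ, ∀ {θ : ℝ}, 0 < θ → ∃ P0 : ℝ, ∀ I : Inst, P0 ≤ I.P →
      (∀ j : JT I.K0 I.C1 I.P, s0 ≤ snT j) → ∀ rho : Si I.K0 I.C1 I.P → ℝ, (∀ i, 0 ≤ rho i) →
      (∀ i, rho i ≤ Real.exp (-(1 / 2) * esN i.1 + z.γ * esN i.1)) →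
      ∀ b0 : ℕ, (b0 : ℝ) ≤ 2 * I.P ^ (12 * (z.g * z.C1)) → ∀ r : JT I.K0 I.C1 I.P → ℝ,
      (∀ j, 0 ≤ r j) → (∀ j, r j ≤ min (Real.exp (z.cr * ellT j)) ((b0 : ℝ) ^ z.cr)) →
      ∃ Rs : ℕ → ℝ, F1Num m (Real.log 2) γ ρ (8 * z.g) (24 * θ * I.P) snT
        (fun i : Lo I z.kap => scT i.1) (fun i : Lo I z.kap => rho i.1)
        (fun i => Real.exp (γ * scL I z.kap i)) (fun i => Real.log (qL I z.kap i)) r Rs
        (nsI z.kap I.P) (m0I I θ) ⌊2 * θ * I.P / Real.log I.P⌋₊ := by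
  obtain ⟨k0, g1, k1, k2, c0, c1, c2, g2⟩ := loc_small h
  have hg0 := h.g0
  have l2 : Real.log 2 < 0.6931471808 := Real.log_two_lt_d9
  have l2' : 0.6931471803 < Real.log 2 := Real.log_two_gt_d9
  have hl0 : 0 < Real.log 2 := by linarith
  have hγ0 : 0 < γ := by rw [hγe]; positivity
  have hcl : z.cr * Real.log 2 ≤ 1 / 8192 := by
    have := mul_le_mul c1 (by linarith : Real.log 2 ≤ 1) hl0.le (by norm_num)
    linarith
  have hq : 5 * γ / Real.log 2 ≤ 0.0045086 * z.g := by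
    rw [div_le_iff₀ hl0, hγe, k1]
    have h1 : 0.0045086 * z.g * 0.6931471803 ≤ 0.0045086 * z.g * Real.log 2 :=
      mul_le_mul_of_nonneg_left l2'.le (by positivity)
    linarith
  have hq0 : 0 < 5 * γ / Real.log 2 := by positivity
  obtain ⟨s0, hs0⟩ := f1d_numbers (b := Real.log 2) (γ := γ) (ρ := ρ) (cr := z.cr) (κ := z.kap)
    (β' := 12 * (z.g * z.C1)) (g0 := 8 * z.g) (C := 4) m hl0 hγ0 c0 (by norm_num)
    (by rw [hρe, hγe]; linarith) (by rw [hγe]; linarith)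
    (by
      rw [hγe, k1]
      have : 8 * z.g * 0.6931471803 ≤ 8 * z.g * Real.log 2 :=
        mul_le_mul_of_nonneg_left l2'.le (by positivity)
      linarith)
    (by
      rw [c2]
      have h1 : (2 - z.kap) * (5 * γ / Real.log 2) ≤ 2 * (5 * γ / Real.log 2) :=
        mul_le_mul_of_nonneg_right (by linarith) hq0.le
      have h2 : (2 - z.kap) * (1 / 2 + 5 * γ / Real.log 2) =
          1 - z.kap / 2 + (2 - z.kap) * (5 * γ / Real.log 2) := by ring
      rw [h2]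
      linarith)
  refine ⟨s0, fun {θ} hθ => ?_⟩
  obtain ⟨P0, hP01, hP0⟩ := hs0 (θ := 24 * θ) (θ1 := θ) (θ2 := 2 * θ) (by positivity)
    (by linarith) (by positivity) (by linarith)
  refine ⟨max P0 (Real.exp 3), ?_⟩
  intro I hP hsn rho hr0 hrho b0 hb0 r hr hrr
  have hPa : P0 ≤ I.P := (le_max_left _ _).trans hP
  have hPb : Real.exp 3 ≤ I.P := (le_max_right _ _).trans hP
  have hPp : 0 < I.P := lt_of_lt_of_le (Real.exp_pos _) hPb
  have hl : 3 ≤ Real.log I.P := by rwa [Real.le_log_iff_exp_le hPp]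
  have hkk : ((m0I I θ : ℕ) : ℝ) ≤ θ * I.P / Real.log I.P :=
    Nat.floor_le (div_nonneg (by positivity) (by linarith))
  refine hP0 I.P hPa snT (fun i : Lo I z.kap => scT i.1) (fun i : Lo I z.kap => rho i.1)
    (fun i => Real.exp (γ * scL I z.kap i)) (fun i => Real.log (qL I z.kap i)) (nsI z.kap I.P)
    (m0I I θ) b0 H883.snT_inj hsn (scL_lt hPp) (exp_ns hPp hl (by linarith)) card_sc
    (fun i => hr0 i.1) (fun i => ?_) (fun i => (Real.exp_pos _).le) (fun i => le_rfl)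
    (fun i => ?_) (fun i => log_qL_le hPp hl k0.le i) hb0 hkk r hr (fun j => ?_)
  · refine (hrho i.1).trans (Real.exp_le_exp.2 ?_)
    have e1 : esN (i.1.1 : ℕ) = scL I z.kap i * Real.log 2 := rfl
    rw [e1]
    have h1 : z.γ * (scL I z.kap i * Real.log 2) ≤ γ * scL I z.kap i := by
      have h2 : z.γ * Real.log 2 ≤ γ := by
        rw [hγe]
        have h3 : z.γ * Real.log 2 ≤ z.γ * 1 := mul_le_mul_of_nonneg_left (by linarith) h.γ0.le
        linarith
      have h4 : (0 : ℝ) ≤ scL I z.kap i := Nat.cast_nonneg _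
      calc z.γ * (scL I z.kap i * Real.log 2) = z.γ * Real.log 2 * scL I z.kap i := by ring
        _ ≤ _ := mul_le_mul_of_nonneg_right h2 h4
    have h5 : (-(Real.log 2 / 2) + γ) * (snT (scT i.1) : ℝ) =
        -(1 / 2) * (scL I z.kap i * Real.log 2) + γ * scL I z.kap i := by
      show (-(Real.log 2 / 2) + γ) * (scL I z.kap i : ℝ) = _
      ring
    rw [h5]
    linarith
  · have h1 : (1 : ℝ) ≤ qL I z.kap i := by exact_mod_cast (qL_prime i).one_lt.le
    exact Real.log_nonneg h1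
  · have h1 : Real.log 2 * (snT j : ℝ) = ellT j := mul_comm _ _
    rw [h1]
    exact hrr j

/-- **the orders zero of the kernels at one instance** -/
theorem e_I {z : Loc} (h : LocOk z) : ∃ s0 : ℕ, ∀ I : Inst,
    (∀ j : JT I.K0 I.C1 I.P, s0 ≤ snT j) → ∀ ee : Si I.K0 I.C1 I.P → ℝ,
    (∀ i, ee i ≤ Real.exp (-esN i.1 + z.γ * esN i.1)) → ∀ j : JT I.K0 I.C1 I.P,
    2 * ∑ i : Lo I z.kap, (if scT i.1 = j then ee i.1 else 0) ≤
      Real.exp (8 * z.g * ellT j) / 4 := by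
  obtain ⟨k0, g1, k1, k2, c0, c1, c2, g2⟩ := loc_small h
  have hg0 := h.g0
  obtain ⟨s0, hs0⟩ := e_num (G := 8 * z.g) (γ := z.γ) (by linarith)
  refine ⟨s0, fun I hsn ee hee j => ?_⟩
  exact hs0 snT ellT (fun i : Lo I z.kap => scT i.1) (fun i : Lo I z.kap => ee i.1)
    (fun j => rfl) hsn (fun i => hee i.1) card_ty j

end Vale.Agent.P042P.H258
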