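import Vale.Agent.P042PQ.H258F1NuC
import Vale.Agent.P042.H258.F1St

set_option autoImplicit false

/-!
P042, prime arguments: port of `P042.H258.F1St` to the pairs (polynomial, linear form).
-/

set_option linter.unusedSectionVars false

namespace Vale.Agent.P042P.H258
open Vale.Agent.P042 hiding AuxData AuxData.lam_le AuxData.lam_pos AuxData.natDegree_H DiffFree
  rMax
open Vale.Agent.P042.H258 hiding G0c_le' card_Lo card_sc card_ty del_sum e_I esN_qL f1F f1Nums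
  lawNum_of log_qL_le log_win numAt_of num_I q0_le qL_inj qL_le qL_prime scL_lt sc_le

open Finset Polynomial

open Vale.Agent.P042.H739 (Tst Wst q0s q1s)

open Vale.Agent.P042.H860 hiding At F1At F1F FBI Inst Inst.PP Inst.S1 Inst.S2 Inst.f1 Inst.f2
  Inst.g Inst.m1 Inst.m2 Inst.nu1 Inst.nu2 Inst.q0 Inst.q1 Inst.w' LawAt LawF Ok Ok.NS Ok.PP_eq
  Ok.gdeg Ok.gp Ok.gpg Ok.not_dvd_q1 Ok.q0_pos Ok.q1_pos lo loEquiv prm ref2
open Vale.Agent.P042P.H860

open Vale.Agent.P042.H883 (JT snT ellT scT esN)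

open Vale.Agent.P042P.H635 (Lo qL scL M0I m0I F1Par NumAt F1Nums)

open Vale.Agent.P042.H168 (LawNum G0c cW)

open Vale.Agent.P042.H892 (g0c XU)

section

variable {I : Inst} {z : Loc} {k R : ℕ} {κ γ τ : ℝ} {q : H362.FP}

/-- **the numbers at one instance** -/
theorem numAt_of (hz : LocOk z) (hzC2 : z.C2 = C2c) {c : ℝ} (hc : 0 < c) (hc1 : c ≤ 1 / 4)
    (hzc4 : z.c4 = 1 / (16 * g0c c)) (hI : Ok I κ) (hk : I.k = k) (hR : I.R = R)
    (hC : I.C1 = z.C1) (hS : StC z k R κ γ τ q I.K0) {ρ : ℝ} (hγe : γ = z.kap / 50)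
    (hρe : ρ = 3 * Real.log 2 / 8 - 8 * γ) (hτe : τ = min z.g (1 / (32 * g0c c))) {m : ℕ}
    (hm : m = ⌈6 / τ⌉₊) {θ : ℝ} (hθ : 0 < θ)
    (hn : PNum k q.C1 q.g q.kp κ θ τ z.δ0 ((q1s k R I.K0 : ℝ) ^ 2) (g0c c) I.P)
    {rho ee : Si I.K0 I.C1 I.P → ℝ}
    (hX : ∀ j, XU (lo I z.kap) (scT : Si I.K0 I.C1 I.P → JT I.K0 I.C1 I.P) k (I.P / (64 * k)) τ τ
      ellT j ≤ Real.exp (8 * z.g * ellT j) / 4)
    (he : ∀ j : JT I.K0 I.C1 I.P,
      2 * ∑ i : Lo I z.kap, (if scT i.1 = j then ee i.1 else 0) ≤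
        Real.exp (8 * z.g * ellT j) / 4)
    (hnum : ∀ b0 : ℕ, (b0 : ℝ) ≤ 2 * I.P ^ (12 * (z.g * z.C1)) → ∀ r : JT I.K0 I.C1 I.P → ℝ,
      (∀ j, 0 ≤ r j) → (∀ j, r j ≤ min (Real.exp (z.cr * ellT j)) ((b0 : ℝ) ^ z.cr)) →
      ∃ Rs : ℕ → ℝ, F1Num m (Real.log 2) γ ρ (8 * z.g) (24 * θ * I.P) snT
        (fun i : Lo I z.kap => scT i.1) (fun i : Lo I z.kap => rho i.1)
        (fun i => Real.exp (γ * scL I z.kap i)) (fun i => Real.log (qL I z.kap i)) r Rs
        (nsI z.kap I.P) (m0I I θ) ⌊2 * θ * I.P / Real.log I.P⌋₊) :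
    NumAt I z q k R I.P θ c γ ρ rho ee := by
  obtain ⟨k0, g1, k1, k2, c0, c1, c2, g2⟩ := loc_small hz
  have hg0 := hz.g0
  have hγ0 : 0 < γ := by rw [hγe]; positivity
  have hG := H892.g0c_64 hc hc1
  have hG0 : (0 : ℝ) < g0c c := by linarith
  have hτ0 : 0 < τ := by rw [hτe]; exact lt_min hg0 (by positivity)
  have hτ1 : τ * g0c c ≤ 1 / 32 := by
    have h1 : τ ≤ 1 / (32 * g0c c) := by rw [hτe]; exact min_le_right _ _
    rw [le_div_iff₀ (by positivity)] at h1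
    linarith
  have hm1 : 1 ≤ m := by
    rw [hm]
    exact Nat.one_le_iff_ne_zero.2 (Nat.ceil_pos.2 (by positivity)).ne'
  have hm3 : 3 / (m : ℝ) ≤ τ / 2 := by
    have h1 : 6 / τ ≤ m := by rw [hm]; exact Nat.le_ceil _
    have h2 : (0 : ℝ) < m := by exact_mod_cast hm1
    rw [div_le_iff₀ hτ0] at h1
    rw [div_le_iff₀ h2]
    linarith
  have hP1 := hn.P1
  have hP0 : 0 < I.P := by linarith
  have hl := hn.lP
  have hkr : (2 : ℝ) ≤ k := by
    have := hI.k2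
    rw [hk] at this
    exact_mod_cast this
  have hL := lawNum_of hI hk hR hC hS k0.le hγ0 hθ hn
  have hNpos : 0 < (I.N : ℝ) := lt_of_lt_of_le (Real.exp_pos _) hI.base.lo
  have hh : Real.exp ((1 - κ) * I.P) / 100 ≤ (I.h0 : ℝ) := by
    have h1 : (I.N : ℝ) ≤ 100 * I.h0 := by exact_mod_cast hI.hN
    have h2 := hI.base.lo
    rw [div_le_iff₀ (by norm_num)]
    linarith
  have hM0 : (M0I I θ : ℝ) ≤ Real.exp (θ * I.P) := Nat.floor_le (Real.exp_pos _).le
  have hM1 : 1 ≤ M0I I θ := by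
    unfold H635.M0I
    rw [Nat.one_le_floor_iff]
    exact Real.one_le_exp (by positivity)
  have hM1r : (1 : ℝ) ≤ M0I I θ := by exact_mod_cast hM1
  have hq1 : (1 : ℝ) ≤ I.q0 := by exact_mod_cast hI.q0_pos
  have hq := q0_le hI
  rw [hk, hR] at hq
  have hg := hS.g0
  have hd : ((⌊2 * θ * I.P / Real.log I.P⌋₊ : ℕ) : ℝ) ≤ 2 * θ * I.P / Real.log I.P :=
    Nat.floor_le (div_nonneg (by positivity) (by linarith))
  have l4 : 0 ≤ Real.log 4 := Real.log_nonneg (by norm_num)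
  have hbr : 0 ≤ (1 + q.g) * (3 * Real.log I.P) + Real.log 4 := by positivity
  obtain ⟨A1, hA1⟩ : ∃ A1, A1 = 2 * (q1s k R I.K0 : ℝ) ^ 2 * Real.exp (Real.log 2 +
    32 * (q.kp * I.P / 64) + 2 * θ * I.P / Real.log I.P * ((1 + q.g) * (3 * Real.log I.P) +
      Real.log 4)) := ⟨_, rfl⟩
  have hA1l : 2 * I.q0 * Real.exp (Real.log 2 + 32 * (q.kp * I.P / 64) +
      (⌊2 * θ * I.P / Real.log I.P⌋₊ : ℕ) * ((1 + q.g) * (3 * Real.log I.P) + Real.log 4)) ≤
      A1 := by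
    rw [hA1]
    have h1 : Real.exp (Real.log 2 + 32 * (q.kp * I.P / 64) +
        (⌊2 * θ * I.P / Real.log I.P⌋₊ : ℕ) * ((1 + q.g) * (3 * Real.log I.P) + Real.log 4)) ≤
        Real.exp (Real.log 2 + 32 * (q.kp * I.P / 64) + 2 * θ * I.P / Real.log I.P *
          ((1 + q.g) * (3 * Real.log I.P) + Real.log 4)) :=
      Real.exp_le_exp.2 (by linarith [mul_le_mul_of_nonneg_right hd hbr])
    exact mul_le_mul (by linarith) h1 (Real.exp_pos _).le (by positivity)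
  have hA11 : 1 ≤ A1 := by
    refine le_trans ?_ hA1l
    have h1 : 0 ≤ q.kp * I.P := mul_nonneg hS.kp0.le hP0.le
    have h2 : 1 ≤ Real.exp (Real.log 2 + 32 * (q.kp * I.P / 64) +
        (⌊2 * θ * I.P / Real.log I.P⌋₊ : ℕ) * ((1 + q.g) * (3 * Real.log I.P) + Real.log 4)) :=
      Real.one_le_exp (by
        have h3 : 0 ≤ (⌊2 * θ * I.P / Real.log I.P⌋₊ : ℕ) *
            ((1 + q.g) * (3 * Real.log I.P) + Real.log 4) :=
          mul_nonneg (Nat.cast_nonneg _) hbr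
        have h4 : 0 ≤ Real.log 2 := Real.log_nonneg (by norm_num)
        linarith)
    have h3 : (1 : ℝ) ≤ 2 * I.q0 := by linarith
    calc (1 : ℝ) = 1 * 1 := by norm_num
      _ ≤ _ := mul_le_mul h3 h2 zero_le_one (by linarith)
  have hΘ0 : 0 ≤ I.P / (64 * k) := by positivity
  refine ⟨m, ⌊2 * θ * I.P / Real.log I.P⌋₊, nsI z.kap I.P, 24 * θ * I.P, 3 * Real.log I.P, τ, τ,
    I.P / (64 * k), A1, Real.exp (-(4 * Real.log I.P)), q.g / (5200 * q.C1) * I.P, ?_, hL, ?_, ?_,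
    hA1l⟩
  · refine ⟨hm1, hc, hc1, by rw [hC]; exact hz.C1, by linarith,
      fun i => log_qL_le hP0 hl k0.le i, ?_, hA11, hτ0.le, hτ1, hΘ0, ?_, hτ0.le, hτ1, ?_,
      by rw [hzc4]; positivity, ?_, hM1, ?_, ?_, (Real.exp_pos _).le, ?_, hn.δ, ?_, he, hnum⟩
    · -- dlm
      have h1 : ((⌊2 * θ * I.P / Real.log I.P⌋₊ : ℕ) : ℝ) * Real.log I.P ≤ 2 * θ * I.P := by
        rwa [le_div_iff₀ (by linarith)] at hd
      linarith
    · -- Θ1
      exact div_le_self hP0.le (by linarith)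
    · -- σA
      rw [hA1]
      exact hn.A1b
    · -- c41
      rw [hzc4]
      refine le_of_eq ?_
      field_simp
    · -- M0Θ
      refine le_trans ?_ hn.Mth
      have h1 : Real.log (M0I I θ) ≤ θ * I.P := by
        have h2 := Real.log_le_log (by linarith) hM0
        rwa [Real.log_exp] at h2
      exact mul_le_mul_of_nonneg_left h1 (by positivity)
    · -- M0cap
      refine le_trans ?_ (hn.cap.trans hh)
      exact mul_le_mul_of_nonneg_right hM0 (Real.exp_pos _).le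
    · -- C2
      rw [hzC2]
      exact C2c_le (Real.exp_pos _).le (G0c_le' hI hNpos hk hR hS)
    · intro j
      rw [hk]
      exact hX j
  · have h1 := hS.beτ
    linarith
  · intro p _ hp
    have h1 := hS.Kga p hp.le
    refine h1.trans ?_
    have h2 := hS.beτ
    have h3 : 0 ≤ Real.log p := Real.log_natCast_nonneg p
    exact mul_le_mul_of_nonneg_right (by linarith) h3

end

/-- **the numbers of the absolute bounds** -/
theorem f1Nums : F1Nums := by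
  intro k R c hk hR hc hc1
  have hG := H892.g0c_64 hc hc1
  have hG0 : (0 : ℝ) < g0c c := by linarith
  refine ⟨C2c, 1 / (16 * g0c c), C2c_nonneg, by positivity, ?_⟩
  intro z hz e2 e4
  obtain ⟨k0, g1, k1, k2, c0, c1, c2, g2⟩ := loc_small hz
  have hg0 := hz.g0
  have l2 : Real.log 2 < 0.6931471808 := Real.log_two_lt_d9
  have l2' : 0.6931471803 < Real.log 2 := Real.log_two_gt_d9
  obtain ⟨γ, hγe⟩ : ∃ γ : ℝ, γ = z.kap / 50 := ⟨_, rfl⟩
  have hγ0 : 0 < γ := by rw [hγe]; positivity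
  obtain ⟨ρ, hρe⟩ : ∃ ρ : ℝ, ρ = 3 * Real.log 2 / 8 - 8 * γ := ⟨_, rfl⟩
  refine ⟨γ, ρ, hγ0, by rw [hρe]; linarith, ?_⟩
  obtain ⟨τ, hτe⟩ : ∃ τ : ℝ, τ = min z.g (1 / (32 * g0c c)) := ⟨_, rfl⟩
  have hτ0 : 0 < τ := by rw [hτe]; exact lt_min hg0 (by positivity)
  have hτg : τ ≤ z.g := by rw [hτe]; exact min_le_left _ _
  obtain ⟨m, hm⟩ : ∃ m : ℕ, m = ⌈6 / τ⌉₊ := ⟨_, rfl⟩
  have hC0 : 0 < z.C1 := by linarith [hz.C1]
  -- the exponent of the state
  obtain ⟨gs, hgs⟩ : ∃ gs : ℝ, gs = z.α / 16 := ⟨_, rfl⟩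
  have hα0 := hz.α0
  have hgs0 : 0 < gs := by rw [hgs]; positivity
  have hαγ : z.α ≤ z.γ / 256 := by
    rw [hz.αγ]
    exact div_le_div_of_nonneg_left hz.γ0.le (by norm_num) (by linarith [hz.C1])
  obtain ⟨ga, hga⟩ : ∃ ga : ℝ, ga = z.α / 32 := ⟨_, rfl⟩
  have hga0 : 0 < ga := by rw [hga]; positivity
  -- thresholds
  obtain ⟨s1, hs1⟩ := num_I hz m hγe hρe
  obtain ⟨s2, hs2⟩ := e_I hz
  obtain ⟨K3, hK3⟩ := H892.ga_num (e := τ / 4) (ga := ga) (by positivity) hga0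
  obtain ⟨K4, hK4⟩ : ∃ K4 : ℕ, ∀ K : ℕ, K4 ≤ K → Real.log 4 ≤ gs * Real.log K ∧
      4 ≤ γ * (Real.log K / Real.log 2) := by
    have h1 : Filter.Tendsto (fun n : ℕ => Real.log (n : ℝ)) Filter.atTop Filter.atTop :=
      Real.tendsto_log_atTop.comp tendsto_natCast_atTop_atTop
    obtain ⟨K4, h4⟩ := Filter.eventually_atTop.1
      ((h1.eventually_ge_atTop (Real.log 4 / gs)).and
        (h1.eventually_ge_atTop (4 * Real.log 2 / γ)))
    refine ⟨K4, fun K hK => ?_⟩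
    obtain ⟨h5, h6⟩ := h4 K hK
    rw [div_le_iff₀ hgs0] at h5
    rw [div_le_iff₀ hγ0] at h6
    refine ⟨by linarith, ?_⟩
    rw [← mul_div_assoc, le_div_iff₀ (by linarith)]
    linarith
  obtain ⟨Q, hQ⟩ : ∃ Q : ℕ → ℝ, Q = fun n =>
    Real.log ((q1s k R (max (max n R) (2 * k)) : ℝ) ^ 2) := ⟨_, rfl⟩
  have hQ0 : ∀ n, 0 ≤ Q n := fun n => by
    rw [hQ]
    beta_reduce
    rw [Real.log_pow]
    have := Real.log_natCast_nonneg (q1s k R (max (max n R) (2 * k)))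
    positivity
  have l100 : 0 < Real.log 100 := Real.log_pos (by norm_num)
  refine ⟨fun _ => max (max (2 ^ s1) (2 ^ s2)) (max K3 K4),
    fun _ n => min (τ / 4) (min (γ / 8) (1 / (Q n + Real.log 100 + 1))), fun _ n => ?_, ?_⟩
  · have := hQ0 n
    exact lt_min (by positivity) (lt_min (by positivity) (by positivity))
  intro C1 cs par hfit
  have hkr : (2 : ℝ) ≤ k := by exact_mod_cast hk
  obtain ⟨t, ht⟩ : ∃ t : ℝ, t = 1 / (64 * (k : ℝ)) := ⟨_, rfl⟩
  have ht0 : 0 < t := by rw [ht]; positivity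
  refine ⟨min (t / (4 * g0c c)) (min (τ * t / 100) (1 / (800000 * z.C1))),
    lt_min (by positivity) (lt_min (by positivity) (by positivity)), fun θ hθ hθ1 => ?_⟩
  refine ⟨τ * t / 200, by positivity, fun κ hκ hκ1 => ?_⟩
  have hf := hfit.fit κ hκ
  have hq_g : (par k R κ).g = gs := by rw [hf.g, hfit.ecs, hgs]; rfl
  have hq_ga : (par k R κ).ga = ga := by rw [hf.ga, hfit.ecs, hga]; rfl
  have hq_C : (par k R κ).C1 = z.C1 := by rw [hf.eC1, hfit.eC1]
  obtain ⟨P1, hP11, hP1⟩ := pNum (k := k) (C1 := (par k R κ).C1) (gs := (par k R κ).g)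
    (kp := (par k R κ).kp) (κ := κ) (θ := θ) (σ := τ) (δ0 := z.δ0)
    (Q0 := (q1s k R (H387.K0fun par k R κ) : ℝ) ^ 2) (g0 := g0c c) hk hf.ok.C11 hf.ok.g0 hf.ok.g1
    hf.ok.kp0 hf.ok.kpg hf.ok.kpκ hθ hG (by rw [← ht]; exact hθ1.trans (min_le_left _ _))
    (by rw [← ht]; exact hθ1.trans ((min_le_right _ _).trans (min_le_left _ _)))
    (by rw [hq_C]; exact hθ1.trans ((min_le_right _ _).trans (min_le_right _ _))) hτ0
    (by linarith) (by rw [← ht]; exact hκ1) hz.δ0 (by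
      have h1 : 1 ≤ q1s k R (H387.K0fun par k R κ) :=
        H74.qone_pos k R _ fun p hp => (H635.mem_Tst.1 hp).2
      have h2 : (1 : ℝ) ≤ q1s k R (H387.K0fun par k R κ) := by exact_mod_cast h1
      nlinarith)
  obtain ⟨P2, hP2⟩ := hs1 hθ
  obtain ⟨P3, hP31, hP3⟩ := H892.X_I k (Γ := 8 * z.g) (by positivity)
  refine ⟨max P1 (max P2 P3), fun P hP I hI rho ee hrho0 hee0 hrho hee => ?_⟩
  have hPe : I.P = P := hI.hP
  have hIK : I.K0 = max (max (par k R κ).K0 R) (2 * k) := hI.hK0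
  have hthr : max (max (2 ^ s1) (2 ^ s2)) (max K3 K4) ≤ I.K0 := by
    rw [hIK]
    exact hf.K0.trans ((le_max_left _ _).trans (le_max_left _ _))
  have hS : StC z k R κ γ τ (par k R κ) I.K0 := by
    have hbe := hf.be
    obtain ⟨K41, K42⟩ := hK4 I.K0 (((le_max_right _ _).trans (le_max_right _ _)).trans hthr)
    refine ⟨hq_C, by rw [hq_C]; exact hz.C1, hf.ok.g0, hf.ok.g1, hf.ok.ga0, hf.ok.be0,
      hbe.trans (min_le_left _ _), ?_, hf.ok.kp0, hf.ok.kpκ, hf.ok.kpg, ?_, hIK, ?_, K42, ?_⟩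
    · have h1 := hQ0 (par k R κ).K0
      have h2 : (par k R κ).be ≤ 1 / (Q (par k R κ).K0 + Real.log 100 + 1) :=
        hbe.trans ((min_le_right _ _).trans (min_le_right _ _))
      have h3 : 0 < Q (par k R κ).K0 + Real.log 100 + 1 := by linarith
      rw [le_div_iff₀ h3] at h2
      have h4 : Real.log ((q1s k R I.K0 : ℝ) ^ 2) = Q (par k R κ).K0 := by rw [hQ, hIK]
      rw [h4]
      exact h2
    · have h1 : (par k R κ).be ≤ γ / 8 := hbe.trans ((min_le_right _ _).trans (min_le_left _ _))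
      have h2 : (par k R κ).g ≤ γ / 8 := by
        rw [hq_g, hgs, hγe]
        linarith
      have h3 : (2 * (par k R κ).g + (par k R κ).be) * Real.log 2 ≤
          (2 * (par k R κ).g + (par k R κ).be) * 1 :=
        mul_le_mul_of_nonneg_left (by linarith) (by linarith [hf.ok.g0, hf.ok.be0])
      linarith
    · rw [hq_g]
      exact K41
    · intro p hp
      rw [hq_ga]
      exact hK3 p ((((le_max_left _ _).trans (le_max_right _ _)).trans hthr).trans hp)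
  have hsn1 : ∀ j : JT I.K0 I.C1 I.P, s1 ≤ snT j := fun j =>
    H883.snT_lo (((le_max_left _ _).trans (le_max_left _ _)).trans hthr) j
  have hsn2 : ∀ j : JT I.K0 I.C1 I.P, s2 ≤ snT j := fun j =>
    H883.snT_lo (((le_max_right _ _).trans (le_max_left _ _)).trans hthr) j
  have hPa : P1 ≤ I.P := by rw [hPe]; exact (le_max_left _ _).trans hP
  have hPb : P2 ≤ I.P := by
    rw [hPe]; exact ((le_max_left _ _).trans (le_max_right _ _)).trans hP
  have hPc : P3 ≤ I.P := by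
    rw [hPe]; exact ((le_max_right _ _).trans (le_max_right _ _)).trans hP
  have hn := hP1 I.P hPa
  have hK0e : H387.K0fun par k R κ = I.K0 := hI.hK0.symm
  rw [hK0e] at hn
  have hPpos : 0 < I.P := by linarith [hn.P1]
  rw [← hPe]
  refine numAt_of hz e2 hc hc1 e4 hI.ok hI.hk hI.hR (by rw [hI.hC1, hfit.eC1]) hS hγe hρe hτe hm
    hθ hn (hP3 I hPc (by linarith) (by linarith) (by positivity)
      (div_le_self hPpos.le (by linarith)) (by linarith) (by linarith))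
    (hs2 I hsn2 ee hee) (hP2 I hPb hsn1 rho hrho0 hrho)

/-- **(F1*) and (A*)**: 860's target -/
theorem f1F : F1F := H635.f1F_of f1Nums

end Vale.Agent.P042P.H258
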