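import Vale.Agent.P042PQ.H362StF
import Vale.Agent.P042.H359.CellsF

set_option autoImplicit false

/-!
P042, prime arguments: port of `P042.H359.CellsF` to the pairs (polynomial, linear form).
-/

namespace Vale.Agent.P042P.H359
open Vale.Agent.P042 hiding AuxData AuxData.lam_le AuxData.lam_pos AuxData.natDegree_H DiffFree
  rMax
open Vale.Agent.P042.H359 hiding CELLSF cells_StF

open Finset Polynomial
open Vale.Agent.P042.H779
open Vale.Agent.P042.H779.Ab
open Vale.Agent.P042.H599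
open Vale.Agent.P042.H945
open Vale.Agent.P042.H362 hiding AtEv AtF FF6 HypF MfEv QPF QlEv StF StF1
open Vale.Agent.P042P.H362
open Vale.Agent.P042.H972 hiding Mx_df StOf base6_of stat_of
open Vale.Agent.P042P.H972
open Vale.Agent.P042.H739 hiding Base6 GwTy LOWERF LOWat STat StTy
open Vale.Agent.P042.SS hiding Gam

set_option linter.unusedSectionVars false

/-- no cell of the state is much heavier than the average; moduli with primes `≤ K0f` only -/
def CELLSF (K0f Q0f : ℕ → ℕ → ℝ → ℕ) (St : StTy) : Prop :=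
  ∀ k R : ℕ, 2 ≤ k → 1 ≤ R → ∃ κs : ℝ, 0 < κs ∧ ∀ κ : ℝ, 0 < κ → κ ≤ κs →
  ∃ P0 : ℝ, ∀ P : ℝ, P0 ≤ P → ∀ (f : PL) (N' : ℕ) (G : ℤ → ℝ), f.natDegree = k →
    0 < f.leadingCoeff → Base6 f κ P N' G → St k R f κ P N' G →
    ∀ q : ℕ, 1 ≤ q → q ≤ Q0f k R κ → (∀ p : ℕ, p.Prime → p ∣ q → p ≤ K0f k R κ) →
      ∀ (z : ℤ) (V : ℕ), 0 ≤ z → z + V ≤ N' → N' ≤ 1000 * V →
      ∀ w : ZMod q, q * cmass G q w z V ≤ (1 + 1 / 8000) * V

/-- **the masses of the cells of the state of the power regime** -/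
theorem cells_StF {κ' : Type} (par : ℕ → ℕ → ℝ → FP)
    (fam : ℕ → ℕ → ℝ → ℝ → H599.Fam κ') (K0f Q0f : ℕ → ℕ → ℝ → ℕ)
    (hpar : ∀ k R : ℕ, 2 ≤ k → 1 ≤ R → ∃ κs : ℝ, 0 < κs ∧ ∀ κ : ℝ, 0 < κ → κ ≤ κs →
      K0f k R κ ≤ max (max (par k R κ).K0 R) (2 * k) ∧ 0 < (par k R κ).kp ∧
        0 ≤ (par k R κ).be ∧
        (par k R κ).be * (Real.log (Q0f k R κ) + 8) ≤ 1 / 20000) :
    CELLSF K0f Q0f (StF par fam) := by
  intro k R hk hR
  obtain ⟨κs, hκs, hp⟩ := hpar k R hk hR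
  refine ⟨κs, hκs, fun κ hκ hκs' => ?_⟩
  obtain ⟨hK, hkp, hbe, hbeQ⟩ := hp κ hκ hκs'
  obtain ⟨q, hq⟩ : ∃ q : FP, q = par k R κ := ⟨_, rfl⟩
  rw [← hq] at hK hkp hbe hbeQ
  have hk0 : (0 : ℝ) < k := by
    have : 0 < k := by omega
    exact_mod_cast this
  refine ⟨max (64 * 7 / q.kp) (16 * k * Real.log (Q0f k R κ)),
    fun P hP f N' G hdeg hlead hbase hSt D hD1 hDQ hDp z V hz hzN hVN w => ?_⟩
  have : NeZero D := ⟨by omega⟩
  obtain ⟨mu, hF, hG⟩ := hSt
  have hF' : StF1 (WF q k R P) q (fam k R κ P) f N' mu (q.kp * P / 64) (P / (16 * k)) := by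
    rw [hq]
    exact hF
  have hP1 := (le_max_left _ _).trans hP
  have hP2 := (le_max_right _ _).trans hP
  rw [div_le_iff₀ hkp] at hP1
  have hDm : 7 ≤ q.kp * P / 64 := by linarith
  have hlaw := hF'.law
  have hN0 : (0 : ℝ) < N' := by exact_mod_cast hlaw.pos
  obtain ⟨a, rfl⟩ : ∃ a : ℕ, z = a := ⟨z.toNat, (Int.toNat_of_nonneg hz).symm⟩
  have haV : a + V ≤ N' := by exact_mod_cast hzN
  have hV0 : 0 < V := by
    have := hlaw.pos
    omega
  have hV0r : (0 : ℝ) < V := by exact_mod_cast hV0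
  have e : a + V + 1 - (a + 1) = V := by omega
  have hDr : (1 : ℝ) ≤ D := by exact_mod_cast hD1
  have hlD : 0 ≤ Real.log D := Real.log_nonneg hDr
  have hDQr : (D : ℝ) ≤ Q0f k R κ := by exact_mod_cast hDQ
  have hlDQ : Real.log D ≤ Real.log (Q0f k R κ) := Real.log_le_log (by linarith) hDQr
  have h1000 : (1000 : ℝ) ≤ Real.exp 7 := by
    have h1 : (2.7 : ℝ) ≤ Real.exp 1 := by linarith [Real.exp_one_gt_d9]
    have h2 : (2.7 : ℝ) ^ 7 ≤ Real.exp 1 ^ 7 := pow_le_pow_left₀ (by norm_num) h1 7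
    have h3 : Real.exp 7 = Real.exp 1 ^ 7 := by
      rw [← Real.exp_nat_mul]
      norm_num
    rw [h3]
    exact le_trans (by norm_num) h2
  have hNV : (N' : ℝ) ≤ 1000 * V := by exact_mod_cast hVN
  have hVN' : (V : ℝ) ≤ N' := by exact_mod_cast (by omega : V ≤ N')
  -- the cost
  have hWD : (WF q k R P).filter (fun p => p ∣ D) = ∅ := by
    rw [filter_eq_empty_iff]
    intro p hp hpD
    unfold WF at hp
    rw [mem_filter] at hp
    have h1 := hDp p hp.2.1 hpD
    have h2 := hp.2.2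
    exact absurd (h1.trans hK) (not_le.2 h2)
  have hlogNV : Real.log N' - Real.log V ≤ 7 := by
    have h1 : Real.log N' ≤ Real.log (1000 * V) := Real.log_le_log hN0 hNV
    rw [Real.log_mul (by norm_num) hV0r.ne'] at h1
    have h2 : Real.log 1000 ≤ 7 := by
      rw [Real.log_le_iff_le_exp (by norm_num)]
      exact h1000
    linarith
  have hlogNV0 : 0 ≤ Real.log N' - Real.log V := by
    have := Real.log_le_log hV0r hVN'
    linarith
  have hcost : costF (WF q k R P) q D N' V ≤ 1 / 20000 := by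
    unfold costF
    rw [hWD, sum_empty, add_zero]
    refine le_trans (mul_le_mul_of_nonneg_left ?_ hbe) hbeQ
    linarith
  have hcost0 : 0 ≤ costF (WF q k R P) q D N' V := by
    unfold costF
    rw [hWD, sum_empty, add_zero]
    exact mul_nonneg hbe (by linarith)
  have h1 := ql_cell (w := w.val) (u := a + 1) (v := a + V) hlaw hF'.nn (fun p hp => by
      unfold WF at hp
      exact (mem_filter.1 hp).2.1) hF'.ql (by linarith) hD1 (by
      rw [le_div_iff₀ (by positivity)]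
      calc Real.log D * (16 * k) = 16 * k * Real.log D := by ring
        _ ≤ 16 * k * Real.log (Q0f k R κ) :=
            mul_le_mul_of_nonneg_left hlDQ (by positivity)
        _ ≤ P := hP2) (by omega) haV (by
      rw [e]
      refine hNV.trans (mul_le_mul_of_nonneg_right ?_ hV0r.le)
      exact h1000.trans (Real.exp_le_exp.2 hDm)) (by rw [e]; exact hcost0)
  rw [e] at h1
  rw [cmass_eq hG w haV]
  have h2 : Real.exp (costF (WF q k R P) q D N' V) ≤ 1 + 1 / 8000 :=
    exp_small hcost0 (by linarith) (by norm_num)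
  calc (D : ℝ) * (N' * ms mu N' (cl D w.val (a + 1) (a + V)))
      = D * ms mu N' (cl D w.val (a + 1) (a + V)) * N' := by ring
    _ ≤ Real.exp (costF (WF q k R P) q D N' V) * V := h1
    _ ≤ (1 + 1 / 8000) * V := mul_le_mul_of_nonneg_right h2 hV0r.le

end Vale.Agent.P042P.H359
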