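import Vale.Agent.P042PQ.H121F1d
import Vale.Agent.P042.H362.HInst

set_option autoImplicit false

/-!
P042, prime arguments: port of `P042.H362.HInst` to the pairs (polynomial, linear form).
-/

set_option linter.unusedSectionVars false

namespace Vale.Agent.P042P.H362
open Vale.Agent.P042 hiding AuxData AuxData.lam_le AuxData.lam_pos AuxData.natDegree_H DiffFree
  rMax
open Vale.Agent.P042.H362 hiding low_sum_eq norm_ge

open Finset Polynomial

open Vale.Agent.P042P.H74 (Ram NS Ram_zero)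

open Vale.Agent.P042.H452 (low MM)
open Vale.Agent.P042P.H452 (FB)

open Vale.Agent.P042P.H85 (FBa)

open Vale.Agent.P042.H121 (DDm M2f omr reindex mem_M2f)

section main

variable {a : Type} [Fintype a] [DecidableEq a] {lo : a → Prop} [DecidablePred lo] {prm : a → ℕ}

/-- **the sum of the seam over all typed sets and super-moduli** (real parts) -/
theorem low_sum_eq (g : PL) (PP : Finset ℕ) (hPP : NS g PP) (hinj : Function.Injective prm)
    (hprm : ∀ i, prm i ∈ PP) {T : Finset ℕ} (hT : ∀ p ∈ T, p.Prime ∧ ∀ i, prm i ≠ p)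
    (S1 S2 : Finset ℤ) (f f' : ℤ → ℝ) (K : {i // lo i} → ℤ → ℤ → ℝ) (m0 M0 : ℕ) :
    (∑ C ∈ low {i // lo i} m0, ∑ m2 ∈ MM T (fun i : {i // lo i} => prm i) M0,
      FB g PP S1 S2 f f' K C m2).re =
    ∑ B ∈ DDm lo prm m0 M0 1, (FBa g PP S1 S2 f f' prm lo K 1 B).re +
      ∑ m ∈ MMt T prm M0, ∑ B ∈ DDm lo prm m0 M0 m, (FBa g PP S1 S2 f f' prm lo K m B).re := by
  have hp : ∀ i, (prm i).Prime := fun i => (hPP _ (hprm i)).1
  have e1 : ∀ C : Finset {i // lo i}, ∑ m2 ∈ MM T (fun i : {i // lo i} => prm i) M0,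
      FB g PP S1 S2 f f' K C m2 =
      ∑ m2 ∈ M2f lo prm M0 (insert 1 (MMt T prm M0)), FB g PP S1 S2 f f' K C m2 := by
    intro C
    refine (sum_subset (M2f_subset hp hinj hT M0) fun m2 h1 h2 => ?_).symm
    obtain ⟨i, hi⟩ := sq_of_notMem hp hinj h1 h2
    have hm2 : 1 ≤ m2 := by
      unfold MM at h1
      rw [mem_filter, mem_Icc] at h1
      exact h1.1.1
    unfold FB
    refine sum_eq_zero fun n _ => sum_eq_zero fun n' _ => ?_
    rw [Ram_zero g PP hPP m2 (prm i) (hprm i) hm2 hi, mul_zero]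
  have hup : ∀ m ∈ insert 1 (MMt T prm M0), ∀ i, ¬ lo i → ¬ prm i ∣ m := by
    intro m hm i _ hd
    rcases mem_insert.1 hm with rfl | hm
    · exact (hp i).one_lt.ne' (Nat.dvd_one.1 hd)
    · exact (mem_MMt.1 hm).2.2 i hd
  have h2 := H121.reindex (lo := lo) hp hinj m0 M0 hup (fun _ => 1)
    (fun C m2 => (FB g PP S1 S2 f f' K C m2).re)
  simp only [prod_const_one, one_mul] at h2
  have h3 : ∀ m2, omr lo prm (fun _ => 1) m2 = 1 := fun m2 => prod_const_one
  simp only [h3, one_mul] at h2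
  rw [Complex.re_sum]
  simp only [e1]
  simp only [Complex.re_sum]
  rw [← h2, sum_insert one_notMem_MMt]
  rfl

/-- **the passage to the norm** -/
theorem norm_ge (g : PL) (PP : Finset ℕ) (hPP : NS g PP) (hinj : Function.Injective prm)
    (hprm : ∀ i, prm i ∈ PP) {T : Finset ℕ} (hT : ∀ p ∈ T, p.Prime ∧ ∀ i, prm i ≠ p)
    (S1 S2 : Finset ℤ) (f f' : ℤ → ℝ) (K : {i // lo i} → ℤ → ℤ → ℝ) (m0 M0 : ℕ) {x y : ℝ}
    (hxy : x ≤ y)
    (h : y ≤ ∑ B ∈ DDm lo prm m0 M0 1, (FBa g PP S1 S2 f f' prm lo K 1 B).re +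
      ∑ m ∈ MMt T prm M0, ∑ B ∈ DDm lo prm m0 M0 m, (FBa g PP S1 S2 f f' prm lo K m B).re) :
    x ≤ ‖∑ C ∈ low {i // lo i} m0, ∑ m2 ∈ MM T (fun i : {i // lo i} => prm i) M0,
      FB g PP S1 S2 f f' K C m2‖ := by
  rw [← low_sum_eq g PP hPP hinj hprm hT S1 S2 f f' K m0 M0] at h
  exact hxy.trans (h.trans (Complex.re_le_norm _))

end main

end Vale.Agent.P042P.H362
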