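import Vale.Agent.P042PQ.H362StF
import Vale.Agent.P042.H362.NumF

set_option autoImplicit false

/-!
P042, prime arguments: port of `P042.H362.NumF` to the pairs (polynomial, linear form).
-/

namespace Vale.Agent.P042P.H362
open Vale.Agent.P042 hiding AuxData AuxData.lam_le AuxData.lam_pos AuxData.natDegree_H DiffFree
  rMax
open Vale.Agent.P042.H362 hiding AtEv AtF FF6 HypF HypF.M_ge HypF.M_pos HypF.lamle MfEv QPF QlEv
  StF StF1 sqQ

open Polynomial Finset
open Vale.Agent.P042.H599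
open Vale.Agent.P042.H945
open Vale.Agent.P042.H739 hiding Base6 GwTy LOWERF LOWat STat StTy
open Vale.Agent.P042.H972 hiding Mx_df StOf base6_of stat_of
open Vale.Agent.P042P.H972
open Vale.Agent.P042.H383 hiding Om_le_F QP atoms atoms_F core_at dns_le_one edge edge_transport
  gain_atom gain_of_miss good_prime kN_of_edge kN_of_not_edge lam_one maxI_F mem_missA mem_missB
  mem_nbA mem_nbB miss missA missA_subset missB missB_subset miss_anti miss_le miss_mul_card
  miss_nbA miss_nbB miss_sdiff miss_transport mixing_card nbA nbA_card nbB nbB_card not_dvd_lam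
  ok_PP_of ok_QP om0_F omB_F omF omF_le omF_rs omg omg_anti omg_le_const omg_le_klu omg_le_sdiff
  omg_mono_of omg_nonneg omg_transport omt_F prx_at rows rows_F rows_aux
open Vale.Agent.P042P.H383
open Vale.Agent.P042.H74 hiding GamN GamN_coprime GamN_eq GamN_norm GamN_prime_norm GamN_tiny
  GamN_zero GamN_zero_one GamW GamW_eq_avC GamW_split GamW_zero_one NS NS_fer Ram Ram_mul Ram_one
  Ram_prime Ram_prod Ram_tiny Ram_tiny_zero Ram_zero Ram_zero_of_Wq Wq Wq_mul Wq_per Wq_zero
  Wq_zero_num Wq_zero_tiny avC_om avC_om_single deriv_fer_eval dns dns_fer dns_ge dns_pos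
  dvd_deriv_fer fer fer_coeff fer_const fer_eval fer_natDegree kN kN_form kN_per multFam_GamN
  neg_one_le_kN nonconst_fer om om_ne_zero om_per om_union sum_Ram_tiny sum_Wq
open Vale.Agent.P042P.H74
open Vale.Agent.P042.SS hiding Gam

section primes

variable {q : FP} {k R : ℕ} {κ A P : ℝ}

end primes

section mx

variable {κ' : Type} {q : FP} {k R : ℕ} {κ c A P : ℝ} {fm : H599.Fam κ'} {h : PL}
  {lam : ℕ → ℕ} {r : ℕ → ℤ} {Hh : ℕ → PL} {N : ℕ} {A0 : Finset ℤ} {d : ℕ} {a : ℤ} {M : ℕ}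
  {x : ℕ → ℝ}

theorem HypF.lamle (H : HypF q k R κ c P fm h lam r Hh N A0 d a M x) {D : ℕ} (hD : 1 ≤ D) :
    1 ≤ lam D ∧ Real.log (lam D) ≤ k * Real.log D := by
  have h1 := H.aux.lam_pos D hD
  refine ⟨h1, ?_⟩
  have h2 := H.aux.lam_le D hD
  rw [H.deg] at h2
  rw [← Real.log_pow]
  exact Real.log_le_log (by exact_mod_cast h1) (by exact_mod_cast h2)

theorem HypF.M_ge (H : HypF q k R κ c P fm h lam r Hh N A0 d a M x) (hκ8 : κ ≤ 1 / 8)
    (hP : 0 ≤ P) : Real.exp (7 / 8 * P) ≤ M := by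
  have hM : (0 : ℝ) < M := by exact_mod_cast H.mx.mx.1.law.pos
  rw [← Real.le_log_iff_exp_le hM]
  have h1 := H.lo
  nlinarith

theorem HypF.M_pos (H : HypF q k R κ c P fm h lam r Hh N A0 d a M x) : (0 : ℝ) < M := by
  exact_mod_cast H.mx.mx.1.law.pos

theorem sqQ (hB : BigF q A P) (hf : FamQ q k R A P fm) : SqF (QPF q k R P fm Hh lam) :=
  H103.sqF_PP (fun _ hp => WF_prime hB hp) hf.sub

end mx

end Vale.Agent.P042P.H362
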