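import Vale.Agent.P042PQ.Base
import Vale.Agent.P042.H972.PwBase

set_option autoImplicit false

/-!
P042, prime arguments: port of `P042.H972.PwBase` to the pairs (polynomial, linear form).
-/

namespace Vale.Agent.P042P.H972
open Vale.Agent.P042 hiding AuxData AuxData.lam_le AuxData.lam_pos AuxData.natDegree_H DiffFree
  rMax
open Vale.Agent.P042.H972 hiding Mx_df StOf base6_of stat_of

open Finset Polynomial
open Vale.Agent.P042.H599
open Vale.Agent.P042.H945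
open Vale.Agent.P042.H739 hiding Base6 GwTy LOWERF LOWat STat StTy

variable {ι : Type} {Q : Par ι} {N : ℕ} {A0 : Finset ℤ} {L : ℝ}

variable {d M : ℕ} {a : ℤ} {x : ℕ → ℝ}

/-- (4) the difference set at the maximiser -/
theorem Mx_df {h : PL} {r : ℕ → ℤ} {Hh : ℕ → PL} {R : ℕ} (hAux : AuxData h Q.lam r Hh R)
    (hdf : DiffFree h A0) (hA : Adm Q N A0 d a M x) {n m : ℕ} (hn : x n ≠ 0) (hm : x m ≠ 0)
    {z : ℕ} (hz : 1 ≤ z) (hpr : pr (Hh d) z) (he : (n : ℤ) - m = (Hh d).eval (z : ℤ)) : n = m := by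
  have hd := hA.hd
  have h1 := (hA.supp n hn).2.2
  have h2 := (hA.supp m hm).2.2
  have h3 := congrArg (fun g : ℤ[X] => g.eval (z : ℤ)) (hAux.hH d hd)
  simp only [eval_mul, eval_C, eval_comp, eval_add, eval_X] at h3
  have hr := hAux.hr d hd
  have hz' : (1 : ℤ) ≤ z := by exact_mod_cast hz
  have hd' : (1 : ℤ) ≤ d := by exact_mod_cast hd
  have hpos : 1 ≤ r d + d * z := by nlinarith [hr.1]
  obtain ⟨t, ht⟩ : ∃ t : ℕ, (t : ℤ) = r d + d * z := ⟨(r d + d * z).toNat, by omega⟩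
  have ht1 : 1 ≤ t := by
    have : (1 : ℤ) ≤ t := by rw [ht]; exact hpos
    exact_mod_cast this
  have hdiff : (a + Q.lam d * n) - (a + Q.lam d * m) = h.eval (t : ℤ) := by
    rw [ht, ← h3, ← he]
    ring
  have h4 : (a + Q.lam d * n) - (a + Q.lam d * m) ∈ ({0} : Set ℤ) := by
    refine hdf ⟨?_, ?_⟩
    · exact Set.mem_sub.2 ⟨_, by exact_mod_cast h1, _, by exact_mod_cast h2, rfl⟩
    · refine ⟨t, ht1, ?_, hdiff.symm⟩
      obtain ⟨p, hp, hpe⟩ := hpr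
      refine ⟨p, hp, ?_⟩
      rw [hpe, hAux.hu d hd, hAux.hv d hd, ht]
      ring
  rw [Set.mem_singleton_iff] at h4
  have hl : (Q.lam d : ℤ) ≠ 0 := by
    have := hm
    have h5 := hAux.lam_pos d hd
    exact_mod_cast (by omega : Q.lam d ≠ 0)
  have h5 : (Q.lam d : ℤ) * ((n : ℤ) - m) = 0 := by linarith
  have h6 := (mul_eq_zero.1 h5).resolve_left hl
  have h7 : (n : ℤ) = m := by linarith
  exact_mod_cast h7

/-- (5) from a law on the maximiser to `Base6` -/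
theorem base6_of {h : PL} {r : ℕ → ℤ} {Hh : ℕ → PL} {R : ℕ} (hAux : AuxData h Q.lam r Hh R)
    (hdf : DiffFree h A0) (hA : Adm Q N A0 d a M x) {κ P : ℝ} {mu : ℕ → ℝ} (hmu : Law mu 1 M)
    (hout : ∀ n, mu n ≠ 0 → x n ≠ 0) (hcap : ∀ n, M * mu n ≤ Real.exp (κ * P))
    (hlo : (1 - κ) * P ≤ Real.log M) (hhi : Real.log M ≤ P) :
    Base6 (Hh d) κ P M (GG M mu) := by
  have hM : (0 : ℝ) < M := by exact_mod_cast hmu.pos
  have hne : ∀ n : ℤ, GG M mu n ≠ 0 → 1 ≤ n ∧ mu n.toNat ≠ 0 := by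
    intro n hn
    unfold H972.GG at hn
    by_cases h1 : 1 ≤ n
    · rw [if_pos h1] at hn
      exact ⟨h1, fun h2 => hn (by rw [h2, mul_zero])⟩
    · rw [if_neg h1] at hn
      exact absurd rfl hn
  have hmun : ∀ n, 0 ≤ mu n := by
    intro n
    by_cases h0 : mu n = 0
    · exact h0.ge
    · obtain ⟨h1, h2, _⟩ := hA.supp n (hout n h0)
      have := hmu.nonneg (n - 1) (by omega)
      rwa [show 1 + (n - 1) = n by omega] at this
  refine ⟨?_, ?_, fun n => ?_, fun n hn => ?_, ?_, fun n => ?_, fun n m hn hm z hz hpr he => ?_⟩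
  · rw [← Real.le_log_iff_exp_le hM]
    exact hlo
  · rw [← Real.log_le_iff_le_exp hM]
    exact hhi
  · unfold H972.GG
    split_ifs
    · exact mul_nonneg hM.le (hmun _)
    · exact le_rfl
  · obtain ⟨h1, h2⟩ := hne n hn
    obtain ⟨h3, h4, _⟩ := hA.supp _ (hout _ h2)
    refine ⟨h1, ?_⟩
    omega
  · have h1 := sum_GG (mu := mu) M (fun t => t)
    rw [h1, ← Finset.mul_sum, hmu.sum, mul_one]
  · unfold H972.GG
    split_ifs
    · exact hcap _
    · exact (Real.exp_pos _).le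
  · obtain ⟨h1, h2⟩ := hne n hn
    obtain ⟨h3, h4⟩ := hne m hm
    have h5 : (n.toNat : ℤ) = n := Int.toNat_of_nonneg (by omega)
    have h6 : (m.toNat : ℤ) = m := Int.toNat_of_nonneg (by omega)
    have h7 := Mx_df hAux hdf hA (hout _ h2) (hout _ h4) hz hpr (by rw [h5, h6]; exact he)
    rw [← h5, ← h6, h7]

/-- the shape of the state predicate -/
def StOf (F : ℕ → ℕ → PL → ℝ → ℝ → ℕ → (ℕ → ℝ) → Prop) : StTy :=
  fun k R f κ P N' G => ∃ mu : ℕ → ℝ, F k R f κ P N' mu ∧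
    ∀ n : ℤ, G n = if 1 ≤ n then (N' : ℝ) * mu n.toNat else 0

/-- **(6) the assembly at one value of `P`** -/
theorem stat_of {h : PL} {r : ℕ → ℤ} {Hh : ℕ → PL} {R : ℕ} {κ dl P : ℝ} (hQ : Ok Q)
    (hAux : AuxData h Q.lam r Hh R) (hnum : Num Q κ dl P)
    (Sp : PL → ℕ → (ℕ → ℝ) → Prop)
    (hSt : ∀ (N : ℕ) (A0 : Finset ℤ) (d : ℕ) (a : ℤ) (M : ℕ) (x : ℕ → ℝ), Real.log N = P →
      Mx Q N A0 d a M x dl → (1 - κ) * P ≤ Real.log M → Real.log M ≤ P →
      ∃ mu : ℕ → ℝ, Law mu 1 M ∧ (∀ n, mu n ≠ 0 → x n ≠ 0) ∧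
        (∀ n, M * mu n ≤ Real.exp (κ * P)) ∧ Sp (Hh d) M mu) :
    STat h Hh κ dl P (fun f N' G => ∃ mu : ℕ → ℝ, Sp f N' mu ∧
      ∀ n : ℤ, G n = if 1 ≤ n then (N' : ℝ) * mu n.toNat else 0) := by
  intro N hN hlog A0 hsub hdf hcard
  have hN' : (0 : ℝ) < N := by exact_mod_cast hN
  have hMm : Q.Mm ≤ N := by
    have h1 := hnum.Mm
    rw [← hlog, Real.exp_log hN'] at h1
    exact_mod_cast h1
  obtain ⟨d, a, M, x, hm⟩ := exists_Mx hQ hnum.L0 hsub hcard hMm hnum.D0 hnum.D2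
  obtain ⟨h1, h2, h3⟩ := Mx_len hm
  have hA := hm.mx.1
  have hMpos : (0 : ℝ) < M := by exact_mod_cast hA.law.pos
  have hlog2 : 0 ≤ Real.log 2 := Real.log_nonneg (by norm_num)
  have hlen := hnum.len
  have hlo : (1 - κ) * P ≤ Real.log M := by
    rw [hlog] at h1
    linarith
  have hhi : Real.log M ≤ P := by
    rw [← hlog]
    exact Real.log_le_log hMpos (by exact_mod_cast h2)
  obtain ⟨mu, hmu, hout, hcap, hSp⟩ := hSt N A0 d a M x hlog hm hlo hhi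
  refine ⟨d, M, GG M mu, hA.hd, ?_, base6_of hAux hdf hA hmu hout hcap hlo hhi, mu, hSp,
    fun n => rfl⟩
  have hdl : (d : ℝ) ≤ Q.lam d := by
    exact_mod_cast Nat.le_of_dvd (hQ.lam0 d hA.hd) (hQ.lamd d hA.hd)
  have hlp : (0 : ℝ) < Q.lam d := by exact_mod_cast hQ.lam0 d hA.hd
  refine hdl.trans ?_
  rw [← Real.log_le_iff_le_exp hlp]
  linarith

end Vale.Agent.P042P.H972
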