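import Vale.Agent.P042PQ.H383CoX
import Vale.Agent.P042PQ.H972PwBase
import Vale.Agent.P042.H362.StF

set_option autoImplicit false

/-!
P042, prime arguments: port of `P042.H362.StF` to the pairs (polynomial, linear form).
-/

namespace Vale.Agent.P042P.H362
open Vale.Agent.P042 hiding AuxData AuxData.lam_le AuxData.lam_pos AuxData.natDegree_H DiffFree
  rMax
open Vale.Agent.P042.H362 hiding AtEv AtF FF6 HypF MfEv QPF QlEv StF StF1

open Polynomial Finset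
open Vale.Agent.P042.H599
open Vale.Agent.P042.H945
open Vale.Agent.P042.H739 hiding Base6 GwTy LOWERF LOWat STat StTy
open Vale.Agent.P042.H972 hiding Mx_df StOf base6_of stat_of
open Vale.Agent.P042P.H972
open Vale.Agent.P042.H383 hiding Om_le_F QP atoms atoms_F core_at dns_le_one edge edge_transport
  gain_atom gain_of_miss good_prime kN_of_edge kN_of_not_edge lam_one maxI_F mem_missA mem_missB
  mem_nbA mem_nbB miss missA missA_subset missB missB_subset miss_anti miss_le miss_mul_card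
  miss_nbA miss_nbB miss_sdiff miss_transport mixing_card nbA nbA_card nbB nbB_card not_dvd_lam
  ok_PP_of ok_QP om0_F omB_F omF omF_le omF_rs omg omg_anti omg_le_const omg_le_klu omg_le_sdiff
  omg_mono_of omg_nonneg omg_transport omt_F prx_at rows rows_F rows_aux
open Vale.Agent.P042P.H383
open Vale.Agent.P042.H74 hiding GamN GamN_coprime GamN_eq GamN_norm GamN_prime_norm GamN_tiny
  GamN_zero GamN_zero_one GamW GamW_eq_avC GamW_split GamW_zero_one NS NS_fer Ram Ram_mul Ram_one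
  Ram_prime Ram_prod Ram_tiny Ram_tiny_zero Ram_zero Ram_zero_of_Wq Wq Wq_mul Wq_per Wq_zero
  Wq_zero_num Wq_zero_tiny avC_om avC_om_single deriv_fer_eval dns dns_fer dns_ge dns_pos
  dvd_deriv_fer fer fer_coeff fer_const fer_eval fer_natDegree kN kN_form kN_per multFam_GamN
  neg_one_le_kN nonconst_fer om om_ne_zero om_per om_union sum_Ram_tiny sum_Wq
open Vale.Agent.P042P.H74
open Vale.Agent.P042.SS hiding Gam

/-- the one-prime fields -/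
structure AtF (W : Finset ℕ) (q : FP) (f : PL) (M : ℕ) (mu : ℕ → ℝ) (Dm : ℝ) : Prop where
  law : Law mu 1 M
  nn : ∀ n, 0 ≤ mu n
  out : ∀ n, mu n ≠ 0 → 1 ≤ n ∧ n ≤ M
  cap : ∀ n, M * mu n ≤ 2 * Real.exp (32 * Dm)
  atom : ∀ p ∈ W, ∀ a, cm mu 1 M p a = 0 ∨ (p : ℝ) ^ (-q.g) / (4 * p) ≤ cm mu 1 M p a
  sup : ∀ p ∈ W, ∀ a, p * cm mu 1 M p a ≤ (p : ℝ) ^ q.b
  row : ∀ p ∈ W, ∀ a, a < p → cm mu 1 M p a ≠ 0 →
    (p : ℝ) ^ (-q.gr) / 5 ≤ ∑ c ∈ range p, cm mu 1 M p c * (1 + kN f p ((a : ℤ) - c)) ∧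
      (p : ℝ) ^ (-q.gr) / 5 ≤ ∑ c ∈ range p, cm mu 1 M p c * (1 + kN f p ((c : ℤ) - a))

/-- **the state of the power regime** -/
structure StF1 {κ' : Type} (W : Finset ℕ) (q : FP) (fm : H599.Fam κ') (f : PL) (M : ℕ)
    (mu : ℕ → ℝ) (Dm Lq : ℝ) : Prop extends AtF W q f M mu Dm where
  mf : MF W q fm M mu Dm
  ql : QL W q M mu Dm Lq

/-- the field list in the shape of `H972.state6_fix`; `Dm = kp P / 64`, `Lq = P / (16 k)` -/
def FF6 {κ' : Type} (par : ℕ → ℕ → ℝ → FP) (fam : ℕ → ℕ → ℝ → ℝ → H599.Fam κ') (k R : ℕ)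
    (f : PL) (κ P : ℝ) (M : ℕ) (mu : ℕ → ℝ) : Prop :=
  StF1 (WF (par k R κ) k R P) (par k R κ) (fam k R κ P) f M mu ((par k R κ).kp * P / 64)
    (P / (16 * k))

/-- **the state predicate of the power regime** -/
def StF {κ' : Type} (par : ℕ → ℕ → ℝ → FP) (fam : ℕ → ℕ → ℝ → ℝ → H599.Fam κ') : StTy :=
  StOf (FF6 par fam)

/-- the functional of the power regime -/
noncomputable def QPF {κ' : Type} (q : FP) (k R : ℕ) (P : ℝ) (fm : H599.Fam κ') (Hh : ℕ → PL)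
    (lam : ℕ → ℕ) : Par (ℕ ⊕ (Σ _ : κ', Finset ℕ)) :=
  QP fm (WF q k R P) q.g q.gr q.gc Hh lam (q.be / (4 * k)) (q.kp * P)
    (2 * P ^ (1 - q.g / 5)) (MmP P)

/-- the data at one maximiser -/
structure HypF {κ' : Type} (q : FP) (k R : ℕ) (κ c P : ℝ) (fm : H599.Fam κ') (h : PL)
    (lam : ℕ → ℕ) (r : ℕ → ℤ) (Hh : ℕ → PL) (N : ℕ) (A0 : Finset ℤ) (d : ℕ) (a : ℤ) (M : ℕ)
    (x : ℕ → ℝ) : Prop where
  aux : AuxData h lam r Hh R
  deg : h.natDegree = k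
  k2 : 2 ≤ k
  lead : 0 < h.leadingCoeff
  mx : Mx (QPF q k R P fm Hh lam) N A0 d a M x (c * P)
  lo : (1 - κ) * P ≤ Real.log M
  hi : Real.log M ≤ P

/-- block 1 (one-prime fields) -/
def AtEv : Prop := ∀ {κ' : Type} (q : FP) (k R : ℕ) (κ c : ℝ) (fm : ℝ → H599.Fam κ'),
  FPOk q k κ → FamP q k R fm → 1 ≤ R → 0 < κ → κ ≤ 1 / 8 → 0 < c → c ≤ 1 → ∃ P0 : ℝ,
  ∀ P : ℝ, P0 ≤ P → ∀ h lam r Hh N A0 d a M x,
    HypF q k R κ c P (fm P) h lam r Hh N A0 d a M x →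
    AtF (WF q k R P) q (Hh d) M (core x M (q.kp * P)) (q.kp * P / 64)

/-- block 2 (master inequality with families) -/
def MfEv : Prop := ∀ {κ' : Type} (q : FP) (k R : ℕ) (κ c : ℝ) (fm : ℝ → H599.Fam κ'),
  FPOk q k κ → FamP q k R fm → 1 ≤ R → 0 < κ → κ ≤ 1 / 8 → 0 < c → c ≤ 1 → ∃ P0 : ℝ,
  ∀ P : ℝ, P0 ≤ P → ∀ h lam r Hh N A0 d a M x,
    HypF q k R κ c P (fm P) h lam r Hh N A0 d a M x →
    MF (WF q k R P) q (fm P) M (core x M (q.kp * P)) (q.kp * P / 64)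

/-- block 3 (large cells; the atoms of the core are given) -/
def QlEv : Prop := ∀ {κ' : Type} (q : FP) (k R : ℕ) (κ c : ℝ) (fm : ℝ → H599.Fam κ'),
  FPOk q k κ → FamP q k R fm → 1 ≤ R → 0 < κ → κ ≤ 1 / 8 → 0 < c → c ≤ 1 → ∃ P0 : ℝ,
  ∀ P : ℝ, P0 ≤ P → ∀ h lam r Hh N A0 d a M x,
    HypF q k R κ c P (fm P) h lam r Hh N A0 d a M x →
    AtF (WF q k R P) q (Hh d) M (core x M (q.kp * P)) (q.kp * P / 64) →
    QL (WF q k R P) q M (core x M (q.kp * P)) (q.kp * P / 64) (P / (16 * k))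

end Vale.Agent.P042P.H362
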