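import Vale.Agent.P042PQ.H452KerT
import Vale.Agent.P042PQ.H452PairR
import Vale.Agent.P042PQ.H860Glue
import Vale.Agent.P042.H362.TiltI

set_option autoImplicit false

/-!
P042, prime arguments: port of `P042.H362.TiltI` to the pairs (polynomial, linear form).
-/

namespace Vale.Agent.P042P.H362
open Vale.Agent.P042 hiding AuxData AuxData.lam_le AuxData.lam_pos AuxData.natDegree_H DiffFree
  rMax
open Vale.Agent.P042.H362 hiding AtEv AtF FF6 HypF KW KZ MfEv QPF QlEv StF StF1 jS qS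

open Polynomial Finset
open Vale.Agent.P042.SS hiding Gam
open Vale.Agent.P042.H74 hiding GamN GamN_coprime GamN_eq GamN_norm GamN_prime_norm GamN_tiny
  GamN_zero GamN_zero_one GamW GamW_eq_avC GamW_split GamW_zero_one Gam_fer_norm NS NS_fer Ram
  Ram_index Ram_mul Ram_one Ram_prime Ram_prod Ram_tiny Ram_tiny_zero Ram_zero Ram_zero_of_Wq Wq
  Wq_mul Wq_per Wq_zero Wq_zero_num Wq_zero_tiny avC_om avC_om_single deriv_fer_eval dns dns_fer
  dns_ge dns_ge_exp dns_le_one dns_nonneg dns_pos dvd_deriv_fer fer fer_coeff fer_const fer_eval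
  fer_natDegree kN kN_form kN_per multFam_GamN neg_one_le_kN nonconst_fer not_dvd_of_nonconst om
  om_ne_zero om_per om_union prod_dns_ge prod_dns_ge_aux seamG sum_Ram_full sum_Ram_index
  sum_Ram_tiny sum_Wq
open Vale.Agent.P042P.H74
open Vale.Agent.P042.H452 hiding FB GamN_conj GamW_eq_GamN PS PS_eq Ram_conj Ram_ramK Ram_shift
  SeamH SeamH.pos SeamH.prime SeamH.rho0 SeamH.term_bound Tt Wq_conj abs_ramK_le crossT crossT_eq
  hloc_tilts kernel_rel kp_O kp_R main_eq norm_GamN_le ooK ooK_OB ooK_left ooK_op ooK_right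
  pair_ker prSt_F ps_l1 ramK ramK_shift seam sum_Ram sum_ramK tilt_one
open Vale.Agent.P042P.H452

open Vale.Agent.P042.H739 hiding Base6 CELLS GWk GwTy HLOC HLOCat LOWERF LOWat STat StTy
  lowat_congr lowat_ofP lowerF_of lower_at seamH_of
open Vale.Agent.P042P.H739
open Vale.Agent.P042.H245 hiding GWf
open Vale.Agent.P042.H359
open Vale.Agent.P042.H860 hiding Inst Inst.PP Inst.S1 Inst.S2 Inst.f1 Inst.f2 Inst.g Inst.m1
  Inst.m2 Inst.nu1 Inst.nu2 Inst.q0 Inst.q1 Inst.w' Ok Ok.NS Ok.PP_eq Ok.gdeg Ok.gp Ok.gpg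
  Ok.not_dvd_q1 Ok.q0_pos Ok.q1_pos lo loEquiv
open Vale.Agent.P042P.H860

open Vale.Agent.P042.H599 (cm Law)

open Vale.Agent.P042.H386 (OutW kLu GP)
open Vale.Agent.P042P.H386 (PrSt)

open Vale.Agent.P042.H92 (Prm PLaw PPair)

open Vale.Agent.P042.H945 (lamR m1_pf)

open Vale.Agent.P042.H883 (esN esN_le_log log_le_esN)

/-- the moduli of the sites -/
abbrev qS (I : Inst) : Si I.K0 I.C1 I.P → ℕ := fun i => i.1

/-- the sites of the low primes -/
def jS (I : Inst) (kap : ℝ) (hsub : Wst I.K0 kap I.P ⊆ Typ I.K0 I.C1 I.P)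
    (p : {p // p ∈ Wst I.K0 kap I.P}) : Si I.K0 I.C1 I.P := ⟨p.1, hsub p.2⟩

/-- a kernel on the residues as a kernel on the integers -/
def KZ (I : Inst) (K : ∀ i : Si I.K0 I.C1 I.P, ZMod i.1 → ZMod i.1 → ℝ) {kap : ℝ}
    (i : {i : Si I.K0 I.C1 I.P // lo I kap i}) (n m : ℤ) : ℝ :=
  K i.1 (redZ (qS I) n i.1) (redZ (qS I) m i.1)

/-- a kernel on the residues as a kernel on the integers, low primes -/
def KW (I : Inst) {kap : ℝ} (hsub : Wst I.K0 kap I.P ⊆ Typ I.K0 I.C1 I.P)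
    (K : ∀ i : Si I.K0 I.C1 I.P, ZMod i.1 → ZMod i.1 → ℝ)
    (p : {p // p ∈ Wst I.K0 kap I.P}) (n m : ℤ) : ℝ :=
  K (jS I kap hsub p) (redZ (qS I) n (jS I kap hsub p)) (redZ (qS I) m (jS I kap hsub p))

end Vale.Agent.P042P.H362
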