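import Vale.Agent.P042PQ.H362TiltI
import Vale.Agent.P042.H362.TrI

set_option autoImplicit false

/-!
P042, prime arguments: port of `P042.H362.TrI` to the pairs (polynomial, linear form).
-/

namespace Vale.Agent.P042P.H362
open Vale.Agent.P042 hiding AuxData AuxData.lam_le AuxData.lam_pos AuxData.natDegree_H DiffFree
  rMax
open Vale.Agent.P042.H362 hiding AtEv AtF EndI FB_map FB_scale FF6 HypF KW KZ MfEv QPF QlEv StF
  StF1 hlocat_of jS last_of mass_pos qS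

open Polynomial Finset
open Vale.Agent.P042.SS hiding Gam
open Vale.Agent.P042.H74 hiding GamN GamN_coprime GamN_eq GamN_norm GamN_prime_norm GamN_tiny
  GamN_zero GamN_zero_one GamW GamW_eq_avC GamW_split GamW_zero_one Gam_fer_norm NS NS_fer Ram
  Ram_index Ram_mul Ram_one Ram_prime Ram_prod Ram_tiny Ram_tiny_zero Ram_zero Ram_zero_of_Wq Wq
  Wq_mul Wq_per Wq_zero Wq_zero_num Wq_zero_tiny avC_om avC_om_single deriv_fer_eval dns dns_fer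
  dns_ge dns_ge_exp dns_le_one dns_nonneg dns_pos dvd_deriv_fer fer fer_coeff fer_const fer_eval
  fer_natDegree kN kN_form kN_per multFam_GamN neg_one_le_kN nonconst_fer not_dvd_of_nonconst om
  om_ne_zero om_per om_union prod_dns_ge prod_dns_ge_aux seamG sum_Ram_full sum_Ram_index
  sum_Ram_tiny sum_Wq
open Vale.Agent.P042P.H74
open Vale.Agent.P042.H452 hiding FB GamN_conj GamW_eq_GamN PS PS_eq Ram_conj Ram_ramK Ram_shift
  SeamH SeamH.pos SeamH.prime SeamH.rho0 SeamH.term_bound Tt Wq_conj abs_ramK_le crossT crossT_eq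
  hloc_tilts kernel_rel kp_O kp_R main_eq norm_GamN_le ooK ooK_OB ooK_left ooK_op ooK_right
  pair_ker prSt_F ps_l1 ramK ramK_shift seam sum_Ram sum_ramK tilt_one
open Vale.Agent.P042P.H452

open Vale.Agent.P042.H739 hiding Base6 CELLS GWk GwTy HLOC HLOCat LOWERF LOWat STat StTy
  lowat_congr lowat_ofP lowerF_of lower_at seamH_of
open Vale.Agent.P042P.H739
open Vale.Agent.P042.H245 hiding GWf
open Vale.Agent.P042.H359
open Vale.Agent.P042.H860 hiding Inst Inst.PP Inst.S1 Inst.S2 Inst.f1 Inst.f2 Inst.g Inst.m1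
  Inst.m2 Inst.nu1 Inst.nu2 Inst.q0 Inst.q1 Inst.w' Ok Ok.NS Ok.PP_eq Ok.gdeg Ok.gp Ok.gpg
  Ok.not_dvd_q1 Ok.q0_pos Ok.q1_pos lo loEquiv
open Vale.Agent.P042P.H860

open Vale.Agent.P042.H92 (Prm PLaw PPair)

section tr

variable {α β : Type} [Fintype α] [DecidableEq α] [Fintype β] [DecidableEq β]

omit [Fintype α] [Fintype β] [DecidableEq α] [DecidableEq β] in
theorem FB_map (φ : α ≃ β) (g : PL) (PP : Finset ℕ) (S1 S2 : Finset ℤ) (w w' : ℤ → ℝ)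
    (K : β → ℤ → ℤ → ℝ) (C : Finset α) (m : ℕ) :
    FB g PP S1 S2 w w' K (C.map φ.toEmbedding) m =
      FB g PP S1 S2 w w' (fun i => K (φ i)) C m := by
  unfold FB
  refine sum_congr rfl fun n _ => sum_congr rfl fun n' _ => ?_
  rw [prod_map]
  rfl

omit [Fintype α] [DecidableEq α] in
/-- normalisation of the weights -/
theorem FB_scale (g : PL) (PP : Finset ℕ) (S1 S2 : Finset ℤ) (w w' : ℤ → ℝ) {a b : ℝ}
    (ha : a ≠ 0) (hb : b ≠ 0) (K : α → ℤ → ℤ → ℝ) (C : Finset α) (m : ℕ) :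
    FB g PP S1 S2 w w' K C m =
      ((a * b : ℝ) : ℂ) * FB g PP S1 S2 (fun n => w n / a) (fun n => w' n / b) K C m := by
  unfold FB
  rw [mul_sum]
  refine sum_congr rfl fun n _ => ?_
  rw [mul_sum]
  refine sum_congr rfl fun n' _ => ?_
  rw [← mul_assoc, ← Complex.ofReal_mul]
  congr 2
  field_simp

end tr

/-- **the last inequality of `HLOCat`** at an instance -/
theorem last_of (I : Inst) {kap : ℝ} (hsub : Wst I.K0 kap I.P ⊆ Typ I.K0 I.C1 I.P)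
    (K : ∀ i : Si I.K0 I.C1 I.P, ZMod i.1 → ZMod i.1 → ℝ) {x : ℝ} {m0 M0 : ℕ}
    (h1 : 0 < I.m1) (h2 : 0 < I.m2)
    (h : x ≤ ‖∑ C ∈ low {i : Si I.K0 I.C1 I.P // lo I kap i} m0,
      ∑ m2 ∈ MM (Tst I.K0) (fun i : {i : Si I.K0 I.C1 I.P // lo I kap i} => (i.1.1 : ℕ)) M0,
        FB I.g I.PP I.S1 I.S2 I.f1 I.f2 (KZ I K) C m2‖) :
    x * (I.m1 * I.m2) ≤ ‖∑ B ∈ low {p // p ∈ Wst I.K0 kap I.P} m0,
      ∑ m2 ∈ MM (Tst I.K0) (fun i : {p // p ∈ Wst I.K0 kap I.P} => i.1) M0,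
        FB I.g I.PP I.S1 I.S2 I.G I.G (KW I hsub K) B m2‖ := by
  rw [tr_low (loEquiv I kap hsub) (fun i : {p // p ∈ Wst I.K0 kap I.P} => i.1) (Tst I.K0) m0 M0
    fun B m2 => FB I.g I.PP I.S1 I.S2 I.G I.G (KW I hsub K) B m2]
  have h3 : ∀ (C : Finset {i : Si I.K0 I.C1 I.P // lo I kap i}) (m : ℕ),
      FB I.g I.PP I.S1 I.S2 I.G I.G (KW I hsub K) (C.map (loEquiv I kap hsub).toEmbedding) m =
      ((I.m1 * I.m2 : ℝ) : ℂ) * FB I.g I.PP I.S1 I.S2 I.f1 I.f2 (KZ I K) C m := by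
    intro C m
    rw [FB_map, FB_scale (a := I.m1) (b := I.m2) _ _ _ _ _ _ h1.ne' h2.ne']
    rfl
  simp only [h3, ← mul_sum]
  rw [norm_mul, Complex.norm_real, Real.norm_eq_abs, abs_of_pos (mul_pos h1 h2), mul_comm]
  exact mul_le_mul_of_nonneg_left h (mul_pos h1 h2).le

/-- the conclusion of `HLOCat` at an instance -/
def EndI (I : Inst) (kap θ ε : ℝ) : Prop :=
  ∃ (e e' : {p // p ∈ Wst I.K0 kap I.P} → ℤ → ℝ) (b b' : {p // p ∈ Wst I.K0 kap I.P} → ℝ)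
    (K : {p // p ∈ Wst I.K0 kap I.P} → ℤ → ℤ → ℝ),
    (∀ i, 0 ≤ b i) ∧ (∀ i, 0 ≤ b' i) ∧
    (∀ i n, e i (n + (i.1 : ℕ)) = e i n) ∧ (∀ i n, e' i (n + (i.1 : ℕ)) = e' i n) ∧
    (∀ i, ∑ x ∈ range i.1, e i (x : ℤ) ^ 2 ≤ (i.1 : ℕ) * b i ^ 2) ∧
    (∀ i, ∑ x ∈ range i.1, e' i (x : ℤ) ^ 2 ≤ (i.1 : ℕ) * b' i ^ 2) ∧
    (∑ i, (b i + b' i) ≤ I.P ^ (1 - kap / 4)) ∧
    (∀ i, ∀ n ∈ I.S1, ∀ m ∈ I.S2,
      1 + K i n m = (1 + e i n) * (1 + kN I.g i.1 (n - m)) * (1 + e' i m)) ∧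
    Real.exp (-(ε * I.P)) * (I.m1 * I.m2) ≤
      ‖∑ B ∈ low {p // p ∈ Wst I.K0 kap I.P} ⌊θ * I.P / Real.log I.P⌋₊,
        ∑ m2 ∈ MM (Tst I.K0) (fun i : {p // p ∈ Wst I.K0 kap I.P} => i.1)
          ⌊Real.exp (θ * I.P)⌋₊,
          FB I.g I.PP I.S1 I.S2 I.G I.G K B m2‖

theorem mass_pos {κ : ℝ} {I : Inst} (h : Ok I κ) : 0 < I.m1 ∧ 0 < I.m2 := by
  have hN0 : 0 < I.N := by
    have h1 := (Real.exp_pos _).trans_le h.base.lo
    exact_mod_cast h1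
  have hh0 : 0 < I.h0 := by
    have := h.hN
    omega
  have hh0' : (0 : ℝ) < I.h0 := by exact_mod_cast hh0
  constructor
  · by_contra hc
    have h3 : (I.q0 : ℝ) * I.m1 ≤ 0 :=
      mul_nonpos_of_nonneg_of_nonpos (Nat.cast_nonneg _) (not_lt.1 hc)
    linarith [h.ma1]
  · by_contra hc
    have h3 : (I.q0 : ℝ) * I.m2 ≤ 0 :=
      mul_nonpos_of_nonneg_of_nonpos (Nat.cast_nonneg _) (not_lt.1 hc)
    linarith [h.ma2]

/-- **`HLOCat` from its instances** -/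
theorem hlocat_of {C1 : ℝ} {k R K0 : ℕ} {kap θ ε P κ : ℝ} {f : PL} {N' : ℕ} {G : ℤ → ℝ}
    (mu : ℕ → ℝ) (hk : 2 ≤ k) (hR : 1 ≤ R) (hRK : R ≤ K0) (hkK : 2 * k ≤ K0)
    (hdeg : f.natDegree = k) (hlead : 0 < f.leadingCoeff)
    (hcont : ∀ g : ℤ, (∀ j : ℕ, 1 ≤ j → g ∣ f.coeff j) → g ∣ (R : ℤ))
    (hB : Base6 f κ P N' G)
    (hG : ∀ n : ℤ, G n = if 1 ≤ n then (N' : ℝ) * mu n.toNat else 0)
    (H : ∀ I : Inst, Ok I κ → I.k = k → I.R = R → I.K0 = K0 → I.C1 = C1 → I.P = P → I.f = f →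
      I.N = N' → I.G = G → I.mu = mu → EndI I kap θ ε) :
    HLOCat C1 k R K0 kap θ ε P f N' G := by
  intro z0 hz0 h0 z1 z2 w hz1 hz1N hz2 hz2N hN hm1 hm2
  obtain ⟨a1, rfl⟩ : ∃ a : ℕ, z1 = a := ⟨z1.toNat, (Int.toNat_of_nonneg hz1).symm⟩
  obtain ⟨a2, rfl⟩ : ∃ a : ℕ, z2 = a := ⟨z2.toNat, (Int.toNat_of_nonneg hz2).symm⟩
  have hOk : Ok ⟨k, R, K0, C1, P, f, N', G, mu, z0, h0, a1, a2, w⟩ κ :=
    { k2 := hk
      R1 := hR
      K0R := hRK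
      K0k := hkK
      deg := hdeg
      lead := hlead
      cont := hcont
      base := hB
      hG := hG
      tiny := hz0
      z1N := by exact_mod_cast hz1N
      z2N := by exact_mod_cast hz2N
      hN := hN
      ma1 := hm1
      ma2 := hm2 }
  have h := H _ hOk rfl rfl rfl rfl rfl rfl rfl rfl rfl
  unfold EndI Inst.S1 Inst.S2 Inst.m1 Inst.m2 Inst.w' Inst.q0 Inst.g Inst.PP Inst.g Inst.q1 at h
  dsimp only at h
  exact h

end Vale.Agent.P042P.H362
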