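import Vale.Agent.P042PQ.H383MxF
import Vale.Agent.P042.H383.AtP

set_option autoImplicit false

/-!
P042, prime arguments: port of `P042.H383.AtP` to the pairs (polynomial, linear form).
-/

namespace Vale.Agent.P042P.H383
open Vale.Agent.P042 hiding AuxData AuxData.lam_le AuxData.lam_pos AuxData.natDegree_H DiffFree
  rMax
open Vale.Agent.P042.H383 hiding Om_le_F QP atoms atoms_F dns_le_one edge edge_transport gain_atom
  gain_of_miss good_prime kN_of_edge kN_of_not_edge lam_one maxI_F mem_missA mem_missB mem_nbA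
  mem_nbB miss missA missA_subset missB missB_subset miss_anti miss_le miss_mul_card miss_nbA
  miss_nbB miss_sdiff miss_transport mixing_card nbA nbA_card nbB nbB_card not_dvd_lam ok_PP_of
  ok_QP om0_F omB_F omF omF_le omF_rs omg omg_anti omg_le_const omg_le_klu omg_le_sdiff
  omg_mono_of omg_nonneg omg_transport omt_F prx_at rows rows_F rows_aux

open Finset Polynomial
open Vale.Agent.P042.H74 hiding GamN GamN_coprime GamN_eq GamN_norm GamN_prime_norm GamN_tiny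
  GamN_zero GamN_zero_one GamW GamW_eq_avC GamW_split GamW_zero_one NS NS_fer Ram Ram_mul Ram_one
  Ram_prime Ram_prod Ram_tiny Ram_tiny_zero Ram_zero Ram_zero_of_Wq Wq Wq_mul Wq_per Wq_zero
  Wq_zero_num Wq_zero_tiny avC_om avC_om_single deriv_fer_eval dns dns_fer dns_ge dns_pos
  dvd_deriv_fer fer fer_coeff fer_const fer_eval fer_natDegree kN kN_form kN_per multFam_GamN
  neg_one_le_kN nonconst_fer om om_ne_zero om_per om_union sum_Ram_tiny sum_Wq
open Vale.Agent.P042P.H74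
open Vale.Agent.P042.SS hiding Gam
open Vale.Agent.P042.H954 hiding GamN_le kN_le kN_op kN_per' sum_kN sum_kN_sub sum_kN_sub'
open Vale.Agent.P042P.H954

open Vale.Agent.P042.H945 (Par Ok Om sp rs Mx Err ms)

open Vale.Agent.P042.H599 (cm Law klu kl0)

/-- **atoms and rows at the maximiser, one prime, explicit numbers** -/
theorem prx_at {ι : Type} {Q : Par ι} {R : ℕ} {g gr gc : ℝ} {h : PL} {r : ℕ → ℤ}
    {Hh : ℕ → PL} {lam : ℕ → ℕ} (hA : AuxData h lam r Hh R) (hk : 1 ≤ h.natDegree)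
    (hom : Q.om = omF (pw' g) (pw' gr) (capP gc) Hh)
    {N d M : ℕ} {A0 : Finset ℤ} {a : ℤ} {x : ℕ → ℝ} {L OB : ℝ} (hm : Mx Q N A0 d a M x L)
    (h2 : 2 * Q.Mm ≤ M) (hD : 4 ≤ Q.D0)
    (hOB : ∑ p ∈ Q.W, (pw' g p + pw' gr p * capP gc p) ≤ OB)
    (hE0 : 0 ≤ Err Q M L OB 2 (1 / M)) {p : ℕ} (hpW : p ∈ Q.W) (hp : p.Prime) (hRp : R < p)
    (hkp : 2 * h.natDegree ≤ p) (hg : 0 < g) (hgr0 : 0 < gr) (hgr1 : gr ≤ 1) {Dp : ℝ}
    (hsup : ∀ b, p * cm x 1 M p b ≤ Dp)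
    (hcap : 32 * (h.natDegree : ℝ) ^ 2 * Dp + 1 ≤ capP gc p) (hat : 8 * Dp ≤ pw' gr p * p)
    (herr : Err Q M L OB 2 (1 / M) / 2 + Real.exp (-(Q.D0 / 4)) ≤ (p : ℝ) ^ (-(1 + g)) / 8) :
    (∀ b < p, cm x 1 M p b ≠ 0 → pw' g p / (3 * p) ≤ cm x 1 M p b) ∧
    ∀ b < p, cm x 1 M p b ≠ 0 →
      pw' gr p / 4 ≤ ∑ c ∈ range p, cm x 1 M p c * (1 + kN (Hh d) p ((b : ℤ) - c)) ∧
      pw' gr p / 4 ≤ ∑ c ∈ range p, cm x 1 M p c * (1 + kN (Hh d) p ((c : ℤ) - b)) := by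
  classical
  have hd : 1 ≤ d := hm.mx.1.hd
  have hlaw := hm.mx.1.law
  have hp1 : (1 : ℝ) ≤ p := by exact_mod_cast hp.one_lt.le
  have hpr : (0 : ℝ) < p := by linarith
  have hp2 : (2 : ℝ) ≤ p := by exact_mod_cast hp.two_le
  have hdegd : (Hh d).natDegree = h.natDegree := hA.natDegree_H hk d hd
  obtain ⟨g1, g2⟩ := good_prime hA hk hp hd hRp hkp
  have hξ : ∀ q ∈ Q.W, 0 ≤ pw' g q := fun q _ => pw'_nonneg g q
  have hrr : ∀ q ∈ Q.W, 0 ≤ pw' gr q := fun q _ => pw'_nonneg gr q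
  have hbad := badm_le hm
  have herr' : Err Q M L OB 2 (1 / M) / 2 + badm x M Q.D0 ≤ (p : ℝ) ^ (-(1 + g)) / 8 := by
    linarith
  have hrr1 : pw' gr p ≤ 1 := Real.rpow_le_one_of_one_le_of_nonpos hp1 (by linarith)
  have hξp : pw' g p / p = (p : ℝ) ^ (-(1 + g)) := by
    unfold pw'
    rw [div_eq_iff hpr.ne']
    nth_rewrite 3 [← Real.rpow_one (p : ℝ)]
    rw [← Real.rpow_add hpr]
    congr 1
    ring
  have hle : (p : ℝ) ^ (-(1 + g)) ≤ pw' gr p :=
    Real.rpow_le_rpow_of_exponent_le hp1 (by linarith)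
  have hpow : 0 < (p : ℝ) ^ (-(1 + g)) := Real.rpow_pos_of_pos hpr _
  -- the missing classes
  have hNS : NS (Hh d) {p} := fun q hq => by
    rw [mem_singleton] at hq
    rw [hq]
    exact ⟨hp, by linarith⟩
  have hρ2 : (4 * (h.natDegree : ℝ) / √(p : ℝ)) ^ 2 * p = 16 * (h.natDegree : ℝ) ^ 2 := by
    rw [div_pow, Real.sq_sqrt hpr.le]
    field_simp
    ring
  have hGN : ∀ b : ℤ, IsCoprime b (p : ℤ) →
      ‖GamN (Hh d) {p} b p‖ ≤ 4 * h.natDegree / √(p : ℝ) := by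
    intro b hb
    have e1 := Gam_weil' hp (by omega : (Hh d).natDegree < p) g1 hb
    have h4 := (GamN_le hNS (mem_singleton_self p) (by omega) (by omega) g1 (a := b) e1).1
    rwa [hdegd] at h4
  have hmiss : (miss (Hh d) p (supp x 1 M p) : ℝ) + 1 ≤ capP gc p := by
    have e1 := miss_le hNS (mem_singleton_self p)
      (by positivity : 0 ≤ 4 * (h.natDegree : ℝ) / √(p : ℝ)) hGN hlaw hsup
    have e2 : 2 * (4 * (h.natDegree : ℝ) / √(p : ℝ)) ^ 2 * p * Dp =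
        32 * (h.natDegree : ℝ) ^ 2 * Dp := by
      rw [mul_assoc 2, hρ2]; ring
    linarith
  have hat' : ∀ b, cm x 1 M p b ≤ pw' gr p / 8 := by
    intro b
    have e1 := hsup b
    rw [le_div_iff₀ (by norm_num)]
    have e3 : (p : ℝ) * (cm x 1 M p b * 8) ≤ p * pw' gr p := by nlinarith
    exact le_of_mul_le_mul_left e3 hpr
  refine ⟨fun b hb hb0 => ?_, fun b hb hb0 => rows_F hom hξ hrr hm h2 hD hOB hpW (by linarith)
    (by linarith) (by linarith) hmiss hat' hb hb0⟩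
  refine atoms_F hom hξ hrr hm h2 hD hOB hpW ?_ ?_ hb hb0
  · rw [hξp]
    have : (p : ℝ) ^ (-(1 + g)) ≤ 1 := hle.trans hrr1
    linarith
  · rw [hξp]
    linarith

end Vale.Agent.P042P.H383
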