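import Vale.Agent.P042PQ.H383AtP
import Vale.Agent.P042.H383.CoX

set_option autoImplicit false

/-!
P042, prime arguments: port of `P042.H383.CoX` to the pairs (polynomial, linear form).
-/

namespace Vale.Agent.P042P.H383
open Vale.Agent.P042 hiding AuxData AuxData.lam_le AuxData.lam_pos AuxData.natDegree_H DiffFree
  rMax
open Vale.Agent.P042.H383 hiding Om_le_F QP atoms atoms_F core_at dns_le_one edge edge_transport
  gain_atom gain_of_miss good_prime kN_of_edge kN_of_not_edge lam_one maxI_F mem_missA mem_missB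
  mem_nbA mem_nbB miss missA missA_subset missB missB_subset miss_anti miss_le miss_mul_card
  miss_nbA miss_nbB miss_sdiff miss_transport mixing_card nbA nbA_card nbB nbB_card not_dvd_lam
  ok_PP_of ok_QP om0_F omB_F omF omF_le omF_rs omg omg_anti omg_le_const omg_le_klu omg_le_sdiff
  omg_mono_of omg_nonneg omg_transport omt_F prx_at rows rows_F rows_aux

open Finset Polynomial
open Vale.Agent.P042.H74 hiding GamN GamN_coprime GamN_eq GamN_norm GamN_prime_norm GamN_tiny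
  GamN_zero GamN_zero_one GamW GamW_eq_avC GamW_split GamW_zero_one NS NS_fer Ram Ram_mul Ram_one
  Ram_prime Ram_prod Ram_tiny Ram_tiny_zero Ram_zero Ram_zero_of_Wq Wq Wq_mul Wq_per Wq_zero
  Wq_zero_num Wq_zero_tiny avC_om avC_om_single deriv_fer_eval dns dns_fer dns_ge dns_pos
  dvd_deriv_fer fer fer_coeff fer_const fer_eval fer_natDegree kN kN_form kN_per multFam_GamN
  neg_one_le_kN nonconst_fer om om_ne_zero om_per om_union sum_Ram_tiny sum_Wq
open Vale.Agent.P042P.H74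
open Vale.Agent.P042.SS hiding Gam
open Vale.Agent.P042.H954 hiding GamN_le kN_le kN_op kN_per' sum_kN sum_kN_sub sum_kN_sub'
open Vale.Agent.P042P.H954

open Vale.Agent.P042.H945 (Par Ok Om sp rs Mx Err ms core law_nonneg)

open Vale.Agent.P042.H599 (cm Law klu kl0)

open Vale.Agent.P042.H362 (be bd be_bound cm_split cm_bd_nonneg sum_bd core_lawF)

section core

variable {ι : Type} {Q : Par ι} {N d M : ℕ} {A0 : Finset ℤ} {a : ℤ} {x : ℕ → ℝ} {L : ℝ}

/-- **the state at one prime for the core**: atoms and one-sided sums -/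
theorem core_at {R : ℕ} {g gr gc : ℝ} {h : PL} {r : ℕ → ℤ} {Hh : ℕ → PL} {lam : ℕ → ℕ}
    (hA : AuxData h lam r Hh R) (hk : 1 ≤ h.natDegree)
    (hom : Q.om = omF (pw' g) (pw' gr) (capP gc) Hh) (hm : Mx Q N A0 d a M x L)
    (h2 : 2 * Q.Mm ≤ M) (hD : 4 ≤ Q.D0) {OB : ℝ}
    (hOB : ∑ p ∈ Q.W, (pw' g p + pw' gr p * capP gc p) ≤ OB)
    (hE0 : 0 ≤ Err Q M L OB 2 (1 / M)) {p : ℕ} (hpW : p ∈ Q.W) (hp : p.Prime) (hRp : R < p)
    (hkp : 2 * h.natDegree ≤ p) (hg : 0 < g) (hg1 : g ≤ 1) (hgr0 : 0 < gr) (hgr1 : gr ≤ 1)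
    {Dp : ℝ}
    (hsup : ∀ b, p * cm x 1 M p b ≤ Dp)
    (hcap : 32 * (h.natDegree : ℝ) ^ 2 * Dp + 1 ≤ capP gc p) (hat : 8 * Dp ≤ pw' gr p * p)
    (herr : Err Q M L OB 2 (1 / M) / 2 + Real.exp (-(Q.D0 / 4)) ≤ (p : ℝ) ^ (-(1 + g)) / 8)
    (herr2 : 40 * h.natDegree * Real.exp (-(Q.D0 / 4)) ≤ (p : ℝ) ^ (-(2 : ℝ))) :
    (∀ b, p * cm (core x M Q.D0) 1 M p b ≤ 2 * Dp) ∧
    (∀ b, cm (core x M Q.D0) 1 M p b = 0 ∨
      pw' g p / (4 * p) ≤ cm (core x M Q.D0) 1 M p b) ∧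
    ∀ b < p, cm (core x M Q.D0) 1 M p b ≠ 0 →
      pw' gr p / 5 ≤
        ∑ c ∈ range p, cm (core x M Q.D0) 1 M p c * (1 + kN (Hh d) p ((b : ℤ) - c)) ∧
      pw' gr p / 5 ≤
        ∑ c ∈ range p, cm (core x M Q.D0) 1 M p c * (1 + kN (Hh d) p ((c : ℤ) - b)) := by
  have hd : 1 ≤ d := hm.mx.1.hd
  have hp1 : (1 : ℝ) ≤ p := by exact_mod_cast hp.one_lt.le
  have hpr : (0 : ℝ) < p := by linarith
  obtain ⟨a1, a2⟩ := prx_at hA hk hom hm h2 hD hOB hE0 hpW hp hRp hkp hg hgr0 hgr1 hsup hcap hat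
    herr
  obtain ⟨g1, g2⟩ := good_prime hA hk hp hd hRp hkp
  have hdegd : (Hh d).natDegree = h.natDegree := hA.natDegree_H hk d hd
  have hkk : (1 : ℝ) ≤ h.natDegree := by exact_mod_cast hk
  have he := Real.exp_pos (-(Q.D0 / 4))
  have hξp : pw' g p / p = (p : ℝ) ^ (-(1 + g)) := by
    unfold pw'
    rw [div_eq_iff hpr.ne']
    nth_rewrite 3 [← Real.rpow_one (p : ℝ)]
    rw [← Real.rpow_add hpr]
    congr 1
    ring
  refine ⟨sup_core hm hsup, ?_, ?_⟩
  · refine atom_core hm hp.pos a1 ?_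
    have e1 : (p : ℝ) ^ (-(2 : ℝ)) ≤ (p : ℝ) ^ (-(1 + g)) :=
      Real.rpow_le_rpow_of_exponent_le hp1 (by linarith)
    have e2 : pw' g p / (12 * p) = (p : ℝ) ^ (-(1 + g)) / 12 := by
      rw [← hξp]
      field_simp
    have e3 : Real.exp (-(Q.D0 / 4)) ≤ h.natDegree * Real.exp (-(Q.D0 / 4)) :=
      le_mul_of_one_le_left he.le hkk
    rw [e2]
    linarith
  · intro b hb hb0
    have hb1 := a2 b hb (cm_core_ne hm hb0)
    have e1 := row_core hm hp.pos (fun c => kN (Hh d) p ((b : ℤ) - c)) (B := 2 * h.natDegree)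
      (fun c => by linarith [neg_one_le_kN (Hh d) p ((b : ℤ) - c)])
      (fun c => by
        have := kN_le hp g1 g2 ((b : ℤ) - c)
        rw [hdegd] at this
        linarith) hb1.1
    have e2 := row_core hm hp.pos (fun c => kN (Hh d) p ((c : ℤ) - b)) (B := 2 * h.natDegree)
      (fun c => by linarith [neg_one_le_kN (Hh d) p ((c : ℤ) - b)])
      (fun c => by
        have := kN_le hp g1 g2 ((c : ℤ) - b)
        rw [hdegd] at this
        linarith) hb1.2
    have e3 : (p : ℝ) ^ (-(2 : ℝ)) ≤ pw' gr p :=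
      Real.rpow_le_rpow_of_exponent_le hp1 (by linarith)
    have e4 : 2 * h.natDegree * Real.exp (-(Q.D0 / 4)) ≤ pw' gr p / 20 := by linarith
    exact ⟨by linarith, by linarith⟩

end core

end Vale.Agent.P042P.H383
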