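import Vale.Agent.P042PQ.H383RewB
import Vale.Agent.P042.H383.RewR

set_option autoImplicit false

/-!
P042, prime arguments: port of `P042.H383.RewR` to the pairs (polynomial, linear form).
-/

namespace Vale.Agent.P042P.H383
open Vale.Agent.P042 hiding AuxData AuxData.lam_le AuxData.lam_pos AuxData.natDegree_H DiffFree
  rMax
open Vale.Agent.P042.H383 hiding atoms dns_le_one edge edge_transport gain_atom gain_of_miss
  kN_of_edge kN_of_not_edge mem_missA mem_missB mem_nbA mem_nbB miss missA missA_subset missB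
  missB_subset miss_anti miss_le miss_mul_card miss_nbA miss_nbB miss_sdiff miss_transport
  mixing_card nbA nbA_card nbB nbB_card not_dvd_lam omg omg_anti omg_le_const omg_le_klu
  omg_le_sdiff omg_mono_of omg_nonneg omg_transport rows rows_aux

open Finset Polynomial
open Vale.Agent.P042.H74 hiding GamN GamN_coprime GamN_eq GamN_norm GamN_prime_norm GamN_tiny
  GamN_zero GamN_zero_one GamW GamW_eq_avC GamW_split GamW_zero_one NS NS_fer Ram Ram_mul Ram_one
  Ram_prime Ram_prod Ram_tiny Ram_tiny_zero Ram_zero Ram_zero_of_Wq Wq Wq_mul Wq_per Wq_zero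
  Wq_zero_num Wq_zero_tiny avC_om avC_om_single deriv_fer_eval dns dns_fer dns_ge dns_pos
  dvd_deriv_fer fer fer_coeff fer_const fer_eval fer_natDegree kN kN_form kN_per multFam_GamN
  neg_one_le_kN nonconst_fer om om_ne_zero om_per om_union sum_Ram_tiny sum_Wq
open Vale.Agent.P042P.H74
open Vale.Agent.P042.SS hiding Gam
open Vale.Agent.P042.H954 hiding GamN_le kN_le kN_op kN_per' sum_kN sum_kN_sub sum_kN_sub'
open Vale.Agent.P042P.H954

open Vale.Agent.P042.H599 (cm Law klu)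

section cut

variable (nu : ℕ → ℝ) (A M : ℕ) (E : ℕ → Prop) [DecidablePred E]

variable {nu A M E}

end cut

section gain

variable {ξ r cap : ℝ} {f : PL} {p : ℕ} {S : Finset ℕ}

theorem gain_atom (hr : 0 ≤ r) (hS : S ⊆ range p) {a : ℕ} (ha : a ∈ S) :
    omg ξ r cap f p S + ξ / p ≤ omg ξ r cap f p (S \ {a}) := by
  have h1 := (miss_anti (f := f) (p := p) (S := S) (S' := S \ {a}) sdiff_subset).1
  have h2 : (((range p) \ (S \ {a})).card : ℝ) = ((range p) \ S).card + 1 := by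
    have e1 : (((range p) \ (S \ {a})).card : ℝ) = p - (S \ {a}).card := by
      rw [cast_card_sdiff (sdiff_subset.trans hS), card_range]
    have e2 : (((range p) \ S).card : ℝ) = p - S.card := by
      rw [cast_card_sdiff hS, card_range]
    have e3 : ((S \ {a}).card : ℝ) = S.card - 1 := by
      rw [cast_card_sdiff (singleton_subset_iff.2 ha), card_singleton]
      simp
    rw [e1, e2, e3]
    ring
  unfold omg
  rw [h2]
  have h3 : (miss f p S : ℝ) ≤ miss f p (S \ {a}) := by exact_mod_cast h1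
  have h4 : r * min (miss f p S : ℝ) cap ≤ r * min (miss f p (S \ {a}) : ℝ) cap :=
    mul_le_mul_of_nonneg_left (min_le_min h3 le_rfl) hr
  have h5 : ξ * ((((range p) \ S).card : ℝ) + 1) / p = ξ * (((range p) \ S).card : ℝ) / p + ξ / p := by
    ring
  rw [h5]
  linarith

theorem gain_of_miss (hξ : 0 ≤ ξ) (hr : 0 ≤ r) {T : Finset ℕ}
    (hcap : (miss f p S : ℝ) + 1 ≤ cap) (hm : miss f p S + 1 ≤ miss f p (S \ T)) :
    omg ξ r cap f p S + r ≤ omg ξ r cap f p (S \ T) := by
  have h2 := (miss_anti (f := f) (p := p) (S := S) (S' := S \ T) sdiff_subset).2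
  have h2' : (((range p) \ S).card : ℝ) ≤ ((range p) \ (S \ T)).card := by exact_mod_cast h2
  have h3 : (miss f p S : ℝ) + 1 ≤ miss f p (S \ T) := by exact_mod_cast hm
  have h4 : ξ * (((range p) \ S).card : ℝ) / p ≤ ξ * (((range p) \ (S \ T)).card : ℝ) / p := by
    gcongr
  have h5 : min (miss f p S : ℝ) cap + 1 ≤ min (miss f p (S \ T) : ℝ) cap := by
    rw [min_eq_left (by linarith)]
    exact le_min h3 hcap
  have h6 := mul_le_mul_of_nonneg_left h5 hr
  unfold omg
  linarith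

theorem mem_nbA {a b : ℕ} : b ∈ nbA f p a ↔ b < p ∧ (b = a ∨ edge f p a b) := by
  classical
  unfold nbA
  rw [mem_filter, mem_range]

theorem mem_nbB {a b : ℕ} : b ∈ nbB f p a ↔ b < p ∧ (b = a ∨ edge f p b a) := by
  classical
  unfold nbB
  rw [mem_filter, mem_range]

theorem miss_nbA (hS : S ⊆ range p) {a : ℕ} (ha : a ∈ S) :
    miss f p S + 1 ≤ miss f p (S \ nbA f p a) := by
  have h1 : insert a (missA f p S) ⊆ missA f p (S \ nbA f p a) := by
    intro b hb
    rw [mem_missA]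
    rcases mem_insert.1 hb with rfl | hb
    · refine ⟨mem_range.1 (hS ha), fun c hc => ?_⟩
      obtain ⟨h2, h3⟩ := mem_sdiff.1 hc
      rw [mem_nbA] at h3
      push Not at h3
      exact h3 (mem_range.1 (hS h2))
    · obtain ⟨h2, h3⟩ := mem_missA.1 hb
      exact ⟨h2, fun c hc => h3 c (mem_sdiff.1 hc).1⟩
  have h2 : a ∉ missA f p S := fun h => ((mem_missA.1 h).2 a ha).1 rfl
  have h3 := card_le_card h1
  rw [card_insert_of_notMem h2] at h3
  have h4 : missB f p S ⊆ missB f p (S \ nbA f p a) := by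
    intro b hb
    rw [mem_missB] at hb ⊢
    exact ⟨hb.1, fun c hc => hb.2 c (mem_sdiff.1 hc).1⟩
  have h5 := card_le_card h4
  unfold miss
  omega

theorem miss_nbB (hS : S ⊆ range p) {a : ℕ} (ha : a ∈ S) :
    miss f p S + 1 ≤ miss f p (S \ nbB f p a) := by
  have h1 : insert a (missB f p S) ⊆ missB f p (S \ nbB f p a) := by
    intro b hb
    rw [mem_missB]
    rcases mem_insert.1 hb with rfl | hb
    · refine ⟨mem_range.1 (hS ha), fun c hc => ?_⟩
      obtain ⟨h2, h3⟩ := mem_sdiff.1 hc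
      rw [mem_nbB] at h3
      push Not at h3
      exact h3 (mem_range.1 (hS h2))
    · obtain ⟨h2, h3⟩ := mem_missB.1 hb
      exact ⟨h2, fun c hc => h3 c (mem_sdiff.1 hc).1⟩
  have h2 : a ∉ missB f p S := fun h => ((mem_missB.1 h).2 a ha).1 rfl
  have h3 := card_le_card h1
  rw [card_insert_of_notMem h2] at h3
  have h4 : missA f p S ⊆ missA f p (S \ nbB f p a) := by
    intro b hb
    rw [mem_missA] at hb ⊢
    exact ⟨hb.1, fun c hc => hb.2 c (mem_sdiff.1 hc).1⟩
  have h5 := card_le_card h4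
  unfold miss
  omega

end gain

section rows

variable {nu : ℕ → ℝ} {A M : ℕ} {G : ℕ → Prop} [DecidablePred G] {K err : ℝ} {W : Finset ℕ}
  {ξ r cap : ℕ → ℝ} {f : PL}

/-- **small atoms do not occur** -/
theorem atoms (h : Law nu A M) (hK : 2 ≤ K) (hξ : ∀ q ∈ W, 0 ≤ ξ q) (hr : ∀ q ∈ W, 0 ≤ r q)
    (hMI : MaxI nu A M G K err W (fun q => omg (ξ q) (r q) (cap q) f q))
    {p : ℕ} (hp : 0 < p) (hpW : p ∈ W) (hξ1 : ξ p / p - err ≤ 1)
    (herr : err / 2 + ∑ i ∈ range M, (if G (A + i) then 0 else nu (A + i)) ≤ ξ p / p / 6)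
    {a : ℕ} (ha : a < p) (h0 : cm nu A M p a ≠ 0) : ξ p / (3 * p) ≤ cm nu A M p a := by
  have haS : a ∈ supp nu A M p := mem_filter.2 ⟨mem_range.2 ha, h0⟩
  have h1 := removal h hK (om := fun q => omg (ξ q) (r q) (cap q) f q)
    (fun q hq S S' hSS => omg_anti (hξ q hq) (hr q hq) hSS) hMI hp hpW {a} (g := ξ p / p)
    (gain_atom (hr p hpW) (supp_subset nu A M p) haS) hξ1
  have h2 : ({a} : Finset ℕ) ∩ range p = {a} :=
    inter_eq_left.2 (singleton_subset_iff.2 (mem_range.2 ha))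
  rw [h2, sum_singleton] at h1
  have h3 : ξ p / (3 * p) = ξ p / p / 3 := by
    rw [mul_comm, ← div_div]
  rw [h3]
  linarith

/-- mass of the forward and backward neighbourhoods -/
theorem rows_aux (h : Law nu A M) (hK : 2 ≤ K) (hξ : ∀ q ∈ W, 0 ≤ ξ q) (hr : ∀ q ∈ W, 0 ≤ r q)
    (hMI : MaxI nu A M G K err W (fun q => omg (ξ q) (r q) (cap q) f q))
    {p : ℕ} (hp : 0 < p) (hpW : p ∈ W) (hr1 : r p - err ≤ 1)
    (herr : err / 2 + ∑ i ∈ range M, (if G (A + i) then 0 else nu (A + i)) ≤ r p / 8)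
    (hcap : (miss f p (supp nu A M p) : ℝ) + 1 ≤ cap p)
    {a : ℕ} (ha : a < p) (h0 : cm nu A M p a ≠ 0) :
    3 * r p / 8 ≤ ∑ b ∈ nbA f p a, cm nu A M p b ∧
      3 * r p / 8 ≤ ∑ b ∈ nbB f p a, cm nu A M p b := by
  have haS : a ∈ supp nu A M p := mem_filter.2 ⟨mem_range.2 ha, h0⟩
  have hS := supp_subset nu A M p
  constructor
  · have h1 := removal h hK (om := fun q => omg (ξ q) (r q) (cap q) f q)
      (fun q hq S S' hSS => omg_anti (hξ q hq) (hr q hq) hSS) hMI hp hpW (nbA f p a) (g := r p)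
      (gain_of_miss (hξ p hpW) (hr p hpW) hcap (miss_nbA hS haS)) hr1
    rw [inter_eq_left.2 fun b hb => mem_range.2 (mem_nbA.1 hb).1] at h1
    linarith
  · have h1 := removal h hK (om := fun q => omg (ξ q) (r q) (cap q) f q)
      (fun q hq S S' hSS => omg_anti (hξ q hq) (hr q hq) hSS) hMI hp hpW (nbB f p a) (g := r p)
      (gain_of_miss (hξ p hpW) (hr p hpW) hcap (miss_nbB hS haS)) hr1
    rw [inter_eq_left.2 fun b hb => mem_range.2 (mem_nbB.1 hb).1] at h1
    linarith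

/-- **row and column sums at the maximiser** -/
theorem rows (h : Law nu A M) (hK : 2 ≤ K) (hξ : ∀ q ∈ W, 0 ≤ ξ q) (hr : ∀ q ∈ W, 0 ≤ r q)
    (hMI : MaxI nu A M G K err W (fun q => omg (ξ q) (r q) (cap q) f q))
    {p : ℕ} (hp : 0 < p) (hpW : p ∈ W) (hd : 0 < dns f p) (hr1 : r p - err ≤ 1)
    (herr : err / 2 + ∑ i ∈ range M, (if G (A + i) then 0 else nu (A + i)) ≤ r p / 8)
    (hcap : (miss f p (supp nu A M p) : ℝ) + 1 ≤ cap p)
    (hat : ∀ a, cm nu A M p a ≤ r p / 8) {a : ℕ} (ha : a < p) (h0 : cm nu A M p a ≠ 0) :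
    r p / 4 ≤ ∑ b ∈ range p, cm nu A M p b * (1 + kN f p ((a : ℤ) - b)) ∧
      r p / 4 ≤ ∑ b ∈ range p, cm nu A M p b * (1 + kN f p ((b : ℤ) - a)) := by
  obtain ⟨h1, h2⟩ := rows_aux h hK hξ hr hMI hp hpW hr1 herr hcap ha h0
  constructor
  · have h3 := row_of_nb h (nbA f p a) (fun b hb => mem_range.2 (mem_nbA.1 hb).1) (a := a)
      (fun b => kN f p ((a : ℤ) - b)) (fun b => neg_one_le_kN f p _)
      (fun b hb hba => kN_of_edge hp hd ((mem_nbA.1 hb).2.resolve_left hba)) h1 (hat a)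
    linarith
  · have h3 := row_of_nb h (nbB f p a) (fun b hb => mem_range.2 (mem_nbB.1 hb).1) (a := a)
      (fun b => kN f p ((b : ℤ) - a)) (fun b => neg_one_le_kN f p _)
      (fun b hb hba => kN_of_edge hp hd ((mem_nbB.1 hb).2.resolve_left hba)) h2 (hat a)
    linarith

end rows

end Vale.Agent.P042P.H383
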