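import Vale.Agent.P042PQ.H383OmP
import Vale.Agent.P042PQ.H383RewR
import Vale.Agent.P042.H383.MxF

set_option autoImplicit false

/-!
P042, prime arguments: port of `P042.H383.MxF` to the pairs (polynomial, linear form).
-/

namespace Vale.Agent.P042P.H383
open Vale.Agent.P042 hiding AuxData AuxData.lam_le AuxData.lam_pos AuxData.natDegree_H DiffFree
  rMax
open Vale.Agent.P042.H383 hiding Om_le_F QP atoms atoms_F dns_le_one edge edge_transport gain_atom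
  gain_of_miss good_prime kN_of_edge kN_of_not_edge lam_one maxI_F mem_missA mem_missB mem_nbA
  mem_nbB miss missA missA_subset missB missB_subset miss_anti miss_le miss_mul_card miss_nbA
  miss_nbB miss_sdiff miss_transport mixing_card nbA nbA_card nbB nbB_card not_dvd_lam ok_PP_of
  ok_QP om0_F omB_F omF omF_le omF_rs omg omg_anti omg_le_const omg_le_klu omg_le_sdiff
  omg_mono_of omg_nonneg omg_transport omt_F rows rows_F rows_aux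

open Finset Polynomial
open Vale.Agent.P042.H74 hiding GamN GamN_coprime GamN_eq GamN_norm GamN_prime_norm GamN_tiny
  GamN_zero GamN_zero_one GamW GamW_eq_avC GamW_split GamW_zero_one NS NS_fer Ram Ram_mul Ram_one
  Ram_prime Ram_prod Ram_tiny Ram_tiny_zero Ram_zero Ram_zero_of_Wq Wq Wq_mul Wq_per Wq_zero
  Wq_zero_num Wq_zero_tiny avC_om avC_om_single deriv_fer_eval dns dns_fer dns_ge dns_pos
  dvd_deriv_fer fer fer_coeff fer_const fer_eval fer_natDegree kN kN_form kN_per multFam_GamN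
  neg_one_le_kN nonconst_fer om om_ne_zero om_per om_union sum_Ram_tiny sum_Wq
open Vale.Agent.P042P.H74
open Vale.Agent.P042.SS hiding Gam
open Vale.Agent.P042.H954 hiding GamN_le kN_le kN_op kN_per' sum_kN sum_kN_sub sum_kN_sub'
open Vale.Agent.P042P.H954

open Vale.Agent.P042.H945 (Par Ok Om sp rs Mx Comp Omc SC KC Err kl2 klc SM AC)

open Vale.Agent.P042.H599 (cm Law klu kl0)

section gen

variable {ι : Type} {Q : Par ι} {ξ rr cap : ℕ → ℝ} {Hh : ℕ → PL}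

theorem Om_le_F (hom : Q.om = omF ξ rr cap Hh) (hξ : ∀ p ∈ Q.W, 0 ≤ ξ p)
    (hrr : ∀ p ∈ Q.W, 0 ≤ rr p) (d : ℕ) (S : Finset ℕ) :
    Om Q d S ≤ ∑ p ∈ Q.W, (ξ p + rr p * cap p) := by
  unfold Om
  rw [hom]
  exact sum_le_sum fun p hp => omg_le_const (hξ p hp) (hrr p hp) _ _ _

/-- the inequality `MaxI` for the functional `omg` -/
theorem maxI_F (hom : Q.om = omF ξ rr cap Hh) (hξ : ∀ p ∈ Q.W, 0 ≤ ξ p)
    (hrr : ∀ p ∈ Q.W, 0 ≤ rr p) {N d M : ℕ} {A0 : Finset ℤ} {a : ℤ} {x : ℕ → ℝ} {L : ℝ}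
    (hm : Mx Q N A0 d a M x L) (h2 : 2 * Q.Mm ≤ M) (hD : 4 ≤ Q.D0) {OB : ℝ}
    (hOB : ∑ p ∈ Q.W, (ξ p + rr p * cap p) ≤ OB) :
    MaxI x 1 M (fun n => M * x n ≤ Real.exp (Q.D0 / 2)) 2 (Err Q M L OB 2 (1 / M)) Q.W
      (fun p => omg (ξ p) (rr p) (cap p) (Hh d) p) := by
  have hK : (2 : ℝ) ≤ Real.exp (Q.D0 / 4) := by
    have h1 := Real.add_one_le_exp (Q.D0 / 4)
    linarith
  have h := maxI_of_master hm h2 (fun S => (Om_le_F hom hξ hrr d S).trans hOB)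
    (by norm_num : (1:ℝ) ≤ 2) hK
  intro y hy hac hG hKx
  have h1 := h y hy hac hG hKx
  have e : ∀ z : ℕ → ℝ, ∑ q ∈ Q.W, Q.om q d (supp z 1 M q)
      = ∑ q ∈ Q.W, omg (ξ q) (rr q) (cap q) (Hh d) q (supp z 1 M q) := by
    intro z
    refine sum_congr rfl fun q _ => ?_
    rw [hom]
    unfold omF
    rw [inter_eq_left.2 (supp_subset z 1 M q)]
  have h3 : ∑ q ∈ Q.W, Q.om q d (supp y 1 M q) ≤
      (∑ i ∈ range M, y (1 + i) * Real.log (y (1 + i) / x (1 + i))) +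
        ∑ q ∈ Q.W, Q.om q d (supp x 1 M q) + _ := h1
  rw [e y, e x] at h3
  exact h3

/-- **atoms at the maximiser** -/
theorem atoms_F (hom : Q.om = omF ξ rr cap Hh) (hξ : ∀ p ∈ Q.W, 0 ≤ ξ p)
    (hrr : ∀ p ∈ Q.W, 0 ≤ rr p) {N d M : ℕ} {A0 : Finset ℤ} {a : ℤ} {x : ℕ → ℝ} {L : ℝ}
    (hm : Mx Q N A0 d a M x L) (h2 : 2 * Q.Mm ≤ M) (hD : 4 ≤ Q.D0) {OB : ℝ}
    (hOB : ∑ p ∈ Q.W, (ξ p + rr p * cap p) ≤ OB) {p : ℕ} (hpW : p ∈ Q.W)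
    (hξ1 : ξ p / p - Err Q M L OB 2 (1 / M) ≤ 1)
    (herr : Err Q M L OB 2 (1 / M) / 2 + badm x M Q.D0 ≤ ξ p / p / 6)
    {b : ℕ} (hb : b < p) (h0 : cm x 1 M p b ≠ 0) : ξ p / (3 * p) ≤ cm x 1 M p b :=
  atoms hm.mx.1.law le_rfl hξ hrr (maxI_F hom hξ hrr hm h2 hD hOB) (hm.ok.hW p hpW) hpW hξ1 herr
    hb h0

/-- **row and column sums at the maximiser** -/
theorem rows_F (hom : Q.om = omF ξ rr cap Hh) (hξ : ∀ p ∈ Q.W, 0 ≤ ξ p)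
    (hrr : ∀ p ∈ Q.W, 0 ≤ rr p) {N d M : ℕ} {A0 : Finset ℤ} {a : ℤ} {x : ℕ → ℝ} {L : ℝ}
    (hm : Mx Q N A0 d a M x L) (h2 : 2 * Q.Mm ≤ M) (hD : 4 ≤ Q.D0) {OB : ℝ}
    (hOB : ∑ p ∈ Q.W, (ξ p + rr p * cap p) ≤ OB) {p : ℕ} (hpW : p ∈ Q.W)
    (hd : 0 < dns (Hh d) p) (hr1 : rr p - Err Q M L OB 2 (1 / M) ≤ 1)
    (herr : Err Q M L OB 2 (1 / M) / 2 + badm x M Q.D0 ≤ rr p / 8)
    (hcap : (miss (Hh d) p (supp x 1 M p) : ℝ) + 1 ≤ cap p)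
    (hat : ∀ b, cm x 1 M p b ≤ rr p / 8) {b : ℕ} (hb : b < p) (h0 : cm x 1 M p b ≠ 0) :
    rr p / 4 ≤ ∑ c ∈ range p, cm x 1 M p c * (1 + kN (Hh d) p ((b : ℤ) - c)) ∧
      rr p / 4 ≤ ∑ c ∈ range p, cm x 1 M p c * (1 + kN (Hh d) p ((c : ℤ) - b)) :=
  rows hm.mx.1.law le_rfl hξ hrr (maxI_F hom hξ hrr hm h2 hD hOB) (hm.ok.hW p hpW) hpW hd hr1
    herr hcap hat hb h0

end gen

end Vale.Agent.P042P.H383
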