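import Vale.Agent.P042PQ.H383CoX
import Vale.Agent.P042PQ.H972PwBase
import Vale.Agent.P042.H383.NumS

set_option autoImplicit false

/-!
P042, prime arguments: port of `P042.H383.NumS` to the pairs (polynomial, linear form).
-/

namespace Vale.Agent.P042P.H383
open Vale.Agent.P042 hiding AuxData AuxData.lam_le AuxData.lam_pos AuxData.natDegree_H DiffFree
  rMax
open Vale.Agent.P042.H383 hiding Om_le_F QP atoms atoms_F core_at dns_le_one edge edge_transport
  fields_core gain_atom gain_of_miss good_prime kN_of_edge kN_of_not_edge lam_one maxI_F mem_missA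
  mem_missB mem_nbA mem_nbB miss missA missA_subset missB missB_subset miss_anti miss_le
  miss_mul_card miss_nbA miss_nbB miss_sdiff miss_transport mixing_card nbA nbA_card nbB nbB_card
  not_dvd_lam ok_PP_of ok_QP om0_F omB_F omF omF_le omF_rs omg omg_anti omg_le_const omg_le_klu
  omg_le_sdiff omg_mono_of omg_nonneg omg_transport omt_F prx_at rows rows_F rows_aux

open Finset Polynomial
open Vale.Agent.P042.H74 hiding GamN GamN_coprime GamN_eq GamN_norm GamN_prime_norm GamN_tiny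
  GamN_zero GamN_zero_one GamW GamW_eq_avC GamW_split GamW_zero_one NS NS_fer Ram Ram_mul Ram_one
  Ram_prime Ram_prod Ram_tiny Ram_tiny_zero Ram_zero Ram_zero_of_Wq Wq Wq_mul Wq_per Wq_zero
  Wq_zero_num Wq_zero_tiny avC_om avC_om_single deriv_fer_eval dns dns_fer dns_ge dns_pos
  dvd_deriv_fer fer fer_coeff fer_const fer_eval fer_natDegree kN kN_form kN_per multFam_GamN
  neg_one_le_kN nonconst_fer om om_ne_zero om_per om_union sum_Ram_tiny sum_Wq
open Vale.Agent.P042P.H74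
open Vale.Agent.P042.SS hiding Gam

open Vale.Agent.P042.H945 (Par Ok Mx Err core)

open Vale.Agent.P042.H599 (cm FamOk)

open Vale.Agent.P042.H972 (MmP)

/-- **the fields `sup`, `atom`, `row` of the state at the core, for the power parameters**, with all
the numbers: `D0 = c1 P`, `Mm = MmP P`, base error `c P`, `(1 - κ) P ≤ log M ≤ P`. Only the three
inequalities on the density bound `Dp` at `p` are left (they hold for `p > K0`). -/
theorem fields_core {C1 g gr gc c1 κ A : ℝ} (hC1 : 1 ≤ C1) (hCA : C1 ≤ A) (hg : 0 < g)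
    (hg1 : g ≤ 1) (hgc : 0 ≤ gc) (hgr : g + gc ≤ gr) (hgr1 : gr ≤ 1) (hc1 : 0 < c1)
    (hc18 : c1 ≤ 1) (hκ : κ ≤ 1 / 8) (k : ℕ) :
    ∃ P0 : ℝ, 1 ≤ P0 ∧ ∀ P : ℝ, P0 ≤ P → ∀ (κ' : Type) (fm : H599.Fam κ'),
      FamOk fm (MmP P) → (∀ i ∈ fm.F, (fm.K i : ℝ) ≤ P ^ A) →
      (∀ i ∈ fm.F, Real.log (fm.B i) ≤ P) →
      ∀ (h : PL) (lam : ℕ → ℕ) (r : ℕ → ℤ) (Hh : ℕ → PL) (R : ℕ), AuxData h lam r Hh R →
      1 ≤ h.natDegree → h.natDegree = k →
      ∀ (W : Finset ℕ), (∀ p ∈ W, p.Prime ∧ R < p ∧ 2 * k ≤ p ∧ (p : ℝ) ≤ P ^ C1) →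
      ∀ (eta E1 c : ℝ), E1 ≤ P → 0 ≤ c → c ≤ 1 →
      ∀ (N : ℕ) (A0 : Finset ℤ) (d : ℕ) (a : ℤ) (M : ℕ) (x : ℕ → ℝ),
      Mx (QP fm W g gr gc Hh lam eta (c1 * P) E1 (MmP P)) N A0 d a M x (c * P) →
      (1 - κ) * P ≤ Real.log M → Real.log M ≤ P →
      ∀ p ∈ W, ∀ Dp : ℝ, (∀ b, p * cm x 1 M p b ≤ Dp) →
      32 * (k : ℝ) ^ 2 * Dp + 1 ≤ (p : ℝ) ^ gc → 8 * Dp ≤ (p : ℝ) ^ (-gr) * p →
      (∀ b, p * cm (core x M (c1 * P)) 1 M p b ≤ 2 * Dp) ∧
      (∀ b, cm (core x M (c1 * P)) 1 M p b = 0 ∨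
        (p : ℝ) ^ (-g) / (4 * p) ≤ cm (core x M (c1 * P)) 1 M p b) ∧
      ∀ b < p, cm (core x M (c1 * P)) 1 M p b ≠ 0 →
        (p : ℝ) ^ (-gr) / 5 ≤
          ∑ c ∈ range p, cm (core x M (c1 * P)) 1 M p c * (1 + kN (Hh d) p ((b : ℤ) - c)) ∧
        (p : ℝ) ^ (-gr) / 5 ≤
          ∑ c ∈ range p, cm (core x M (c1 * P)) 1 M p c * (1 + kN (Hh d) p ((c : ℤ) - b)) := by
  obtain ⟨P1, hP1⟩ := Err_PP hc1 (hC1.trans hCA)
  obtain ⟨P2, hP2⟩ := pow_exp_ev (C1 * (1 + g)) 32 (show (0:ℝ) < c1 / 5 by positivity)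
  obtain ⟨P3, hP3⟩ := pow_exp_ev (2 * C1) (40 * k) (show (0:ℝ) < c1 / 4 by positivity)
  obtain ⟨P4, hP4⟩ := pow_exp_ev (C1 * (1 + g)) 8 (show (0:ℝ) < 7 / 8 by norm_num)
  refine ⟨max (max (max P1 P2) (max P3 P4)) (max (max 16 (4 / c1))
    (4 * C1 ^ 2)),
    (by norm_num : (1:ℝ) ≤ 16).trans ((le_max_left _ _).trans ((le_max_left _ _).trans
      (le_max_right _ _))), ?_⟩
  intro P hP κ' fm hf hK hB h lam r Hh R hA hk hkk W hW eta E1 c hE1 hc0 hc1' N A0 d a M x hm hM1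
    hM2 p hp Dp hsup hK4 hK5
  have l1 : P1 ≤ P := (le_max_left _ _).trans ((le_max_left _ _).trans ((le_max_left _ _).trans hP))
  have l2 : P2 ≤ P := (le_max_right _ _).trans
    ((le_max_left _ _).trans ((le_max_left _ _).trans hP))
  have l3 : P3 ≤ P := (le_max_left _ _).trans
    ((le_max_right _ _).trans ((le_max_left _ _).trans hP))
  have l4 : P4 ≤ P := (le_max_right _ _).trans
    ((le_max_right _ _).trans ((le_max_left _ _).trans hP))
  have l5 : 16 ≤ P := (le_max_left _ _).trans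
    ((le_max_left _ _).trans ((le_max_right _ _).trans hP))
  have l6 : 4 / c1 ≤ P := (le_max_right _ _).trans
    ((le_max_left _ _).trans ((le_max_right _ _).trans hP))
  have l7 : 4 * C1 ^ 2 ≤ P := (le_max_right _ _).trans ((le_max_right _ _).trans hP)
  have hP0 : 0 < P := by linarith
  have hPA : P ≤ P ^ A := by
    calc P = P ^ (1:ℝ) := (Real.rpow_one P).symm
      _ ≤ P ^ A := Real.rpow_le_rpow_of_exponent_le (by linarith) (hC1.trans hCA)
  have hPCA : P ^ C1 ≤ P ^ A := Real.rpow_le_rpow_of_exponent_le (by linarith) hCA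
  have hD4 : 4 ≤ c1 * P := by
    rw [div_le_iff₀ hc1] at l6; linarith
  have hpp := (hW p hp).1
  have hp1 : (1 : ℝ) ≤ p := by exact_mod_cast hpp.one_lt.le
  have hpr : (0 : ℝ) < p := by linarith
  have hpC : (p : ℝ) ≤ P ^ C1 := (hW p hp).2.2.2
  have hcard : (W.card : ℝ) ≤ P ^ C1 :=
    card_W_le hP0.le fun q hq => ⟨(hW q hq).1.one_le, (hW q hq).2.2.2⟩
  -- the length
  have hM78 : 7 / 8 * P ≤ Real.log M :=
    (mul_le_mul_of_nonneg_right (by linarith) hP0.le).trans hM1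
  have hMpos : 0 < M := by
    rcases Nat.eq_zero_or_pos M with h0 | h0
    · rw [h0, Nat.cast_zero, Real.log_zero] at hM78
      linarith
    · exact h0
  have hMr : (0 : ℝ) < M := by exact_mod_cast hMpos
  have hMexp : Real.exp (7 / 8 * P) ≤ M := by
    rw [← Real.le_log_iff_exp_le hMr]
    exact hM78
  have h2Mm : 2 * MmP P ≤ M := by
    have e1 := H972.MmP_le P hP0.le
    have e2 : (4 : ℝ) ≤ Real.exp (5 / 8 * P) := by
      have := Real.add_one_le_exp (5 / 8 * P); linarith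
    have e3 : Real.exp (7 / 8 * P) = Real.exp (5 / 8 * P) * Real.exp (P / 4) := by
      rw [← Real.exp_add]; congr 1; ring
    have e4 : (2 : ℝ) * MmP P ≤ M := by
      have e5 := Real.exp_pos (P / 4)
      have e6 := mul_le_mul_of_nonneg_right e2 e5.le
      linarith
    exact_mod_cast e4
  -- the sum of the rewards
  have hpw : ∀ q ∈ W, pw' g q + pw' gr q * capP gc q ≤ 2 := by
    intro q hq
    have hq1 : (1 : ℝ) ≤ q := by exact_mod_cast (hW q hq).1.one_lt.le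
    have hqr : (0 : ℝ) < q := by linarith
    have e1 : pw' g q ≤ 1 := Real.rpow_le_one_of_one_le_of_nonpos hq1 (by linarith)
    have e2 : pw' gr q * capP gc q ≤ 1 := by
      unfold pw' capP
      rw [← Real.rpow_add hqr]
      exact Real.rpow_le_one_of_one_le_of_nonpos hq1 (by linarith)
    linarith
  have hOB : ∑ q ∈ W, (pw' g q + pw' gr q * capP gc q) ≤ P ^ (2 * A) := by
    calc ∑ q ∈ W, (pw' g q + pw' gr q * capP gc q) ≤ ∑ _q ∈ W, (2 : ℝ) := sum_le_sum hpw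
      _ = W.card * 2 := by simp
      _ ≤ P ^ A * P := mul_le_mul (hcard.trans hPCA) (by linarith) (by norm_num)
          (by linarith)
      _ ≤ P ^ A * P ^ A := mul_le_mul_of_nonneg_left hPA (by linarith)
      _ = P ^ (2 * A) := by rw [← Real.rpow_add hP0]; congr 1; ring
  have hOB0 : 0 ≤ P ^ (2 * A) := Real.rpow_nonneg hP0.le _
  have hE0 : 0 ≤ Err (QP fm W g gr gc Hh lam eta (c1 * P) E1 (MmP P)) M (c * P) (P ^ (2 * A)) 2
      (1 / M) := Err_nn hm.ok (by positivity) hOB0 (by norm_num) (by positivity)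
  have hErr : Err (QP fm W g gr gc Hh lam eta (c1 * P) E1 (MmP P)) M (c * P) (P ^ (2 * A)) 2
      (1 / M) ≤ 1 / M + Real.exp (-(c1 * P / 5)) := by
    refine hP1 P l1 κ' fm (MmP P) hf W (pw' g) (omF (pw' g) (pw' gr) (capP gc) Hh) lam eta
      (c1 * P) E1 (hcard.trans hPCA) ?_ hK ?_ hB le_rfl ?_ hE1 M (c * P) (P ^ (2 * A)) 2 (1 / M)
      hm.ok ?_ hM2 le_rfl ?_
    · intro q hq
      have hq1 : (1 : ℝ) ≤ q := by exact_mod_cast (hW q hq).1.one_lt.le
      exact Real.rpow_le_one_of_one_le_of_nonpos hq1 (by linarith)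
    · intro q hq
      have hq1 : (1 : ℝ) ≤ q := by exact_mod_cast (hW q hq).1.one_lt.le
      have hs0 := Real.sqrt_nonneg P
      have hs1 := Real.sq_sqrt hP0.le
      have hs2 : 2 * C1 ≤ √P := Real.le_sqrt_of_sq_le (by linarith [mul_pow 2 C1 2])
      have e1 : Real.log P ≤ 2 * √P := by
        have h1 : Real.log P = 2 * Real.log √P := by
          rw [Real.log_sqrt hP0.le]; ring
        have h2 := Real.log_le_sub_one_of_pos (Real.sqrt_pos.2 hP0)
        linarith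
      calc Real.log q ≤ Real.log (P ^ C1) := Real.log_le_log (by linarith) (hW q hq).2.2.2
        _ = C1 * Real.log P := Real.log_rpow hP0 _
        _ ≤ C1 * (2 * √P) := mul_le_mul_of_nonneg_left e1 (by linarith)
        _ = (2 * C1) * √P := by ring
        _ ≤ √P * √P := mul_le_mul_of_nonneg_right hs2 hs0
        _ = P := by rw [← sq, hs1]
    · exact mul_le_of_le_one_left hP0.le hc18
    · exact mul_le_of_le_one_left hP0.le hc1'
    · have := Real.log_le_sub_one_of_pos (show (0 : ℝ) < 2 by norm_num); linarith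
  -- the errors against the powers of `p`
  have hPow : ∀ t : ℝ, 0 ≤ t → P ^ (-(C1 * t)) ≤ (p : ℝ) ^ (-t) := by
    intro t ht
    rw [← mul_neg, Real.rpow_mul hP0.le]
    exact Real.rpow_le_rpow_of_nonpos hpr hpC (by linarith)
  have t1 := hP2 P l2
  have t2 := hP4 P l4
  have t3 := hP3 P l3
  have t4 := hPow (1 + g) (by linarith)
  have t5 := hPow 2 (by norm_num)
  have t6 : (1 : ℝ) / M ≤ Real.exp (-(7 / 8 * P)) := by
    rw [one_div, Real.exp_neg]
    exact inv_anti₀ (Real.exp_pos _) hMexp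
  have t7 : Real.exp (-(c1 * P / 5)) = Real.exp (-(c1 / 5 * P)) := by congr 1; ring
  have t8 : Real.exp (-(c1 * P / 4)) = Real.exp (-(c1 / 4 * P)) := by congr 1; ring
  have t9 : Real.exp (-(c1 / 4 * P)) ≤ Real.exp (-(c1 / 5 * P)) :=
    Real.exp_le_exp.2 (by linarith [mul_pos hc1 hP0])
  have hk' : (h.natDegree : ℝ) = k := by exact_mod_cast hkk
  refine core_at (Q := QP fm W g gr gc Hh lam eta (c1 * P) E1 (MmP P)) hA hk rfl hm h2Mm hD4
    hOB hE0 hp hpp (hW p hp).2.1 (by rw [hkk]; exact (hW p hp).2.2.1) hg hg1 (by linarith) hgr1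
    hsup ?_ hK5 ?_ ?_
  · rw [hk']; exact hK4
  · show _ / 2 + Real.exp (-(c1 * P / 4)) ≤ _
    linarith
  · show 40 * _ * Real.exp (-(c1 * P / 4)) ≤ _
    rw [hk', t8]
    rw [mul_comm 2 C1] at t3
    exact t3.trans t5

end Vale.Agent.P042P.H383
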