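import Vale.Agent.P042PQ.H383RewB
import Vale.Agent.P042.H383.OkP

set_option autoImplicit false

/-!
P042, prime arguments: port of `P042.H383.OkP` to the pairs (polynomial, linear form).
-/

namespace Vale.Agent.P042P.H383
open Vale.Agent.P042 hiding AuxData AuxData.lam_le AuxData.lam_pos AuxData.natDegree_H DiffFree
  rMax
open Vale.Agent.P042.H383 hiding dns_le_one edge edge_transport good_prime kN_of_edge
  kN_of_not_edge mem_missA mem_missB miss missA missA_subset missB missB_subset miss_anti miss_le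
  miss_mul_card miss_sdiff miss_transport mixing_card nbA nbA_card nbB nbB_card not_dvd_lam omF
  omF_rs omg omg_anti omg_le_const omg_le_klu omg_le_sdiff omg_mono_of omg_nonneg omg_transport

open Finset Polynomial
open Vale.Agent.P042.H74 hiding GamN GamN_coprime GamN_eq GamN_norm GamN_prime_norm GamN_tiny
  GamN_zero GamN_zero_one GamW GamW_eq_avC GamW_split GamW_zero_one NS NS_fer Ram Ram_mul Ram_one
  Ram_prime Ram_prod Ram_tiny Ram_tiny_zero Ram_zero Ram_zero_of_Wq Wq Wq_mul Wq_per Wq_zero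
  Wq_zero_num Wq_zero_tiny avC_om avC_om_single deriv_fer_eval dns dns_fer dns_ge dns_pos
  dvd_deriv_fer fer fer_coeff fer_const fer_eval fer_natDegree kN kN_form kN_per multFam_GamN
  neg_one_le_kN nonconst_fer om om_ne_zero om_per om_union sum_Ram_tiny sum_Wq
open Vale.Agent.P042P.H74
open Vale.Agent.P042.SS hiding Gam
open Vale.Agent.P042.H954 hiding GamN_le kN_le kN_op kN_per' sum_kN sum_kN_sub sum_kN_sub'
open Vale.Agent.P042P.H954

open Vale.Agent.P042.H945 (Par Ok Om sp rs)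

open Vale.Agent.P042.H599 (cm Law klu kl0 bwt binf)

theorem good_prime {h : PL} {lam : ℕ → ℕ} {r : ℕ → ℤ} {Hh : ℕ → PL} {R : ℕ}
    (hA : AuxData h lam r Hh R) (hk : 1 ≤ h.natDegree) {p d : ℕ} (hp : p.Prime) (hd : 1 ≤ d)
    (hpR : R < p) (hpk : 2 * h.natDegree ≤ p) :
    (∃ j : ℕ, 1 ≤ j ∧ ¬ (p : ℤ) ∣ (Hh d).coeff j) ∧ 1 / 2 ≤ dns (Hh d) p := by
  have h1 : ∃ j : ℕ, 1 ≤ j ∧ ¬ (p : ℤ) ∣ (Hh d).coeff j := by
    by_contra hcon
    push Not at hcon
    have h2 := hA.hgcd d hd p hcon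
    have h3 : p ∣ R := by exact_mod_cast h2
    have h4 := Nat.le_of_dvd hA.hR h3
    omega
  refine ⟨h1, ?_⟩
  have hdeg := hA.natDegree_H hk d hd
  have h2 := dns_ge (Hh d) p hp (by omega) (by omega) h1
  rw [hdeg] at h2
  have hp0 : (0 : ℝ) < p := by exact_mod_cast hp.pos
  have h3 : (h.natDegree : ℝ) / p ≤ 1 / 2 := by
    rw [div_le_iff₀ hp0]
    have : (2 : ℝ) * h.natDegree ≤ p := by exact_mod_cast hpk
    linarith
  linarith

/-- the support term of the power regime -/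
noncomputable def omF (ξ rr cap : ℕ → ℝ) (Hh : ℕ → PL) (p d : ℕ) (S : Finset ℕ) : ℝ :=
  omg (ξ p) (rr p) (cap p) (Hh d) p (S ∩ range p)

theorem omF_rs {ξ rr cap : ℕ → ℝ} {Hh : ℕ → PL} {p d : ℕ} (hp : 0 < p) (S : Finset ℕ) :
    omF ξ rr cap Hh p d (rs S p) = omg (ξ p) (rr p) (cap p) (Hh d) p (rs S p) := by
  unfold omF
  rw [inter_eq_left.2 (rs_subset hp)]

end Vale.Agent.P042P.H383
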