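import Vale.Agent.P042PQ.H383OkP
import Vale.Agent.P042.H383.OmP

set_option autoImplicit false

/-!
P042, prime arguments: port of `P042.H383.OmP` to the pairs (polynomial, linear form).
-/

namespace Vale.Agent.P042P.H383
open Vale.Agent.P042 hiding AuxData AuxData.lam_le AuxData.lam_pos AuxData.natDegree_H DiffFree
  rMax
open Vale.Agent.P042.H383 hiding QP dns_le_one edge edge_transport good_prime kN_of_edge
  kN_of_not_edge lam_one mem_missA mem_missB miss missA missA_subset missB missB_subset miss_anti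
  miss_le miss_mul_card miss_sdiff miss_transport mixing_card nbA nbA_card nbB nbB_card
  not_dvd_lam ok_PP_of ok_QP om0_F omB_F omF omF_le omF_rs omg omg_anti omg_le_const omg_le_klu
  omg_le_sdiff omg_mono_of omg_nonneg omg_transport omt_F

open Finset Polynomial
open Vale.Agent.P042.H74 hiding GamN GamN_coprime GamN_eq GamN_norm GamN_prime_norm GamN_tiny
  GamN_zero GamN_zero_one GamW GamW_eq_avC GamW_split GamW_zero_one NS NS_fer Ram Ram_mul Ram_one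
  Ram_prime Ram_prod Ram_tiny Ram_tiny_zero Ram_zero Ram_zero_of_Wq Wq Wq_mul Wq_per Wq_zero
  Wq_zero_num Wq_zero_tiny avC_om avC_om_single deriv_fer_eval dns dns_fer dns_ge dns_pos
  dvd_deriv_fer fer fer_coeff fer_const fer_eval fer_natDegree kN kN_form kN_per multFam_GamN
  neg_one_le_kN nonconst_fer om om_ne_zero om_per om_union sum_Ram_tiny sum_Wq
open Vale.Agent.P042P.H74
open Vale.Agent.P042.SS hiding Gam
open Vale.Agent.P042.H954 hiding GamN_le kN_le kN_op kN_per' sum_kN sum_kN_sub sum_kN_sub'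
open Vale.Agent.P042P.H954

open Vale.Agent.P042.H945 (Par Ok Om sp rs)

open Vale.Agent.P042.H599 (cm Law klu kl0 bwt FamOk PP)

section inputs

variable {h : PL} {lam : ℕ → ℕ} {r : ℕ → ℤ} {Hh : ℕ → PL} {R : ℕ} {ξ rr cap : ℕ → ℝ}

/-- TRANSPORT -/
theorem omt_F (hA : AuxData h lam r Hh R) {p : ℕ} (hp : p.Prime) (hξ : 0 ≤ ξ p) (hrr : 0 ≤ rr p)
    (d D b : ℕ) (S S' : Finset ℕ) (hd : 1 ≤ d) (hD : 1 ≤ D) (hpD : Nat.Coprime p D)
    (hS : ∀ y ∈ S', (b + lam D * y) % p ∈ S) :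
    omF ξ rr cap Hh p d S ≤ omF ξ rr cap Hh p (d * D) S' := by
  refine omg_transport hA hξ hrr hp hd hD ((Nat.Prime.coprime_iff_not_dvd hp).1 hpD)
    (c := (b : ℤ)) inter_subset_right ?_
  intro z hz
  refine ⟨(b + lam D * z) % p, ?_, ?_⟩
  · rw [mem_inter]
    exact ⟨hS z (mem_inter.1 hz).1, mem_range.2 (Nat.mod_lt _ hp.pos)⟩
  · have : ((b : ℤ) + lam D * z) = (((b + lam D * z : ℕ)) : ℤ) := by push_cast; ring
    rw [this]
    push_cast
    exact Int.dvd_self_sub_emod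

theorem om0_F {p : ℕ} (hξ : 0 ≤ ξ p) (hrr : 0 ≤ rr p) (hcap : 0 ≤ cap p) (d : ℕ)
    (S : Finset ℕ) : 0 ≤ omF ξ rr cap Hh p d S := omg_nonneg hξ hrr hcap _ _ _

/-- (R): the rewards are dominated by the entropy -/
theorem omB_F (hA : AuxData h lam r Hh R) (hk : 1 ≤ h.natDegree) {p : ℕ}
    (hp : p.Prime ∧ R < p ∧ 2 * h.natDegree ≤ p) (hξ : 0 ≤ ξ p) (hrr : 0 ≤ rr p)
    (hcap : 0 ≤ cap p) (d M : ℕ) (x : ℕ → ℝ) (hd : 1 ≤ d) (hx : Law x 1 M) :
    omF ξ rr cap Hh p d (rs (sp x M) p) ≤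
      (ξ p + 2 * h.natDegree * (rr p * cap p)) * klu x 1 M p := by
  obtain ⟨g1, g2⟩ := good_prime hA hk hp.1 hd hp.2.1 hp.2.2
  have h1 := omg_le_klu hp.1 g1 g2 hξ hrr hcap hx
  rw [hA.natDegree_H hk d hd] at h1
  rw [omF_rs hp.1.pos, rs_sp hx hp.1.pos]
  exact h1

/-- the largest value -/
theorem omF_le (hξ : ∀ p, 0 ≤ ξ p) (hrr : ∀ p, 0 ≤ rr p) (p d : ℕ) (S : Finset ℕ) :
    omF ξ rr cap Hh p d S ≤ ξ p + rr p * cap p := omg_le_const (hξ p) (hrr p) _ _ _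

end inputs

/-- **`Ok` for 599's `PP` with the rewards `omF`**, general weights -/
theorem ok_PP_of {κ : Type} {h : PL} {lam : ℕ → ℕ} {r : ℕ → ℤ} {Hh : ℕ → PL} {R : ℕ}
    (hA : AuxData h lam r Hh R) (hk : 1 ≤ h.natDegree) {f : H599.Fam κ} {Mm : ℕ} (hf : FamOk f Mm)
    {W : Finset ℕ} (hW : ∀ p ∈ W, p.Prime ∧ R < p ∧ 2 * h.natDegree ≤ p) {c ξ rr cap : ℕ → ℝ}
    (hc : ∀ p ∈ W, 0 ≤ c p) (hξ : ∀ p ∈ W, 0 ≤ ξ p) (hrr : ∀ p ∈ W, 0 ≤ rr p)
    (hcap : ∀ p ∈ W, 0 ≤ cap p) {eta D0 E E1 : ℝ} (he0 : 0 < eta) (he1 : eta ≤ 1)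
    (hMm : 2 ≤ Mm) (hD0 : 0 < D0) (hE0 : 0 ≤ E)
    (hEI : H599.HBd (fun nu A M => ∑ p ∈ W,
      (c p + (ξ p + 2 * h.natDegree * (rr p * cap p))) * klu nu A M p) (2 * D0) Mm 0 E)
    (hE1 : E + 1 / 4 ≤ E1) :
    Ok (PP f W c (omF ξ rr cap Hh) lam eta D0 E1 Mm) :=
  H599.ok_P hf (fun p hp => (hW p hp).1.pos) hc
    (fun p hp d S => om0_F (hξ p hp) (hrr p hp) (hcap p hp) d S)
    (fun p hp d D b S S' hd hD hpD hS =>
      omt_F hA (hW p hp).1 (hξ p hp) (hrr p hp) d D b S S' hd hD hpD hS)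
    (fun p hp d M x hd hx => omB_F hA hk (hW p hp) (hξ p hp) (hrr p hp) (hcap p hp) d M x hd hx)
    (lam_one hA) hA.hmul (fun d hd => (hA.hdvd d hd).1)
    (fun d p hd hpd => Nat.Coprime.coprime_dvd_right (hA.hdvd d hd).2
      (Nat.Coprime.pow_right _ hpd))
    (fun d hd => hA.lam_pos d hd) he0 he1 hMm hD0 hE0 hEI hE1

/-- the power parameters -/
noncomputable def QP {κ : Type} (f : H599.Fam κ) (W : Finset ℕ) (g gr gc : ℝ) (Hh : ℕ → PL)
    (lam : ℕ → ℕ) (eta D0 E1 : ℝ) (Mm : ℕ) : Par (ℕ ⊕ (Σ _ : κ, Finset ℕ)) :=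
  PP f W (pw' g) (omF (pw' g) (pw' gr) (capP gc) Hh) lam eta D0 E1 Mm

/-- **`Ok` for the power parameters**: weights `p^{-g}` (EI and atoms), rewards `p^{-gr}` with cap
`p^{gc}`, `D0 ≤ g/(2560 C1) P`, error `E1 = 2 P^{1 - g/5}` -/
theorem ok_QP {C1 : ℝ} (hC1 : 1 ≤ C1) (k : ℕ) {g gr gc : ℝ} (hg : 0 < g) (hg1 : g ≤ 1)
    (hgr : g + gc ≤ gr) :
    ∃ P0 : ℝ, ∀ P : ℝ, P0 ≤ P → ∀ (κ : Type) (f : H599.Fam κ)
      (h : PL) (lam : ℕ → ℕ) (r : ℕ → ℤ) (Hh : ℕ → PL) (R : ℕ), AuxData h lam r Hh R →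
      1 ≤ h.natDegree → h.natDegree = k →
      ∀ (W : Finset ℕ), (∀ p ∈ W, p.Prime ∧ R < p ∧ 2 * k ≤ p ∧ (p : ℝ) ≤ P ^ C1) →
      ∀ (Mm : ℕ), FamOk f Mm → Real.exp (P / 4) ≤ Mm →
      ∀ (eta D0 : ℝ), 0 < eta → eta ≤ 1 → 0 < D0 → D0 ≤ g / (2560 * C1) * P →
      Ok (QP f W g gr gc Hh lam eta D0 (2 * P ^ (1 - g / 5)) Mm) := by
  obtain ⟨l0, hl0⟩ := H599.HBd_ei_power hg hg1 hC1 (show (0:ℝ) ≤ 2 + 2 * k by positivity)
  refine ⟨max (Real.exp l0) 4, ?_⟩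
  intro P hP κ f h lam r Hh R hA hk hkk W hW Mm hf hMm eta D0 he0 he1 hD hD'
  have hP4 : 4 ≤ P := (le_max_right _ _).trans hP
  have hP0 : 0 < P := by linarith
  have hlog : Real.exp (Real.log P) = P := Real.exp_log hP0
  have hl : l0 ≤ Real.log P := by
    rw [Real.le_log_iff_exp_le hP0]
    exact (le_max_left _ _).trans hP
  have hMm2 : 2 ≤ Mm := by
    have h2 := Real.add_one_le_exp (P / 4)
    have h3 : (2 : ℝ) ≤ Mm := by linarith
    exact_mod_cast h3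
  have hexp : Real.exp ((1 - g / 5) * Real.log P) = P ^ (1 - g / 5) := by
    rw [Real.rpow_def_of_pos hP0, mul_comm]
  have hE1 : 1 ≤ P ^ (1 - g / 5) := Real.one_le_rpow (by linarith) (by linarith)
  subst hkk
  have hEI := hl0 (Real.log P) hl W
    (fun p => pw' g p + (pw' g p + 2 * h.natDegree * (pw' gr p * capP gc p))) Mm
    (fun p hp => (hW p hp).1.pos)
    (fun p hp q hq hpq => (Nat.coprime_primes (hW p hp).1 (hW q hq).1).2 hpq)
    (fun p hp => by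
      have h1 := (hW p hp).2.2.2
      rwa [Real.rpow_def_of_pos hP0, mul_comm] at h1)
    (fun p hp => by
      have h1 := pw'_nonneg g p
      have h2 := pw'_nonneg gr p
      have h3 := capP_nonneg gc p
      positivity)
    (fun p hp => by
      have h1 := qw_le hgr h.natDegree (hW p hp).1.one_le
      unfold qw at h1
      refine h1.trans (le_of_eq ?_)
      have hp0 : (0:ℝ) < p := by exact_mod_cast (hW p hp).1.pos
      rw [Real.rpow_def_of_pos hp0]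
      congr 2
      ring)
    (by rw [hlog]; exact hMm) D0 hD.le (by rw [hlog]; exact hD')
  rw [hexp] at hEI
  exact ok_PP_of hA hk hf (fun p hp => ⟨(hW p hp).1, (hW p hp).2.1, (hW p hp).2.2.1⟩)
    (fun p _ => pw'_nonneg g p) (fun p _ => pw'_nonneg g p) (fun p _ => pw'_nonneg gr p)
    (fun p _ => capP_nonneg gc p) he0 he1 hMm2 hD (by linarith) hEI (by linarith)

end Vale.Agent.P042P.H383
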