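import Vale.Agent.P042PQ.H383Reward
import Vale.Agent.P042.H383.RewB

set_option autoImplicit false

/-!
P042, prime arguments: port of `P042.H383.RewB` to the pairs (polynomial, linear form).
-/

namespace Vale.Agent.P042P.H383
open Vale.Agent.P042 hiding AuxData AuxData.lam_le AuxData.lam_pos AuxData.natDegree_H DiffFree
  rMax
open Vale.Agent.P042.H383 hiding dns_le_one edge edge_transport kN_of_edge kN_of_not_edge
  mem_missA mem_missB miss missA missA_subset missB missB_subset miss_anti miss_le miss_mul_card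
  miss_sdiff miss_transport mixing_card nbA nbA_card nbB nbB_card not_dvd_lam omg omg_anti
  omg_le_const omg_le_klu omg_le_sdiff omg_mono_of omg_nonneg omg_transport

open Finset Polynomial
open Vale.Agent.P042.H74 hiding GamN GamN_coprime GamN_eq GamN_norm GamN_prime_norm GamN_tiny
  GamN_zero GamN_zero_one GamW GamW_eq_avC GamW_split GamW_zero_one NS NS_fer Ram Ram_mul Ram_one
  Ram_prime Ram_prod Ram_tiny Ram_tiny_zero Ram_zero Ram_zero_of_Wq Wq Wq_mul Wq_per Wq_zero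
  Wq_zero_num Wq_zero_tiny avC_om avC_om_single deriv_fer_eval dns dns_fer dns_ge dns_pos
  dvd_deriv_fer fer fer_coeff fer_const fer_eval fer_natDegree kN kN_form kN_per multFam_GamN
  neg_one_le_kN nonconst_fer om om_ne_zero om_per om_union sum_Ram_tiny sum_Wq
open Vale.Agent.P042P.H74
open Vale.Agent.P042.SS hiding Gam
open Vale.Agent.P042.H954 hiding GamN_le kN_le kN_op kN_per' sum_kN sum_kN_sub sum_kN_sub'
open Vale.Agent.P042P.H954

open Vale.Agent.P042.H599 (cm Law klu)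

section kernel

variable {f : PL} {p : ℕ}

theorem dns_le_one (f : PL) (p : ℕ) : dns f p ≤ 1 := by
  unfold dns
  apply div_le_one_of_le₀ _ (Nat.cast_nonneg _)
  have := card_le_card (filter_subset (fun z : ℕ => ¬ (p : ℤ) ∣ (Dp f p).eval (z : ℤ)) (range p))
  rw [card_range] at this
  exact_mod_cast this

theorem kN_of_not_edge {a b : ℕ} (h : ¬ edge f p a b) : kN f p ((a : ℤ) - b) = -1 := by
  unfold kN
  rw [filter_false_of_mem]
  · simp
  · intro z _ h1
    exact h ⟨z, h1.1, h1.2⟩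

theorem kN_of_edge (hp : 0 < p) (hd : 0 < dns f p) {a b : ℕ} (h : edge f p a b) :
    0 ≤ kN f p ((a : ℤ) - b) := by
  obtain ⟨z, h1, h2⟩ := h
  have hpz : (0 : ℤ) < p := by exact_mod_cast hp
  set w : ℕ := (z % p).toNat with hw
  have w0 : ((w : ℕ) : ℤ) = z % p := Int.toNat_of_nonneg (Int.emod_nonneg _ hpz.ne')
  have w1 : w < p := by
    have := Int.emod_lt_of_pos z hpz
    rw [← w0] at this
    exact_mod_cast this
  have w2 : (p : ℤ) ∣ z - w := by rw [w0]; exact Int.dvd_self_sub_emod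
  have e1 : (p : ℤ) ∣ f.eval z - f.eval (w : ℤ) := w2.trans (sub_dvd_eval_sub _ _ f.toPolynomial)
  have e2 : (p : ℤ) ∣ (Dp f p).eval z - (Dp f p).eval (w : ℤ) :=
    w2.trans (sub_dvd_eval_sub _ _ _)
  unfold kN
  have h3 : 1 ≤ (((range p).filter (fun z : ℕ => ¬ (p : ℤ) ∣ (Dp f p).eval (z : ℤ) ∧
      (p : ℤ) ∣ f.eval (z : ℤ) - ((a : ℤ) - b))).card : ℝ) := by
    have : 1 ≤ ((range p).filter (fun z : ℕ => ¬ (p : ℤ) ∣ (Dp f p).eval (z : ℤ) ∧
      (p : ℤ) ∣ f.eval (z : ℤ) - ((a : ℤ) - b))).card := by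
      rw [Nat.succ_le_iff, card_pos]
      refine ⟨w, mem_filter.2 ⟨mem_range.2 w1, ?_, ?_⟩⟩
      · intro h4
        apply h1
        have := dvd_add e2 h4
        simpa using this
      · have := dvd_sub h2 e1
        have h5 : f.eval z - ((a : ℤ) - b) - (f.eval z - f.eval (w : ℤ))
          = f.eval (w : ℤ) - ((a : ℤ) - b) := by ring
        rwa [h5] at this
    exact_mod_cast this
  have h4 : 1 ≤ (((range p).filter (fun z : ℕ => ¬ (p : ℤ) ∣ (Dp f p).eval (z : ℤ) ∧
      (p : ℤ) ∣ f.eval (z : ℤ) - ((a : ℤ) - b))).card : ℝ) / dns f p := by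
    rw [le_div_iff₀ hd]
    linarith [dns_le_one f p]
  linarith

open Classical in
/-- forward neighbourhood, with `a` itself -/
noncomputable def nbA (f : PL) (p a : ℕ) : Finset ℕ :=
  (range p).filter fun b => b = a ∨ edge f p a b

open Classical in
/-- backward neighbourhood, with `a` itself -/
noncomputable def nbB (f : PL) (p a : ℕ) : Finset ℕ :=
  (range p).filter fun b => b = a ∨ edge f p b a

variable (hp : p.Prime) (hnc : ∃ j : ℕ, 1 ≤ j ∧ ¬ (p : ℤ) ∣ f.coeff j) (hd : 1 / 2 ≤ dns f p)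

include hp hnc hd

theorem nbA_card (a : ℕ) : (p : ℝ) ≤ 2 * f.natDegree * (nbA f p a).card := by
  classical
  unfold nbA
  refine nb_card_aux (fun j => kN f p ((a : ℤ) - j)) _
    (sum_kN_sub hp (by linarith) a) (fun j hj => ?_) (fun j => kN_le hp hnc hd _)
  exact kN_of_not_edge fun h => hj (Or.inr h)

theorem nbB_card (a : ℕ) : (p : ℝ) ≤ 2 * f.natDegree * (nbB f p a).card := by
  classical
  unfold nbB
  refine nb_card_aux (fun j => kN f p ((j : ℤ) - a)) _
    (sum_kN_sub' hp (by linarith) a) (fun j hj => ?_) (fun j => kN_le hp hnc hd _)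
  exact kN_of_not_edge fun h => hj (Or.inr h)

/-- a blocked pair forces many missing classes -/
theorem miss_sdiff {S : Finset ℕ} (h : miss f p S ≠ 0) :
    (p : ℝ) ≤ 2 * f.natDegree * ((range p) \ S).card := by
  classical
  have h1 : (missA f p S).card ≠ 0 ∨ (missB f p S).card ≠ 0 := by
    by_contra h2
    push Not at h2
    exact h (by unfold miss; omega)
  have h0 : (0 : ℝ) ≤ 2 * f.natDegree := by positivity
  rcases h1 with h1 | h1
  · obtain ⟨a, ha⟩ := card_ne_zero.1 h1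
    refine (nbA_card hp hnc hd a).trans (mul_le_mul_of_nonneg_left ?_ h0)
    have h2 : nbA f p a ⊆ (range p) \ S := by
      intro b hb
      obtain ⟨hb1, hb2⟩ := mem_filter.1 hb
      refine mem_sdiff.2 ⟨hb1, fun hbS => ?_⟩
      have h3 := (mem_missA.1 ha).2 b hbS
      rcases hb2 with h4 | h4
      · exact h3.1 h4
      · exact h3.2 h4
    exact_mod_cast card_le_card h2
  · obtain ⟨a, ha⟩ := card_ne_zero.1 h1
    refine (nbB_card hp hnc hd a).trans (mul_le_mul_of_nonneg_left ?_ h0)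
    have h2 : nbB f p a ⊆ (range p) \ S := by
      intro b hb
      obtain ⟨hb1, hb2⟩ := mem_filter.1 hb
      refine mem_sdiff.2 ⟨hb1, fun hbS => ?_⟩
      have h3 := (mem_missB.1 ha).2 b hbS
      rcases hb2 with h4 | h4
      · exact h3.1 h4
      · exact h3.2 h4
    exact_mod_cast card_le_card h2

/-- the functional is at most a multiple of the proportion of missing classes -/
theorem omg_le_sdiff {ξ r cap : ℝ} (hr : 0 ≤ r) (hcap : 0 ≤ cap) (S : Finset ℕ) :
    omg ξ r cap f p S ≤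
      (ξ + 2 * f.natDegree * (r * cap)) * ((((range p) \ S).card : ℝ) / p) := by
  have hp0 : (0:ℝ) < p := by exact_mod_cast hp.pos
  have h0 : 0 ≤ (((range p) \ S).card : ℝ) / p := by positivity
  unfold omg
  rw [add_mul, mul_div_assoc]
  have hk : (0 : ℝ) ≤ f.natDegree := Nat.cast_nonneg _
  refine add_le_add le_rfl ?_
  by_cases h : miss f p S = 0
  · rw [h]
    simp only [Nat.cast_zero]
    rw [min_eq_left hcap, mul_zero]
    positivity
  · have h1 := miss_sdiff hp hnc hd h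
    have h2 : 1 ≤ 2 * f.natDegree * ((((range p) \ S).card : ℝ) / p) := by
      rw [← mul_div_assoc, le_div_iff₀ hp0]
      linarith
    have h3 : r * min (miss f p S : ℝ) cap ≤ r * cap :=
      mul_le_mul_of_nonneg_left (min_le_right _ _) hr
    have h4 : 0 ≤ r * cap := mul_nonneg hr hcap
    calc r * min (miss f p S : ℝ) cap ≤ r * cap * 1 := by linarith
      _ ≤ r * cap * (2 * f.natDegree * ((((range p) \ S).card : ℝ) / p)) :=
          mul_le_mul_of_nonneg_left h2 h4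
      _ = _ := by ring

end kernel

/-- **the reward functional is bounded by the relative entropy** -/
theorem omg_le_klu {f : PL} {p : ℕ} (hp : p.Prime)
    (hnc : ∃ j : ℕ, 1 ≤ j ∧ ¬ (p : ℤ) ∣ f.coeff j) (hd : 1 / 2 ≤ dns f p)
    {ξ r cap : ℝ} (hξ : 0 ≤ ξ) (hr : 0 ≤ r) (hcap : 0 ≤ cap) {nu : ℕ → ℝ} {A M : ℕ}
    (h : Law nu A M) :
    omg ξ r cap f p (supp nu A M p) ≤ (ξ + 2 * f.natDegree * (r * cap)) * klu nu A M p :=
  (omg_le_sdiff hp hnc hd hr hcap _).trans
    (mul_le_mul_of_nonneg_left (klu_ge h hp.pos) (by positivity))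

theorem mixing_card {f : PL} {PP : Finset ℕ} (hPP : NS f PP) {p : ℕ} (hpP : p ∈ PP) {ρ : ℝ}
    (hρ : 0 ≤ ρ) (hG : ∀ a : ℤ, IsCoprime a (p : ℤ) → ‖GamN f PP a p‖ ≤ ρ)
    {L S : Finset ℕ} (hL : L ⊆ range p) (hS : S ⊆ range p)
    (h : ∀ x ∈ L, ∀ y ∈ S, kN f p ((x : ℤ) - y) = -1) :
    (L.card : ℝ) * S.card ≤ ρ ^ 2 * p ^ 2 := by
  classical
  obtain ⟨φ, hφ⟩ : ∃ φ : ℤ → ℝ, φ = fun x => if x.toNat ∈ L then (1:ℝ) else 0 := ⟨_, rfl⟩
  obtain ⟨ψ, hψ⟩ : ∃ ψ : ℤ → ℝ, ψ = fun x => if x.toNat ∈ S then (1:ℝ) else 0 := ⟨_, rfl⟩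
  have h1 := kN_form f PP hPP p hpP ρ hρ hG φ ψ
  have e1 : ∑ x ∈ range p, ∑ y ∈ range p, φ x * ψ y * kN f p ((x : ℤ) - y)
      = -((L.card : ℝ) * S.card) := by
    have h2 : ∀ x : ℕ, ∑ y ∈ range p, φ x * ψ y * kN f p ((x : ℤ) - y)
        = (if x ∈ L then (1:ℝ) else 0) * ∑ y ∈ S, kN f p ((x : ℤ) - y) := by
      intro x
      rw [← sum_ind S p hS, mul_sum]
      refine sum_congr rfl fun y _ => ?_
      rw [hφ, hψ]
      simp only [Int.toNat_natCast]
      ring
    simp only [h2]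
    rw [sum_ind L p hL]
    have h3 : ∀ x ∈ L, ∑ y ∈ S, kN f p ((x : ℤ) - y) = -(S.card : ℝ) := by
      intro x hx
      rw [sum_congr rfl fun y hy => h x hx y hy]
      simp
    rw [sum_congr rfl h3]
    simp
  have e2 : ∑ x ∈ range p, φ x ^ 2 = L.card := by
    have : ∀ x : ℕ, φ x ^ 2 = (if x ∈ L then (1:ℝ) else 0) * 1 := by
      intro x
      rw [hφ]
      simp only [Int.toNat_natCast]
      split_ifs <;> simp
    simp only [this]
    rw [sum_ind L p hL]
    simp
  have e3 : ∑ x ∈ range p, ψ x ^ 2 = S.card := by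
    have : ∀ x : ℕ, ψ x ^ 2 = (if x ∈ S then (1:ℝ) else 0) * 1 := by
      intro x
      rw [hψ]
      simp only [Int.toNat_natCast]
      split_ifs <;> simp
    simp only [this]
    rw [sum_ind S p hS]
    simp
  rw [e1, e2, e3, abs_neg, abs_of_nonneg (by positivity)] at h1
  have hx : 0 ≤ (L.card : ℝ) := Nat.cast_nonneg _
  have hy : 0 ≤ (S.card : ℝ) := Nat.cast_nonneg _
  rw [← Real.sqrt_mul hx] at h1
  set T := (L.card : ℝ) * S.card with hT
  have hT0 : 0 ≤ T := mul_nonneg hx hy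
  have hs : √T * √T = T := Real.mul_self_sqrt hT0
  rcases hT0.eq_or_lt with h0 | h0
  · rw [← h0]; positivity
  · have hsp : 0 < √T := Real.sqrt_pos.2 h0
    have h5 : √T ≤ ρ * p := by
      by_contra h6
      push Not at h6
      have := mul_lt_mul_of_pos_right h6 hsp
      linarith
    calc T = √T * √T := hs.symm
      _ ≤ (ρ * p) * (ρ * p) := mul_le_mul h5 h5 hsp.le (by positivity)
      _ = ρ ^ 2 * p ^ 2 := by ring

/-- few blocked pairs -/
theorem miss_mul_card {f : PL} {PP : Finset ℕ} (hPP : NS f PP) {p : ℕ} (hpP : p ∈ PP) {ρ : ℝ}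
    (hρ : 0 ≤ ρ) (hG : ∀ a : ℤ, IsCoprime a (p : ℤ) → ‖GamN f PP a p‖ ≤ ρ)
    {S : Finset ℕ} (hS : S ⊆ range p) :
    (miss f p S : ℝ) * S.card ≤ 2 * (ρ ^ 2 * p ^ 2) := by
  have h1 := mixing_card hPP hpP hρ hG (L := missA f p S) (missA_subset f p S) hS
    (fun x hx y hy => kN_of_not_edge ((mem_missA.1 hx).2 y hy).2)
  have h2 := mixing_card hPP hpP hρ hG (L := S) (S := missB f p S) hS (missB_subset f p S)
    (fun x hx y hy => kN_of_not_edge ((mem_missB.1 hy).2 x hx).2)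
  unfold miss
  push_cast
  nlinarith

/-- **the cap is not reached** -/
theorem miss_le {f : PL} {PP : Finset ℕ} (hPP : NS f PP) {p : ℕ} (hpP : p ∈ PP) {ρ : ℝ}
    (hρ : 0 ≤ ρ) (hG : ∀ a : ℤ, IsCoprime a (p : ℤ) → ‖GamN f PP a p‖ ≤ ρ)
    {nu : ℕ → ℝ} {A M : ℕ} (h : Law nu A M) {K : ℝ} (hK : ∀ a, p * cm nu A M p a ≤ K) :
    (miss f p (supp nu A M p) : ℝ) ≤ 2 * ρ ^ 2 * p * K := by
  have hp := (hPP p hpP).1
  have hp0 : (0:ℝ) < p := by exact_mod_cast hp.pos
  have h1 := miss_mul_card hPP hpP hρ hG (supp_subset nu A M p)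
  have h2 := card_supp_ge h hp.pos hK
  have hK0 : 0 < K := by
    by_contra hK0
    push Not at hK0
    have : K * (supp nu A M p).card ≤ 0 := mul_nonpos_of_nonpos_of_nonneg hK0 (Nat.cast_nonneg _)
    linarith
  have h3 : (miss f p (supp nu A M p) : ℝ) * p ≤ K * (2 * (ρ ^ 2 * p ^ 2)) := by
    calc (miss f p (supp nu A M p) : ℝ) * p
        ≤ miss f p (supp nu A M p) * (K * (supp nu A M p).card) :=
          mul_le_mul_of_nonneg_left h2 (Nat.cast_nonneg _)
      _ = K * (miss f p (supp nu A M p) * (supp nu A M p).card) := by ring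
      _ ≤ _ := mul_le_mul_of_nonneg_left h1 hK0.le
  have h4 : (miss f p (supp nu A M p) : ℝ) * p ≤ (2 * ρ ^ 2 * p * K) * p := by
    calc _ ≤ _ := h3
      _ = _ := by ring
  exact le_of_mul_le_mul_right h4 hp0

end Vale.Agent.P042P.H383
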