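import Vale.Agent.P042PQ.H954PrimeK
import Vale.Agent.P042.H383.Reward

set_option autoImplicit false

/-!
P042, prime arguments: port of `P042.H383.Reward` to the pairs (polynomial, linear form).
-/

namespace Vale.Agent.P042P.H383
open Vale.Agent.P042 hiding AuxData AuxData.lam_le AuxData.lam_pos AuxData.natDegree_H DiffFree
  rMax
open Vale.Agent.P042.H383 hiding edge edge_transport mem_missA mem_missB miss missA missA_subset
  missB missB_subset miss_anti miss_transport not_dvd_lam omg omg_anti omg_le_const omg_mono_of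
  omg_nonneg omg_transport

open Finset Polynomial
open Vale.Agent.P042.H74 hiding GamN GamN_coprime GamN_eq GamN_norm GamN_prime_norm GamN_tiny
  GamN_zero GamN_zero_one GamW GamW_eq_avC GamW_split GamW_zero_one NS NS_fer Ram Ram_mul Ram_one
  Ram_prime Ram_prod Ram_tiny Ram_tiny_zero Ram_zero Ram_zero_of_Wq Wq Wq_mul Wq_per Wq_zero
  Wq_zero_num Wq_zero_tiny avC_om avC_om_single deriv_fer_eval dns dns_fer dns_ge dns_pos
  dvd_deriv_fer fer fer_coeff fer_const fer_eval fer_natDegree kN kN_form kN_per multFam_GamN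
  neg_one_le_kN nonconst_fer om om_ne_zero om_per om_union sum_Ram_tiny sum_Wq
open Vale.Agent.P042P.H74
open Vale.Agent.P042.SS hiding Gam

/-- `a - b` is a nonsingular value of `f` mod `p` -/
def edge (f : PL) (p a b : ℕ) : Prop :=
  ∃ z : ℤ, ¬ (p : ℤ) ∣ (Dp f p).eval z ∧ (p : ℤ) ∣ f.eval z - ((a : ℤ) - b)

open Classical in
/-- classes `a` with no forward edge into `S` -/
noncomputable def missA (f : PL) (p : ℕ) (S : Finset ℕ) : Finset ℕ :=
  (range p).filter fun a => ∀ b ∈ S, b ≠ a ∧ ¬ edge f p a b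

open Classical in
/-- classes `a` with no backward edge into `S` -/
noncomputable def missB (f : PL) (p : ℕ) (S : Finset ℕ) : Finset ℕ :=
  (range p).filter fun a => ∀ b ∈ S, b ≠ a ∧ ¬ edge f p b a

theorem mem_missA {f : PL} {p : ℕ} {S : Finset ℕ} {a : ℕ} :
    a ∈ missA f p S ↔ a < p ∧ ∀ b ∈ S, b ≠ a ∧ ¬ edge f p a b := by
  classical
  unfold missA
  rw [mem_filter, mem_range]

theorem mem_missB {f : PL} {p : ℕ} {S : Finset ℕ} {a : ℕ} :
    a ∈ missB f p S ↔ a < p ∧ ∀ b ∈ S, b ≠ a ∧ ¬ edge f p b a := by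
  classical
  unfold missB
  rw [mem_filter, mem_range]

theorem missA_subset (f : PL) (p : ℕ) (S : Finset ℕ) : missA f p S ⊆ range p := fun _ h =>
  mem_range.2 (mem_missA.1 h).1

theorem missB_subset (f : PL) (p : ℕ) (S : Finset ℕ) : missB f p S ⊆ range p := fun _ h =>
  mem_range.2 (mem_missB.1 h).1

/-- number of blocked pairs `(a, ±)` -/
noncomputable def miss (f : PL) (p : ℕ) (S : Finset ℕ) : ℕ :=
  (missA f p S).card + (missB f p S).card

/-- the local support functional -/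
noncomputable def omg (ξ r cap : ℝ) (f : PL) (p : ℕ) (S : Finset ℕ) : ℝ :=
  ξ * (((range p) \ S).card : ℝ) / p + r * min (miss f p S : ℝ) cap

theorem omg_nonneg {ξ r cap : ℝ} (hξ : 0 ≤ ξ) (hr : 0 ≤ r) (hcap : 0 ≤ cap) (f : PL) (p : ℕ)
    (S : Finset ℕ) : 0 ≤ omg ξ r cap f p S := by
  unfold omg
  have h1 : 0 ≤ min (miss f p S : ℝ) cap := le_min (Nat.cast_nonneg _) hcap
  positivity

theorem omg_le_const {ξ r cap : ℝ} (hξ : 0 ≤ ξ) (hr : 0 ≤ r) (f : PL) (p : ℕ)
    (S : Finset ℕ) : omg ξ r cap f p S ≤ ξ + r * cap := by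
  unfold omg
  have h1 : (((range p) \ S).card : ℝ) ≤ p := by
    have := card_le_card (sdiff_subset (s := range p) (t := S))
    rw [card_range] at this
    exact_mod_cast this
  have h2 : ξ * (((range p) \ S).card : ℝ) / p ≤ ξ := by
    rcases Nat.eq_zero_or_pos p with h | h
    · subst h; simpa using hξ
    · rw [div_le_iff₀ (by exact_mod_cast h)]
      exact mul_le_mul_of_nonneg_left h1 hξ
  have h3 := mul_le_mul_of_nonneg_left (min_le_right (miss f p S : ℝ) cap) hr
  linarith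

/-- abstract affine map mod `p`: `τ` sends the classes missed by `S` to classes missed by `S'` -/
theorem miss_transport {f g : PL} {p : ℕ} {S S' : Finset ℕ} (τ : ℕ → ℕ)
    (hτ : ∀ a < p, τ a < p) (hinj : ∀ a < p, ∀ b < p, τ a = τ b → a = b)
    (h : ∀ a < p, ∀ y ∈ S', ∃ s ∈ S, (y = τ a → s = a) ∧ (edge g p (τ a) y → edge f p a s) ∧
      (edge g p y (τ a) → edge f p s a)) :
    miss f p S ≤ miss g p S' ∧ ((range p) \ S).card ≤ ((range p) \ S').card := by
  have hi : ∀ U : Finset ℕ, U ⊆ range p → Set.InjOn τ U := by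
    intro U hU a ha b hb hab
    exact hinj a (mem_range.1 (hU ha)) b (mem_range.1 (hU hb)) hab
  constructor
  · unfold miss
    apply Nat.add_le_add
    · refine card_le_card_of_injOn τ ?_ (hi _ (missA_subset f p S))
      intro a ha
      obtain ⟨h1, h2⟩ := mem_missA.1 (mem_coe.1 ha)
      refine mem_coe.2 (mem_missA.2 ⟨hτ a h1, fun y hy => ?_⟩)
      obtain ⟨s, hs, e1, e2, -⟩ := h a h1 y hy
      exact ⟨fun e => (h2 s hs).1 (e1 e), fun e => (h2 s hs).2 (e2 e)⟩
    · refine card_le_card_of_injOn τ ?_ (hi _ (missB_subset f p S))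
      intro a ha
      obtain ⟨h1, h2⟩ := mem_missB.1 (mem_coe.1 ha)
      refine mem_coe.2 (mem_missB.2 ⟨hτ a h1, fun y hy => ?_⟩)
      obtain ⟨s, hs, e1, -, e2⟩ := h a h1 y hy
      exact ⟨fun e => (h2 s hs).1 (e1 e), fun e => (h2 s hs).2 (e2 e)⟩
  · refine card_le_card_of_injOn τ ?_ (hi _ sdiff_subset)
    intro a ha
    obtain ⟨h1, h2⟩ := mem_sdiff.1 (mem_coe.1 ha)
    rw [mem_range] at h1
    refine mem_coe.2 (mem_sdiff.2 ⟨mem_range.2 (hτ a h1), fun hy => ?_⟩)
    obtain ⟨s, hs, e1, -, -⟩ := h a h1 _ hy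
    exact h2 (e1 rfl ▸ hs)

theorem omg_mono_of {ξ r cap : ℝ} (hξ : 0 ≤ ξ) (hr : 0 ≤ r) {f g : PL} {p : ℕ}
    {S S' : Finset ℕ} (h1 : miss f p S ≤ miss g p S')
    (h2 : ((range p) \ S).card ≤ ((range p) \ S').card) :
    omg ξ r cap f p S ≤ omg ξ r cap g p S' := by
  unfold omg
  have h1' : (miss f p S : ℝ) ≤ miss g p S' := by exact_mod_cast h1
  have h2' : (((range p) \ S).card : ℝ) ≤ ((range p) \ S').card := by exact_mod_cast h2
  gcongr

/-- antitone in the support -/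
theorem miss_anti {f : PL} {p : ℕ} {S S' : Finset ℕ} (h : S' ⊆ S) :
    miss f p S ≤ miss f p S' ∧ ((range p) \ S).card ≤ ((range p) \ S').card :=
  miss_transport (fun a => a) (fun _ h => h) (fun _ _ _ _ h => h) fun _ _ y hy =>
    ⟨y, h hy, fun e => e, fun e => e, fun e => e⟩

theorem omg_anti {ξ r cap : ℝ} (hξ : 0 ≤ ξ) (hr : 0 ≤ r) {f : PL} {p : ℕ}
    {S S' : Finset ℕ} (h : S' ⊆ S) : omg ξ r cap f p S ≤ omg ξ r cap f p S' :=
  omg_mono_of hξ hr (miss_anti (f := f) (p := p) h).1 (miss_anti (f := f) (p := p) h).2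

section aux

variable {h : PL} {lam : ℕ → ℕ} {r : ℕ → ℤ} {Hh : ℕ → PL} {R : ℕ}

/-- an edge of the sub-progression comes from an edge -/
theorem edge_transport (hA : AuxData h lam r Hh R) {p d D : ℕ} (hp : p.Prime) (hd : 1 ≤ d)
    (hD : 1 ≤ D) (hpD : ¬ p ∣ D) {a b x y : ℕ} {c : ℤ}
    (ha : (p : ℤ) ∣ c + lam D * x - a) (hb : (p : ℤ) ∣ c + lam D * y - b)
    (he : edge (Hh (d * D)) p x y) : edge (Hh d) p a b := by
  obtain ⟨s, hs, hu, hv⟩ := aux_comp2 hA hd hD
  obtain ⟨z, hz1, hz2⟩ := he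
  have hpp : Prime (p : ℤ) := Nat.prime_iff_prime_int.1 hp
  have e1 : (Hh d).eval (s + D * z) = lam D * (Hh (d * D)).eval z := by
    have := congrArg (fun q : ℤ[X] => q.eval z) hs
    simpa [eval_comp] using this
  have e2 : (D : ℤ) * (derivative (Hh d).toPolynomial).eval (s + D * z)
      = lam D * (derivative (Hh (d * D)).toPolynomial).eval z := by
    have := congrArg (fun q : ℤ[X] => (derivative q).eval z) hs
    simpa [derivative_comp, eval_comp] using this
  refine ⟨s + D * z, ?_, ?_⟩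
  · intro h0
    rcases (dvd_Dp _ hp _).1 h0 with h1 | h1
    · have h2 : (p : ℤ) ∣ lam D * (derivative (Hh (d * D)).toPolynomial).eval z := by
        rw [← e2]; exact Dvd.dvd.mul_left h1 _
      rcases hpp.dvd_or_dvd h2 with h3 | h3
      · exact not_dvd_lam hA hp hD hpD (by exact_mod_cast h3)
      · exact hz1 (dvd_Dp_of_deriv _ p h3)
    · refine hz1 ((dvd_Dp _ hp _).2 (Or.inr ?_))
      rw [dvd_Lp _ hp] at h1 ⊢
      rw [hu, hv]
      refine ⟨?_, fun h2 => (hpp.dvd_or_dvd h2).elim h1.2 fun h3 => hpD (by exact_mod_cast h3)⟩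
      have h2 : (Hh d).u + (Hh d).v * s + (Hh d).v * D * z = (Hh d).u + (Hh d).v * (s + D * z) := by
        ring
      rw [h2]
      exact h1.1
  · rw [e1]
    have h3 : (lam D : ℤ) * (Hh (d * D)).eval z - ((a : ℤ) - b)
        = lam D * ((Hh (d * D)).eval z - ((x : ℤ) - y)) + (c + lam D * x - a)
          - (c + lam D * y - b) := by ring
    rw [h3]
    exact dvd_sub (dvd_add (Dvd.dvd.mul_left hz2 _) ha) hb

/-- **TRANSPORT** for the reward functional -/
theorem omg_transport (hA : AuxData h lam r Hh R) {ξ w cap : ℝ} (hξ : 0 ≤ ξ) (hw : 0 ≤ w)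
    {p d D : ℕ} (hp : p.Prime) (hd : 1 ≤ d) (hD : 1 ≤ D) (hpD : ¬ p ∣ D) {c : ℤ}
    {S S' : Finset ℕ} (hS : S ⊆ range p)
    (h1 : ∀ y ∈ S', ∃ s ∈ S, (p : ℤ) ∣ c + lam D * y - s) :
    omg ξ w cap (Hh d) p S ≤ omg ξ w cap (Hh (d * D)) p S' := by
  have hpp : Prime (p : ℤ) := Nat.prime_iff_prime_int.1 hp
  have hpz : (0 : ℤ) < p := by exact_mod_cast hp.pos
  have hl := not_dvd_lam hA hp hD hpD
  obtain ⟨u, v, huv⟩ : IsCoprime (lam D : ℤ) (p : ℤ) :=
    (Nat.isCoprime_iff_coprime.2 ((Nat.Prime.coprime_iff_not_dvd hp).2 hl)).symm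
  -- `u * lam D ≡ 1`
  set τ : ℕ → ℕ := fun a => ((u * ((a : ℤ) - c)) % p).toNat with hτ
  have t0 : ∀ a, ((τ a : ℕ) : ℤ) = (u * ((a : ℤ) - c)) % p := fun a =>
    Int.toNat_of_nonneg (Int.emod_nonneg _ hpz.ne')
  have t1 : ∀ a, (p : ℤ) ∣ c + lam D * (τ a : ℕ) - a := by
    intro a
    have h2 : (p : ℤ) ∣ u * ((a : ℤ) - c) - (τ a : ℕ) := by
      rw [t0]; exact Int.dvd_self_sub_emod
    have h3 : c + (lam D : ℤ) * (τ a : ℕ) - a
        = -(lam D * (u * ((a : ℤ) - c) - (τ a : ℕ))) - p * (v * ((a : ℤ) - c)) := by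
      have h4 : u * (lam D : ℤ) = 1 - v * p := by linarith
      have h5 : (lam D : ℤ) * (u * ((a : ℤ) - c)) = (1 - v * p) * ((a : ℤ) - c) := by
        rw [← h4]; ring
      linear_combination h5
    rw [h3]
    exact dvd_sub (dvd_neg.2 (Dvd.dvd.mul_left h2 _)) (dvd_mul_right _ _)
  have t2 : ∀ a, τ a < p := by
    intro a
    have := Int.emod_lt_of_pos (u * ((a : ℤ) - c)) hpz
    rw [← t0] at this
    exact_mod_cast this
  have eqm : ∀ a < p, ∀ b < p, (p : ℤ) ∣ (a : ℤ) - b → a = b := by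
    intro a ha b hb hab
    have h3 : (b : ℤ) % p = (a : ℤ) % p := Int.modEq_iff_dvd.mpr hab
    rw [Int.emod_eq_of_lt (a := (a : ℤ)) (by omega) (by exact_mod_cast ha),
      Int.emod_eq_of_lt (a := (b : ℤ)) (by omega) (by exact_mod_cast hb)] at h3
    exact_mod_cast h3.symm
  have key := miss_transport (f := Hh d) (g := Hh (d * D)) (p := p) (S := S) (S' := S') τ
    (fun a _ => t2 a)
    (by
      intro a ha b hb hab
      apply eqm a ha b hb
      have h2 := dvd_sub (t1 b) (t1 a)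
      rw [hab] at h2
      have h3 : c + (lam D : ℤ) * (τ b : ℕ) - b - (c + lam D * (τ b : ℕ) - a) = a - b := by ring
      rwa [h3] at h2)
    (by
      intro a ha y hy
      obtain ⟨s, hs, hsy⟩ := h1 y hy
      refine ⟨s, hs, ?_, ?_, ?_⟩
      · intro e
        apply eqm s (mem_range.1 (hS hs)) a ha
        have h2 := dvd_sub (t1 a) hsy
        rw [e] at h2
        have h3 : c + (lam D : ℤ) * (τ a : ℕ) - a - (c + lam D * (τ a : ℕ) - s) = s - a := by ring
        rwa [h3] at h2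
      · intro e
        exact edge_transport hA hp hd hD hpD (t1 a) hsy e
      · intro e
        exact edge_transport hA hp hd hD hpD hsy (t1 a) e)
  exact omg_mono_of hξ hw key.1 key.2

end aux

end Vale.Agent.P042P.H383
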