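import Vale.Agent.P042PQ.H383RewR
import Vale.Agent.P042.H386.K1

set_option autoImplicit false

/-!
P042, prime arguments: port of `P042.H386.K1` to the pairs (polynomial, linear form).
-/

namespace Vale.Agent.P042P.H386
open Vale.Agent.P042 hiding AuxData AuxData.lam_le AuxData.lam_pos AuxData.natDegree_H DiffFree
  rMax
open Vale.Agent.P042.H386 hiding kN_fer

open Finset Polynomial
open Vale.Agent.P042.H74 hiding GamN GamN_coprime GamN_eq GamN_norm GamN_prime_norm GamN_tiny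
  GamN_zero GamN_zero_one GamW GamW_eq_avC GamW_split GamW_zero_one NS NS_fer Ram Ram_mul Ram_one
  Ram_prime Ram_prod Ram_tiny Ram_tiny_zero Ram_zero Ram_zero_of_Wq Wq Wq_mul Wq_per Wq_zero
  Wq_zero_num Wq_zero_tiny avC_om avC_om_single deriv_fer_eval dns dns_fer dns_ge dns_pos
  dvd_deriv_fer fer fer_coeff fer_const fer_eval fer_natDegree kN kN_form kN_per multFam_GamN
  neg_one_le_kN nonconst_fer om om_ne_zero om_per om_union sum_Ram_tiny sum_Wq
open Vale.Agent.P042P.H74
open Vale.Agent.P042.SS hiding Gam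
open Vale.Agent.P042.H954 hiding GamN_le kN_le kN_op kN_per' sum_kN sum_kN_sub sum_kN_sub'
open Vale.Agent.P042P.H954

open Vale.Agent.P042.H599 (cm Law klu)

open Vale.Agent.P042.H383 (supp MaxI)
open Vale.Agent.P042P.H383 (omg miss)

set_option linter.unusedSectionVars false

theorem kN_fer {f : PL} {p q1 : ℕ} {z0 : ℤ} (hp : p.Prime) (hq : ¬ p ∣ q1) (t : ℤ) :
    kN (fer f q1 z0) p t = kN f p t ∧ dns (fer f q1 z0) p = dns f p := by
  have hder : ∀ z : ℤ, ((p : ℤ) ∣ (Dp (fer f q1 z0) p).eval z ↔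
      (p : ℤ) ∣ (Dp f p).eval ((q1 : ℤ) * z + z0)) := by
    intro z
    exact dvd_Dp_fer f hp hq z0 z
  have hper : ∀ g : ℤ[X], ∀ s t : ℤ, (p : ℤ) ∣ t - s → ((p : ℤ) ∣ g.eval t ↔ (p : ℤ) ∣ g.eval s) := by
    intro g s t h
    have h1 : (p : ℤ) ∣ g.eval t - g.eval s := h.trans (sub_dvd_eval_sub _ _ g)
    exact (Int.dvd_iff_dvd_of_dvd_sub h1)
  have hd : dns (fer f q1 z0) p = dns f p := by
    unfold dns
    have h1 := perm_card (z0 := z0) hp hq (fun s => ¬ (p : ℤ) ∣ (Dp f p).eval s)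
      (fun s t h => not_congr (hper _ s t h))
    rw [← h1]
    simp only [hder]
  refine ⟨?_, hd⟩
  unfold kN
  rw [hd]
  have h1 := perm_card (z0 := z0) hp hq (fun s => ¬ (p : ℤ) ∣ (Dp f p).eval s ∧
      (p : ℤ) ∣ f.eval s - t) (fun s s' h => by
        have e1 : ∀ x : ℤ, f.eval x - t = (f.toPolynomial - C t).eval x := fun x => by simp
        rw [e1, e1]
        exact and_congr (not_congr (hper _ s s' h)) (hper _ s s' h))
  rw [← h1]
  simp only [hder, fer_eval]

end Vale.Agent.P042P.H386
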