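import Vale.Agent.P042PQ.H386K1
import Vale.Agent.P042.H386.K4

set_option autoImplicit false

/-!
P042, prime arguments: port of `P042.H386.K4` to the pairs (polynomial, linear form).
-/

namespace Vale.Agent.P042P.H386
open Vale.Agent.P042 hiding AuxData AuxData.lam_le AuxData.lam_pos AuxData.natDegree_H DiffFree
  rMax
open Vale.Agent.P042.H386 hiding GP.dns PrSt kN_fer vp_kN wp_kN

open Finset Polynomial
open Vale.Agent.P042.H74 hiding GamN GamN_coprime GamN_eq GamN_norm GamN_prime_norm GamN_tiny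
  GamN_zero GamN_zero_one GamW GamW_eq_avC GamW_split GamW_zero_one NS NS_fer Ram Ram_mul Ram_one
  Ram_prime Ram_prod Ram_tiny Ram_tiny_zero Ram_zero Ram_zero_of_Wq Wq Wq_mul Wq_per Wq_zero
  Wq_zero_num Wq_zero_tiny avC_om avC_om_single deriv_fer_eval dns dns_fer dns_ge dns_pos
  dvd_deriv_fer fer fer_coeff fer_const fer_eval fer_natDegree kN kN_form kN_per multFam_GamN
  neg_one_le_kN nonconst_fer om om_ne_zero om_per om_union sum_Ram_tiny sum_Wq
open Vale.Agent.P042P.H74
open Vale.Agent.P042.SS hiding Gam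
open Vale.Agent.P042.H954 hiding GamN_le kN_le kN_op kN_per' sum_kN sum_kN_sub sum_kN_sub'
open Vale.Agent.P042P.H954

open Vale.Agent.P042.H599 (cm Law klu)

set_option linter.unusedSectionVars false

theorem GP_dns {f : PL} {p : ℕ} (h : GP f p) : 1 / 2 ≤ dns f p := by
  have h1 := dns_ge f p h.pr h.k1 (by have := h.big; have := h.k1; omega) h.nc
  have hp0 : (0 : ℝ) < p := by exact_mod_cast h.pr.pos
  have h2 : (f.natDegree : ℝ) / p ≤ 1 / 2 := by
    rw [div_le_iff₀ hp0]
    have : (2 : ℝ) * f.natDegree ≤ p := by exact_mod_cast h.big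
    linarith
  linarith

/-- **the kernel `kN f p` at a good prime, uniform reference** -/
theorem vp_kN {f : PL} {p : ℕ} (h : GP f p) {X : Type} [Fintype X] {v : X → ℕ}
    (hX : Rs X p v) :
    VP (fun x y => kN f p ((v x : ℤ) - v y)) (4 * f.natDegree / √(p : ℝ)) (2 * f.natDegree) := by
  have hNS : NS f {p} := by
    intro q hq
    rw [mem_singleton] at hq
    subst hq
    exact ⟨h.pr, by linarith [(GP_dns h)]⟩
  have hp : p ∈ ({p} : Finset ℕ) := mem_singleton_self p
  have hkp : f.natDegree < p := by have := h.big; have := h.k1; omega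
  refine
    { ck := fun x => ?_
      ck' := fun y => ?_
      op := kN_op hNS hp (by positivity) (fun a ha =>
        (GamN_le hNS hp h.k1 h.big h.nc (Gam_weil h.pr hkp h.nc ha)).1) hX hX
      lo := fun x y => neg_one_le_kN f p _
      up := fun x y => by linarith [kN_le h.pr h.nc (GP_dns h) ((v x : ℤ) - v y)] }
  · rw [hX.sum fun j => kN f p ((v x : ℤ) - j)]
    exact sum_kN_sub h.pr (by linarith [(GP_dns h)]) _
  · rw [hX.sum fun j => kN f p ((j : ℤ) - v y)]
    exact sum_kN_sub' h.pr (by linarith [(GP_dns h)]) _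

/-- one prime of the state: sup bound and row sums for the kernel of `f` -/
structure PrSt (f : PL) (nu : ℕ → ℝ) (A M : ℕ) (z : ℝ) (p : ℕ) : Prop where
  sup : ∀ a, p * cm nu A M p a ≤ z
  row : ∀ a < p, cm nu A M p a ≠ 0 →
    z⁻¹ ≤ ∑ b ∈ range p, cm nu A M p b * (1 + kN f p ((a : ℤ) - b))
  col : ∀ a < p, cm nu A M p a ≠ 0 →
    z⁻¹ ≤ ∑ b ∈ range p, cm nu A M p b * (1 + kN f p ((b : ℤ) - a))

/-- **the kernel `kN g p` at a prime of the state** (`g = f` or a fibre polynomial of `f`) -/
theorem wp_kN {f g : PL} {p : ℕ} (hg : GP g p) (hfg : ∀ t : ℤ, kN g p t = kN f p t)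
    {nu : ℕ → ℝ} {A M : ℕ} (hL : Law nu A M) {z : ℝ} (hS : PrSt f nu A M z p)
    {X : Type} [Fintype X] {v : X → ℕ} (hX : Rs X p v) (hv : ∀ x, v x < p) :
    WP (fun x => cm nu A M p (v x)) (fun x y => kN g p ((v x : ℤ) - v y))
      (4 * g.natDegree / √(p : ℝ)) (2 * g.natDegree) z := by
  have h := vp_kN hg hX
  exact
    { w0 := fun x => H599.cm_nonneg hL.nonneg p _
      w1 := by
        rw [hX.sum fun i => cm nu A M p i]
        exact H599.sum_cm hL.sum hg.pr.pos
      sup := fun x => by rw [hX.card]; exact hS.sup _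
      row := fun x hx => by
        rw [hX.sum fun b => cm nu A M p b * (1 + kN g p ((v x : ℤ) - b))]
        simp only [hfg]
        exact hS.row (v x) (hv x) hx
      col := fun y hy => by
        rw [hX.sum fun b => cm nu A M p b * (1 + kN g p ((b : ℤ) - v y))]
        simp only [hfg]
        exact hS.col (v y) (hv y) hy
      ck := h.ck
      ck' := h.ck'
      op := h.op
      lo := h.lo
      up := h.up }

end Vale.Agent.P042P.H386
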