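import Vale.Agent.P042PQ.H386K4
import Vale.Agent.P042.H386.K5

set_option autoImplicit false

/-!
P042, prime arguments: port of `P042.H386.K5` to the pairs (polynomial, linear form).
-/

namespace Vale.Agent.P042P.H386
open Vale.Agent.P042 hiding AuxData AuxData.lam_le AuxData.lam_pos AuxData.natDegree_H DiffFree
  rMax
open Vale.Agent.P042.H386 hiding GP.dns PrSt kN_fer ker_kN vp_kN wp_kN

open Finset Polynomial
open Vale.Agent.P042.H74 hiding GamN GamN_coprime GamN_eq GamN_norm GamN_prime_norm GamN_tiny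
  GamN_zero GamN_zero_one GamW GamW_eq_avC GamW_split GamW_zero_one NS NS_fer Ram Ram_mul Ram_one
  Ram_prime Ram_prod Ram_tiny Ram_tiny_zero Ram_zero Ram_zero_of_Wq Wq Wq_mul Wq_per Wq_zero
  Wq_zero_num Wq_zero_tiny avC_om avC_om_single deriv_fer_eval dns dns_fer dns_ge dns_pos
  dvd_deriv_fer fer fer_coeff fer_const fer_eval fer_natDegree kN kN_form kN_per multFam_GamN
  neg_one_le_kN nonconst_fer om om_ne_zero om_per om_union sum_Ram_tiny sum_Wq
open Vale.Agent.P042P.H74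
open Vale.Agent.P042.SS hiding Gam
open Vale.Agent.P042.H954 hiding GamN_le kN_le kN_op kN_per' sum_kN sum_kN_sub sum_kN_sub'
open Vale.Agent.P042P.H954

open Vale.Agent.P042.H599 (cm Law klu)

set_option linter.unusedSectionVars false

/-- **the kernels of a state** -/
theorem ker_kN (k : ℕ) (hk : 1 ≤ k) (α : ℝ) (hα : 0 < α) (hα1 : α ≤ 1 / 48) :
    ∃ K0 : ℝ, 1 ≤ K0 ∧ ∀ (f g : PL) (nu : ℕ → ℝ) (A M : ℕ) (ι : Type) [Fintype ι]
      [DecidableEq ι] (prm : ι → ℕ) (V : ι → Type) [∀ i, Fintype (V i)]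
      [∀ i, DecidableEq (V i)] (v : ∀ i, V i → ℕ) (isW : ι → Prop) [DecidablePred isW],
      g.natDegree = k → Law nu A M → Function.Injective prm →
      (∀ i, K0 ≤ prm i ∧ GP g (prm i)) → (∀ i, Rs (V i) (prm i) (v i)) →
      (∀ i x, v i x < prm i) →
      (∀ i, isW i → (∀ t : ℤ, kN g (prm i) t = kN f (prm i) t) ∧
        PrSt f nu A M ((prm i : ℝ) ^ α) (prm i)) →
      ∃ (K : ∀ i, V i → V i → ℝ) (e e' : ∀ i, V i → ℝ) (u u' : ∀ i, V i → ℝ)
        (s : ∀ i, V i → V i → ℝ) (rho ee : ι → ℝ),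
        (∀ i, isW i → OutW (fun x => cm nu A M (prm i) (v i x))
          (fun x y => kN g (prm i) ((v i x : ℤ) - v i y)) (K i) (e i) (e' i) (prm i) α) ∧
        (∀ i, ¬ isW i → K i = (fun x y => kN g (prm i) ((v i x : ℤ) - v i y)) ∧ e i = 0 ∧
          e' i = 0 ∧ u i = 0 ∧ u' i = 0 ∧
          s i = (fun x y => kN g (prm i) ((v i x : ℤ) - v i y)) ∧ ee i = 0) ∧
        H365.OB (fun i => refW (isW i) nu A M (prm i) (v i)) K (fun _ => 0) u u' s rho ee ∧
        (∀ i, rho i = (prm i : ℝ) ^ (7 * α - 1 / 2)) ∧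
        (∀ i, ee i ≤ (prm i : ℝ) ^ (-(5 / 4 : ℝ)) *
          min 1 (kLu (refW (isW i) nu A M (prm i) (v i)))) ∧
        ∑ i, ee i ≤ 1 / 32 := by
  obtain ⟨K0, hK0, H⟩ := ker_F k hk α hα hα1
  refine ⟨K0, hK0, fun f g nu A M ι _ _ prm V _ _ v isW _ hg hL hinj hp hRs hv hW => ?_⟩
  have hW' : ∀ i, isW i → refW (isW i) nu A M (prm i) (v i)
      = fun x => cm nu A M (prm i) (v i x) := fun i h => by
    funext x; unfold refW; rw [if_pos h]
  have hV' : ∀ i, ¬ isW i → refW (isW i) nu A M (prm i) (v i)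
      = fun _ => (Fintype.card (V i) : ℝ)⁻¹ := fun i h => by
    funext x; unfold refW; rw [if_neg h]
  obtain ⟨K, e, e', u, u', s, rho, ee, h1, h2, h3, h4, h5, h6⟩ :=
    H ι prm V isW (fun i => refW (isW i) nu A M (prm i) (v i))
      (fun i x y => kN g (prm i) ((v i x : ℤ) - v i y)) hinj (fun i => (hp i).1)
      (fun i => by exact_mod_cast (hRs i).card)
      (fun i h => by
        have h7 := wp_kN (hp i).2 (hW i h).1 hL (hW i h).2 (hRs i) (hv i)
        rw [hg] at h7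
        rw [hW' i h]
        exact h7)
      (fun i h => ⟨by
        have h7 := vp_kN (hp i).2 (hRs i)
        rw [hg] at h7
        exact h7, hV' i h⟩)
  refine ⟨K, e, e', u, u', s, rho, ee, fun i h => ?_, h2, h3, h4, h5, h6⟩
  have h7 := h1 i h
  rw [hW' i h] at h7
  exact h7

section lift

variable {X : Type} [Fintype X] {p : ℕ} {v : X → ℕ}

variable {τ : ℤ → X}

end lift

end Vale.Agent.P042P.H386
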