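import Vale.Agent.P042PQ.H387Par
import Vale.Agent.P042PQ.H739LowF
import Vale.Agent.P042.H387.Top

set_option autoImplicit false

/-!
P042, prime arguments: port of `P042.H387.Top` to the pairs (polynomial, linear form).
-/

namespace Vale.Agent.P042P.H387
open Vale.Agent.P042 hiding AuxData AuxData.lam_le AuxData.lam_pos AuxData.natDegree_H DiffFree
  rMax
open Vale.Agent.P042.H387 hiding LocF constants

open Polynomial Finset
open Vale.Agent.P042.SS hiding Gam
open Vale.Agent.P042.H74 hiding GamN GamN_coprime GamN_eq GamN_norm GamN_prime_norm GamN_tiny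
  GamN_zero GamN_zero_one GamW GamW_eq_avC GamW_split GamW_zero_one Gam_fer_norm NS NS_fer Ram
  Ram_index Ram_mul Ram_one Ram_prime Ram_prod Ram_tiny Ram_tiny_zero Ram_zero Ram_zero_of_Wq Wq
  Wq_mul Wq_per Wq_zero Wq_zero_num Wq_zero_tiny avC_om avC_om_single deriv_fer_eval dns dns_fer
  dns_ge dns_ge_exp dns_le_one dns_nonneg dns_pos dvd_deriv_fer fer fer_coeff fer_const fer_eval
  fer_natDegree kN kN_form kN_per multFam_GamN neg_one_le_kN nonconst_fer not_dvd_of_nonconst om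
  om_ne_zero om_per om_union prod_dns_ge prod_dns_ge_aux seamG sum_Ram_full sum_Ram_index
  sum_Ram_tiny sum_Wq
open Vale.Agent.P042P.H74
open Vale.Agent.P042.H739 hiding Base6 CELLS GWk GwTy HLOC HLOCat LOWERF LOWat STat StTy
  lowat_congr lowat_ofP lowerF_of lower_at seamH_of
open Vale.Agent.P042P.H739

open Vale.Agent.P042.H362 hiding AtEv AtF FF6 HypF MfEv QPF QlEv StF StF1
open Vale.Agent.P042P.H362
open Vale.Agent.P042.H359 hiding CELLSF cells_StF
open Vale.Agent.P042P.H359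

/-- **the local theorem**: there are an exponent `C1 k`, constants (functions of `k` and `R`) and
thresholds such that the local lower bound holds for the state with all parameters which fit -/
def LocF : Prop := ∃ C1 : ℕ → ℝ, (∀ k, 2 ≤ C1 k) ∧
  ∃ cs : ℕ → ℕ → Cst, (∀ k R, 2 ≤ k → CstOk (cs k R)) ∧
  ∃ thk : ℕ → ℕ → ℝ → ℝ, (∀ k R κ, 0 < thk k R κ) ∧ ∃ thr : ℕ → ℕ → ℝ → ℕ,
  ∃ thb : ℕ → ℕ → ℝ → ℕ → ℝ, (∀ k R κ n, 0 < thb k R κ n) ∧
  ∀ par : ℕ → ℕ → ℝ → FP,
    (∀ (k R : ℕ) (κ : ℝ), 2 ≤ k → 0 < κ → Fit C1 cs thk thr thb k R κ (par k R κ)) →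
    HLOC (K0fun par) C1 (StF par (mkFam C1 cs par))

end Vale.Agent.P042P.H387
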