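import Vale.Agent.P042PQ.H452KerT
import Vale.Agent.P042PQ.H452PairR
import Vale.Agent.P042PQ.H860Glue
import Vale.Agent.P042.H452.KIn

set_option autoImplicit false

/-!
P042, prime arguments: port of `P042.H452.KIn` to the pairs (polynomial, linear form).
-/

namespace Vale.Agent.P042P.H452
open Vale.Agent.P042 hiding AuxData AuxData.lam_le AuxData.lam_pos AuxData.natDegree_H DiffFree
  rMax
open Vale.Agent.P042.H452 hiding FB GamN_conj GamW_eq_GamN KOpt PS PS_eq Ram_conj Ram_ramK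
  Ram_shift SeamH SeamH.pos SeamH.prime SeamH.rho0 SeamH.term_bound Tilts Tt Wq_conj abs_ramK_le
  crossT crossT_eq hloc_tilts kOpt_of kernel_rel kin kp_O kp_R lamM lamS main_eq norm_GamN_le ooK
  ooK_OB ooK_left ooK_op ooK_right pair_ker prSt_F ps_l1 ramK ramK_shift seam sum_Ram sum_ramK
  tilt_one

open Polynomial Finset
open Vale.Agent.P042.SS hiding Gam
open Vale.Agent.P042.H74 hiding GamN GamN_coprime GamN_eq GamN_norm GamN_prime_norm GamN_tiny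
  GamN_zero GamN_zero_one GamW GamW_eq_avC GamW_split GamW_zero_one Gam_fer_norm NS NS_fer Ram
  Ram_index Ram_mul Ram_one Ram_prime Ram_prod Ram_tiny Ram_tiny_zero Ram_zero Ram_zero_of_Wq Wq
  Wq_mul Wq_per Wq_zero Wq_zero_num Wq_zero_tiny avC_om avC_om_single deriv_fer_eval dns dns_fer
  dns_ge dns_ge_exp dns_le_one dns_nonneg dns_pos dvd_deriv_fer fer fer_coeff fer_const fer_eval
  fer_natDegree kN kN_form kN_per multFam_GamN neg_one_le_kN nonconst_fer not_dvd_of_nonconst om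
  om_ne_zero om_per om_union prod_dns_ge prod_dns_ge_aux seamG sum_Ram_full sum_Ram_index
  sum_Ram_tiny sum_Wq
open Vale.Agent.P042P.H74

open Vale.Agent.P042.H599 (cm Law)

open Vale.Agent.P042.H386 (OutW GP)
open Vale.Agent.P042P.H386 (PrSt)

open Vale.Agent.P042.H438 (Rs uw)

open Vale.Agent.P042.H92 (Prm PLaw PPair)

open Vale.Agent.P042.H860 (Si Typ mo rn mem_Typ)
open Vale.Agent.P042P.H860 (Inst Ok)

open Vale.Agent.P042.H945 (lamR)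

open Vale.Agent.P042.H739 (Wst cell q0s q1s Tst)

open Vale.Agent.P042.H245 (PPf)

open Vale.Agent.P042.H359 (cmass)

open Vale.Agent.P042.H362 (FP)
open Vale.Agent.P042P.H362 (AtF)

open Vale.Agent.P042.H883 (esN)

section res

variable {a : Type} {q : a → ℕ} [∀ i, NeZero (q i)]

end res

/-- the marginals of the state -/
noncomputable abbrev lamS (I : Inst) : ∀ i : Si I.K0 I.C1 I.P, ZMod (qS I.K0 I.C1 I.P i) → ℝ :=
  lamR univ (qS I.K0 I.C1 I.P) (rn (qS I.K0 I.C1 I.P)) I.mu I.N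

/-- the marginals of the state, one super-modulus -/
noncomputable abbrev lamM (I : Inst) (m : ℕ) [NeZero m] :
    ∀ i : Option (Si I.K0 I.C1 I.P), ZMod (qM I.K0 I.C1 I.P m i) → ℝ :=
  lamR (univ.erase none) (qM I.K0 I.C1 I.P m) (rn (qM I.K0 I.C1 I.P m)) I.mu I.N

/-- the first conjuncts of `HLOCat` (the same number `b` for both tilts) -/
def Tilts (I : Inst) (kap : ℝ)
    (K : ∀ i : Si I.K0 I.C1 I.P, ZMod (qS I.K0 I.C1 I.P i) → ZMod (qS I.K0 I.C1 I.P i) → ℝ) :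
    Prop :=
  ∃ (e e' : {p // p ∈ Wst I.K0 kap I.P} → ℤ → ℝ) (b : {p // p ∈ Wst I.K0 kap I.P} → ℝ),
    (∀ i, 0 ≤ b i) ∧
    (∀ i n, e i (n + (i.1 : ℕ)) = e i n) ∧ (∀ i n, e' i (n + (i.1 : ℕ)) = e' i n) ∧
    (∀ i, ∑ x ∈ range i.1, e i (x : ℤ) ^ 2 ≤ (i.1 : ℕ) * b i ^ 2) ∧
    (∀ i, ∑ x ∈ range i.1, e' i (x : ℤ) ^ 2 ≤ (i.1 : ℕ) * b i ^ 2) ∧
    (∑ i, (b i + b i) ≤ I.P ^ (1 - kap / 4)) ∧
    ∀ (i : {p // p ∈ Wst I.K0 kap I.P}) (h : i.1 ∈ Typ I.K0 I.C1 I.P) (n m : ℤ),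
      1 + K ⟨i.1, h⟩ (n : ZMod i.1) (m : ZMod i.1) =
        (1 + e i n) * (1 + kN I.g i.1 (n - m)) * (1 + e' i m)

/-- the kernels on the sites and one super-modulus `m` -/
def KOpt (I : Inst) (kap : ℝ) (Q : Prm)
    (K : ∀ i : Si I.K0 I.C1 I.P, ZMod (qS I.K0 I.C1 I.P i) → ZMod (qS I.K0 I.C1 I.P i) → ℝ)
    (rho ee : Si I.K0 I.C1 I.P → ℝ) (m : ℕ) [NeZero m] : Prop :=
  ∃ (K' : ∀ i : Option (Si I.K0 I.C1 I.P),
      ZMod (qM I.K0 I.C1 I.P m i) → ZMod (qM I.K0 I.C1 I.P m i) → ℝ)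
    (c' : Option (Si I.K0 I.C1 I.P) → ℝ)
    (w w' : ∀ i : Option (Si I.K0 I.C1 I.P), ZMod (qM I.K0 I.C1 I.P m i) → ℝ)
    (s : ∀ i : Option (Si I.K0 I.C1 I.P),
      ZMod (qM I.K0 I.C1 I.P m i) → ZMod (qM I.K0 I.C1 I.P m i) → ℝ)
    (rho' e' : Option (Si I.K0 I.C1 I.P) → ℝ),
    (∀ i : Si I.K0 I.C1 I.P, K' (some i) = K i) ∧
    (∀ n n' : ℤ, Ram I.g I.PP m (n - n') =
      ((K' none ((n : ℤ) : ZMod m) ((n' : ℤ) : ZMod m) : ℝ) : ℂ)) ∧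
    (∀ i, rho' (some i) = rho i) ∧ rho' none = m ∧ (∀ i, e' (some i) = ee i) ∧
    e' none = 0 ∧
    KPair Q (univ.erase none) (fun i => esN (qM I.K0 I.C1 I.P m i)) (loO (H860.lo I kap))
      (lamM I m) (lam2R (loO (H860.lo I kap)) (lamM I m) (qM I.K0 I.C1 I.P m))
      (uw (qM I.K0 I.C1 I.P m)) K' c' w w' s rho' e'

theorem kOpt_of {I : Inst} {κ kap : ℝ} (h : Ok I κ) {Q : Prm}
    {K : ∀ i : Si I.K0 I.C1 I.P, ZMod (qS I.K0 I.C1 I.P i) → ZMod (qS I.K0 I.C1 I.P i) → ℝ}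
    {w w' : ∀ i : Si I.K0 I.C1 I.P, ZMod (qS I.K0 I.C1 I.P i) → ℝ}
    {s : ∀ i : Si I.K0 I.C1 I.P, ZMod (qS I.K0 I.C1 I.P i) → ZMod (qS I.K0 I.C1 I.P i) → ℝ}
    {rho ee : Si I.K0 I.C1 I.P → ℝ}
    (hP : KPair Q univ (fun i => esN (qS I.K0 I.C1 I.P i)) (H860.lo I kap) (lamS I)
      (lam2R (H860.lo I kap) (lamS I) (qS I.K0 I.C1 I.P)) (uw (qS I.K0 I.C1 I.P)) K
      (fun _ => 0) w w' s rho ee) (m : ℕ) [NeZero m] (hm : 2 ≤ m)
    (hc : ∀ i : Si I.K0 I.C1 I.P, m.Coprime i.1) : KOpt I kap Q K rho ee m := by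
  have HM := rs_M I.K0 I.C1 I.P hm hc
  have HS := rs_S I.K0 I.C1 I.P
  have hlam : (fun i : Si I.K0 I.C1 I.P => lamM I m (some i)) = lamS I := by
    funext i x
    have h1 := lamR_val HM (univ.erase none) I.mu I.N
      (mem_erase.2 ⟨Option.some_ne_none i, mem_univ _⟩) x
    have h2 := lamR_val HS univ I.mu I.N (mem_univ i) x
    exact h1.trans h2.symm
  have hP' : KPair Q univ (fun i : Si I.K0 I.C1 I.P => esN (qM I.K0 I.C1 I.P m (some i)))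
      (H860.lo I kap) (fun i : Si I.K0 I.C1 I.P => lamM I m (some i))
      (lam2R (H860.lo I kap) (fun i : Si I.K0 I.C1 I.P => lamM I m (some i))
        (fun i => qM I.K0 I.C1 I.P m (some i)))
      (uw fun i => qM I.K0 I.C1 I.P m (some i)) K (fun _ => 0) w w' s rho ee := by
    rw [hlam]
    exact hP
  obtain ⟨K', c', u1, u1', s', rho', e', a1, a2, a3, a4, a5, a6, a7⟩ :=
    kp_O I.g I.PP h.NS HM (es := fun i => esN (qM I.K0 I.C1 I.P m i)) hP'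
  refine ⟨K', c', u1, u1', s', rho', e', a1, fun n n' => ?_, a3, a4, a5, a6, a7⟩
  rw [Ram_ramK h.NS (by omega : 1 ≤ m), a2]
  congr 1
  unfold ooK
  have e1 := vR_cast HM none n
  have e2 := vR_cast HM none n'
  refine ramK_shift (by omega : 1 ≤ m) ?_
  have e3 := dvd_sub e1 e2
  have e4 : n - vR HM none (n : ZMod (qM I.K0 I.C1 I.P m none)) -
      (n' - vR HM none (n' : ZMod (qM I.K0 I.C1 I.P m none))) =
      n - n' - ((vR HM none (n : ZMod (qM I.K0 I.C1 I.P m none)) : ℤ) -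
        vR HM none (n' : ZMod (qM I.K0 I.C1 I.P m none))) := by ring
  rw [e4] at e3
  exact e3

/-- **the kernels at one instance of `HLOC`** -/
theorem kin (k : ℕ) (hk : 1 ≤ k) {α γ b gr kap : ℝ} (hα : 0 < α) (hα1 : α ≤ 1 / 48)
    (hγ : 14 * α ≤ γ) (hb : b ≤ α) (hgr : gr < α) (hkap : 0 < kap) (hkap1 : kap ≤ 1 / 2)
    (hαk : α ≤ kap / 128) :
    ∃ (K00 : ℕ) (P0 : ℝ), ∀ (I : Inst) (κ Dm : ℝ) (q : FP) (Q : Prm), I.k = k → Ok I κ →
      K00 ≤ I.K0 → P0 ≤ I.P → 2 - kap ≤ I.C1 → Q.γ = γ → Q.kap = kap → Q.p = Real.log I.P →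
      q.b = b → q.gr = gr → AtF (Typ I.K0 I.C1 I.P) q I.f I.N I.mu Dm →
      ∃ (K : ∀ i : Si I.K0 I.C1 I.P,
          ZMod (qS I.K0 I.C1 I.P i) → ZMod (qS I.K0 I.C1 I.P i) → ℝ)
        (w w' : ∀ i : Si I.K0 I.C1 I.P, ZMod (qS I.K0 I.C1 I.P i) → ℝ)
        (s : ∀ i : Si I.K0 I.C1 I.P,
          ZMod (qS I.K0 I.C1 I.P i) → ZMod (qS I.K0 I.C1 I.P i) → ℝ)
        (rho ee : Si I.K0 I.C1 I.P → ℝ),
        Tilts I kap K ∧
        (∀ i, ¬ H860.lo I kap i → ∀ n m : ℤ,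
          K i (n : ZMod (qS I.K0 I.C1 I.P i)) (m : ZMod (qS I.K0 I.C1 I.P i)) =
            kN I.g (qS I.K0 I.C1 I.P i) (n - m)) ∧
        ∑ i, ee i ≤ 1 / 32 ∧
        KPair Q univ (fun i => esN (qS I.K0 I.C1 I.P i)) (H860.lo I kap) (lamS I)
          (lam2R (H860.lo I kap) (lamS I) (qS I.K0 I.C1 I.P)) (uw (qS I.K0 I.C1 I.P)) K
          (fun _ => 0) w w' s rho ee ∧
        ∀ (m : ℕ) [NeZero m], 2 ≤ m → (∀ i : Si I.K0 I.C1 I.P, m.Coprime i.1) →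
          KOpt I kap Q K rho ee m := by
  obtain ⟨K1, hK1, H1⟩ := kp_R k hk α γ hα hα1 hγ
  obtain ⟨K2, hK2, H2⟩ := prSt_F (c0 := 5) hb hgr (by norm_num)
  obtain ⟨P1, H3⟩ := hloc_tilts kap α hkap hkap1 hα hαk
  have hγ0 : 0 < γ := by linarith
  refine ⟨max (max ⌈K1⌉₊ ⌈K2⌉₊) (max 32 ⌈Real.exp (Real.log 2 / γ)⌉₊), max 1 P1,
    fun I κ Dm q Q hIk hOk hK00 hP hC1 hQγ hQk hQp hqb hqr hAt => ?_⟩
  subst hQk
  subst hqb
  subst hqr
  have hKa : ⌈K1⌉₊ ≤ I.K0 := (le_max_left _ _).trans ((le_max_left _ _).trans hK00)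
  have hKb : ⌈K2⌉₊ ≤ I.K0 := (le_max_right _ _).trans ((le_max_left _ _).trans hK00)
  have hKc : 32 ≤ I.K0 := (le_max_left _ _).trans ((le_max_right _ _).trans hK00)
  have hKd : ⌈Real.exp (Real.log 2 / γ)⌉₊ ≤ I.K0 :=
    (le_max_right _ _).trans ((le_max_right _ _).trans hK00)
  have hP1 : 1 ≤ I.P := (le_max_left _ _).trans hP
  have hP0 : (0 : ℝ) < I.P := by linarith
  have hP2 : P1 ≤ I.P := (le_max_right _ _).trans hP
  have HS := rs_S I.K0 I.C1 I.P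
  have hpr : ∀ i : Si I.K0 I.C1 I.P, i.1.Prime := fun i => (mem_Typ.1 i.2).2.1
  have hgt : ∀ i : Si I.K0 I.C1 I.P, I.K0 < i.1 := fun i => (mem_Typ.1 i.2).2.2
  have hPr : ∀ i : Si I.K0 I.C1 I.P, PrSt I.f I.mu 1 I.N ((i.1 : ℝ) ^ α) i.1 := fun i =>
    H2 I.f I.mu 1 I.N i.1 ((Nat.le_ceil K2).trans (by exact_mod_cast hKb.trans (hgt i).le))
      (hAt.sup i.1 i.2) (hAt.row i.1 i.2)
  have hl : 0 < Real.log 2 := Real.log_pos (by norm_num)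
  have hlog5 : 5 * Real.log 2 ≤ Real.log I.K0 := by
    have h1 : Real.log ((2 : ℝ) ^ 5) = 5 * Real.log 2 := by
      rw [Real.log_pow]
      norm_num
    rw [← h1]
    refine Real.log_le_log (by norm_num) ?_
    have : (32 : ℝ) ≤ I.K0 := by exact_mod_cast hKc
    linarith
  have hlogγ : Real.log 2 / γ ≤ Real.log I.K0 := by
    have h1 : Real.exp (Real.log 2 / γ) ≤ I.K0 :=
      (Nat.le_ceil _).trans (by exact_mod_cast hKd)
    have h2 := Real.log_le_log (Real.exp_pos _) h1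
    rwa [Real.log_exp] at h2
  have hes1 : ∀ i : Si I.K0 I.C1 I.P, esN i.1 - Real.log 2 ≤ Real.log i.1 := fun i =>
    H883.esN_le_log (hpr i).one_lt
  have hes2 : ∀ i : Si I.K0 I.C1 I.P, Real.log 2 ≤ γ * esN i.1 := fun i => by
    have h1 := log_K0 hlogγ (by omega) i
    rw [div_le_iff₀ hγ0] at h1
    linarith
  have hes3 : ∀ i : Si I.K0 I.C1 I.P, 5 * Real.log 2 ≤ esN i.1 := fun i =>
    log_K0 hlog5 (by omega) i
  have hlo1 : ∀ i : Si I.K0 I.C1 I.P, H860.lo I Q.kap i →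
      esN i.1 ≤ (2 - Q.kap) * Q.p + Real.log 2 := by
    intro i hi
    have h1 : i.1 ≤ ⌊I.P ^ (2 - Q.kap)⌋₊ := by
      have h2 := hi
      simp only [H860.lo, Wst, mem_filter, mem_range, Nat.lt_succ_iff] at h2
      exact h2.1
    have h2 : (i.1 : ℝ) ≤ I.P ^ (2 - Q.kap) :=
      (by exact_mod_cast h1 : (i.1 : ℝ) ≤ (⌊I.P ^ (2 - Q.kap)⌋₊ : ℝ)).trans
        (Nat.floor_le (Real.rpow_nonneg hP0.le _))
    have h3 := Real.log_le_log (by exact_mod_cast (hpr i).pos) h2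
    rw [Real.log_rpow hP0, ← hQp] at h3
    have := hes1 i
    linarith
  have hlo2 : ∀ i : Si I.K0 I.C1 I.P, ¬ H860.lo I Q.kap i → (2 - Q.kap) * Q.p < esN i.1 := by
    intro i hi
    have h1 : ⌊I.P ^ (2 - Q.kap)⌋₊ < i.1 := by
      by_contra hc
      refine hi ?_
      simp only [H860.lo, Wst, mem_filter, mem_range, Nat.lt_succ_iff]
      exact ⟨by omega, hpr i, hgt i⟩
    have h2 : I.P ^ (2 - Q.kap) < (i.1 : ℝ) := (Nat.floor_lt (Real.rpow_nonneg hP0.le _)).1 h1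
    have h3 := Real.log_lt_log (Real.rpow_pos_of_pos hP0 _) h2
    rw [Real.log_rpow hP0, ← hQp] at h3
    exact h3.trans_le (H883.log_le_esN (hpr i).one_lt.le)
  have hlamS : ∀ i : Si I.K0 I.C1 I.P, H860.lo I Q.kap i → ∀ b < qS I.K0 I.C1 I.P i,
      lamS I i (rn (qS I.K0 I.C1 I.P) i b) = cm I.mu 1 I.N (qS I.K0 I.C1 I.P i) b :=
    fun i _ b hb => lamR_rn HS univ I.mu I.N (mem_univ i) hb
  obtain ⟨K, e, e', w, w', s, rho, ee, h1, h2, h3, h4⟩ :=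
    H1 I.f I.g I.mu 1 I.N (Si I.K0 I.C1 I.P) (fun i => ZMod (qS I.K0 I.C1 I.P i))
      (qS I.K0 I.C1 I.P) (rn (qS I.K0 I.C1 I.P)) (H860.lo I Q.kap)
      (fun i => esN (qS I.K0 I.C1 I.P i)) (lamS I) Q HS hQγ (hOk.gdeg.trans hIk) hAt.law
      (fun i => ⟨(Nat.le_ceil K1).trans (by exact_mod_cast hKa.trans (hgt i).le),
        hOk.gpg (hpr i) (hgt i)⟩)
      (fun i _ => ⟨fun t => (H386.kN_fer (hpr i) (hOk.not_dvd_q1 (hpr i) (hgt i)) t).1,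
        hPr i⟩) hes1 hes2 hes3 hlamS hlo1 hlo2
  refine ⟨K, w, w', s, rho, ee, ?_, fun i hi n m => ?_, h3, h4,
    fun m _ hm hc => kOpt_of hOk h4 m hm hc⟩
  · have hsub : Wst I.K0 Q.kap I.P ⊆ Typ I.K0 I.C1 I.P := H860.Wst_sub hP1 hC1
    obtain ⟨bb, t0, t1, t2, t3, t4, t5, t6⟩ :=
      H3 I.P hP2 I.K0 (Si I.K0 I.C1 I.P) (qS I.K0 I.C1 I.P)
        (fun i => ZMod (qS I.K0 I.C1 I.P i)) (fun i => vR HS i)
        (fun n i => (n : ZMod (qS I.K0 I.C1 I.P i))) I.g I.mu 1 I.N K e e'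
        (fun p => ⟨p.1, hsub p.2⟩) (fun _ => rfl) (fun i => rs_vR HS i)
        (fun n i => vR_cast HS i n) hAt.law (fun i => h1 _ i.2)
        (fun i c => (hPr ⟨i.1, hsub i.2⟩).sup c)
    exact ⟨_, _, bb, t0, t1, t2, t3, t4, t5, fun i _ n m => t6 i n m⟩
  · rw [h2 i hi]
    have e1 := vR_cast HS i n
    have e2 := vR_cast HS i m
    have e3 := dvd_sub e1 e2
    refine H954.kN_per' I.g _ _ _ ?_
    have e4 : (vR HS i (n : ZMod (qS I.K0 I.C1 I.P i)) : ℤ) -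
        vR HS i (m : ZMod (qS I.K0 I.C1 I.P i)) - (n - m) =
        -(n - vR HS i (n : ZMod (qS I.K0 I.C1 I.P i)) -
          (m - vR HS i (m : ZMod (qS I.K0 I.C1 I.P i)))) := by ring
    rw [e4]
    exact (dvd_neg).2 e3

end Vale.Agent.P042P.H452
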