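import Vale.Agent.P042PQ.H74Tiny2
import Vale.Agent.P042.H954.PrimeK

set_option autoImplicit false

/-!
P042, prime arguments: port of `P042.H954.PrimeK` to the pairs (polynomial, linear form).
-/

namespace Vale.Agent.P042P.H954
open Vale.Agent.P042 hiding AuxData AuxData.lam_le AuxData.lam_pos AuxData.natDegree_H DiffFree
  rMax
open Vale.Agent.P042.H954 hiding GamN_le kN_le kN_op kN_per' sum_kN sum_kN_sub sum_kN_sub'

open Finset Polynomial
open Vale.Agent.P042.H74 hiding GamN GamN_coprime GamN_eq GamN_norm GamN_prime_norm GamN_tiny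
  GamN_zero GamN_zero_one GamW GamW_eq_avC GamW_split GamW_zero_one NS NS_fer Ram Ram_mul Ram_one
  Ram_prime Ram_prod Ram_tiny Ram_tiny_zero Ram_zero Ram_zero_of_Wq Wq Wq_mul Wq_per Wq_zero
  Wq_zero_num Wq_zero_tiny avC_om avC_om_single deriv_fer_eval dns dns_fer dns_ge dns_pos
  dvd_deriv_fer fer fer_coeff fer_const fer_eval fer_natDegree kN kN_form kN_per multFam_GamN
  neg_one_le_kN nonconst_fer om om_ne_zero om_per om_union sum_Ram_tiny sum_Wq
open Vale.Agent.P042P.H74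
open Vale.Agent.P042.SS hiding Gam

section kernel

variable {f : PL} {PP : Finset ℕ} {p : ℕ}

theorem kN_per' (f : PL) (p : ℕ) (t s : ℤ) (h : (p : ℤ) ∣ t - s) : kN f p t = kN f p s := by
  obtain ⟨c, hc⟩ := h
  have hN : ∀ (n : ℕ) (r : ℤ), kN f p (r + p * n) = kN f p r := by
    intro n
    induction n with
    | zero => intro r; simp
    | succ n ih =>
      intro r
      have : r + (p : ℤ) * ((n + 1 : ℕ) : ℤ) = (r + p * n) + p := by push_cast; ring
      rw [this, kN_per, ih]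
  have ht : t = s + p * c := by linarith
  rcases le_or_gt 0 c with h0 | h0
  · obtain ⟨n, rfl⟩ := Int.eq_ofNat_of_zero_le h0
    rw [ht]
    exact hN n s
  · obtain ⟨n, hn⟩ := Int.eq_ofNat_of_zero_le (show 0 ≤ -c by omega)
    have : s = t + p * n := by rw [ht, ← hn]; ring
    rw [this]
    exact (hN n t).symm

/-- `∑_{t mod p} kN f p t = 0` -/
theorem sum_kN (hp : p.Prime) (hd : 0 < dns f p) :
    ∑ t ∈ range p, kN f p (t : ℤ) = 0 := by
  classical
  have hp0 : (0:ℝ) < p := by exact_mod_cast hp.pos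
  unfold kN
  rw [sum_sub_distrib, ← sum_div, sum_const, card_range, nsmul_eq_mul, mul_one, sub_eq_zero,
    div_eq_iff hd.ne']
  have h1 : ((p : ℝ) * dns f p)
      = (((range p).filter (fun z : ℕ => ¬ (p : ℤ) ∣ (Dp f p).eval (z : ℤ))).card : ℝ) := by
    unfold dns
    field_simp
  rw [h1]
  -- partition according to the value
  have h2 : ((range p).filter (fun z : ℕ => ¬ (p : ℤ) ∣ (Dp f p).eval (z : ℤ))).card
      = ∑ t ∈ range p, ((range p).filter (fun z : ℕ => ¬ (p : ℤ) ∣ (Dp f p).eval (z : ℤ) ∧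
        (p : ℤ) ∣ f.eval (z : ℤ) - (t : ℤ))).card := by
    rw [card_eq_sum_card_fiberwise (f := fun z : ℕ => (f.eval (z : ℤ) % p).toNat) (t := range p)]
    · apply sum_congr rfl
      intro t ht
      rw [filter_filter]
      congr 1
      apply filter_congr
      intro z _
      rw [mem_range] at ht
      have hpz : (0 : ℤ) < p := by exact_mod_cast hp.pos
      have n1 := Int.emod_nonneg (f.eval (z : ℤ)) hpz.ne'
      have n2 := Int.emod_lt_of_pos (f.eval (z : ℤ)) hpz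
      have key : (f.eval (z : ℤ) % p).toNat = t ↔ (p : ℤ) ∣ f.eval (z : ℤ) - (t : ℤ) := by
        constructor
        · intro h
          have h3 : f.eval (z : ℤ) % p = t := by omega
          rw [← h3]
          exact Int.dvd_self_sub_emod
        · intro h
          have h3 : f.eval (z : ℤ) % p = (t : ℤ) % p := (Int.modEq_iff_dvd.mpr h).symm
          rw [Int.emod_eq_of_lt (a := (t : ℤ)) (by omega) (by exact_mod_cast ht)] at h3
          omega
      rw [key]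
    · intro z _
      have hpz : (0 : ℤ) < p := by exact_mod_cast hp.pos
      have n1 := Int.emod_nonneg (f.eval (z : ℤ)) hpz.ne'
      have n2 := Int.emod_lt_of_pos (f.eval (z : ℤ)) hpz
      simp only [coe_range, Set.mem_Iio]
      omega
  rw [h2]
  push_cast
  rfl

theorem sum_kN_sub (hp : p.Prime) (hd : 0 < dns f p) (a : ℤ) :
    ∑ j ∈ range p, kN f p (a - (j : ℤ)) = 0 := by
  rw [sum_perm hp.pos (kN f p) (fun s t h => kN_per' f p t s h) (fun j => a - (j : ℤ)),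
    sum_kN hp hd]
  intro i hi j hj h
  have h1 : (p : ℤ) ∣ (j : ℤ) - i := by
    have : (a - (i : ℤ)) - (a - (j : ℤ)) = j - i := by ring
    rwa [this] at h
  have h3 : (i : ℤ) % p = (j : ℤ) % p := Int.modEq_iff_dvd.mpr h1
  rw [Int.emod_eq_of_lt (a := (i : ℤ)) (by omega) (by exact_mod_cast hi),
    Int.emod_eq_of_lt (a := (j : ℤ)) (by omega) (by exact_mod_cast hj)] at h3
  exact_mod_cast h3

theorem sum_kN_sub' (hp : p.Prime) (hd : 0 < dns f p) (a : ℤ) :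
    ∑ j ∈ range p, kN f p ((j : ℤ) - a) = 0 := by
  rw [sum_perm hp.pos (kN f p) (fun s t h => kN_per' f p t s h) (fun j => (j : ℤ) - a),
    sum_kN hp hd]
  intro i hi j hj h
  have h1 : (p : ℤ) ∣ (i : ℤ) - j := by
    have : ((i : ℤ) - a) - ((j : ℤ) - a) = i - j := by ring
    rwa [this] at h
  have h3 : (j : ℤ) % p = (i : ℤ) % p := Int.modEq_iff_dvd.mpr h1
  rw [Int.emod_eq_of_lt (a := (i : ℤ)) (by omega) (by exact_mod_cast hi),
    Int.emod_eq_of_lt (a := (j : ℤ)) (by omega) (by exact_mod_cast hj)] at h3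
  exact_mod_cast h3.symm

theorem kN_le (hp : p.Prime) (hnc : ∃ j : ℕ, 1 ≤ j ∧ ¬ (p : ℤ) ∣ f.coeff j)
    (hd : 1 / 2 ≤ dns f p) (t : ℤ) : kN f p t ≤ 2 * f.natDegree - 1 := by
  classical
  unfold kN
  have h1 : (((range p).filter (fun z : ℕ => ¬ (p : ℤ) ∣ (Dp f p).eval (z : ℤ) ∧
    (p : ℤ) ∣ f.eval (z : ℤ) - t)).card : ℝ) ≤ f.natDegree := by
    have h2 : ((range p).filter (fun z : ℕ => ¬ (p : ℤ) ∣ (Dp f p).eval (z : ℤ) ∧
      (p : ℤ) ∣ f.eval (z : ℤ) - t)).card ≤ f.natDegree :=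
      (card_le_card (fun z hz => by
        rw [mem_filter] at hz ⊢
        exact ⟨hz.1, hz.2.2⟩)).trans (sol_card hp hnc t)
    exact_mod_cast h2
  have hd0 : 0 < dns f p := by linarith
  have h3 : (((range p).filter (fun z : ℕ => ¬ (p : ℤ) ∣ (Dp f p).eval (z : ℤ) ∧
    (p : ℤ) ∣ f.eval (z : ℤ) - t)).card : ℝ) / dns f p ≤ 2 * f.natDegree := by
    rw [div_le_iff₀ hd0]
    have : (0:ℝ) ≤ f.natDegree := Nat.cast_nonneg _
    nlinarith
  linarith

end kernel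

/-- operator bound of the kernel with respect to the uniform weights -/
theorem kN_op {f : PL} {PP : Finset ℕ} (hPP : NS f PP) {p : ℕ} (hpP : p ∈ PP) {ρ : ℝ}
    (hρ : 0 ≤ ρ) (hG : ∀ a : ℤ, IsCoprime a (p : ℤ) → ‖GamN f PP a p‖ ≤ ρ)
    {X Y : Type*} [Fintype X] [Fintype Y] {v : X → ℕ} {w : Y → ℕ} (hX : Rs X p v)
    (hY : Rs Y p w) :
    OpB (fun _ : X => (Fintype.card X : ℝ)⁻¹) (fun _ : Y => (Fintype.card Y : ℝ)⁻¹)
      (fun x y => kN f p ((v x : ℤ) - w y)) ρ := by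
  intro f1 g1
  obtain ⟨φ, hφ⟩ := hX.ext f1
  obtain ⟨ψ, hψ⟩ := hY.ext g1
  have hp0 : (0:ℝ) < p := by exact_mod_cast (hPP p hpP).1.pos
  rw [hX.card, hY.card]
  have e1 : ∑ x, ∑ y, (p : ℝ)⁻¹ * (p : ℝ)⁻¹ * (f1 x * kN f p ((v x : ℤ) - w y) * g1 y)
      = (p : ℝ)⁻¹ * (p : ℝ)⁻¹ * ∑ i ∈ range p, ∑ j ∈ range p,
          φ i * ψ j * kN f p ((i : ℤ) - j) := by
    have h1 : ∀ i : ℕ, ∑ j ∈ range p, φ i * ψ j * kN f p ((i : ℤ) - j)
        = ∑ y, φ i * ψ (w y) * kN f p ((i : ℤ) - w y) := fun i =>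
      (hY.sum fun j => φ i * ψ j * kN f p ((i : ℤ) - j)).symm
    rw [sum_congr rfl fun i _ => h1 i,
      ← hX.sum fun i => ∑ y, φ i * ψ (w y) * kN f p ((i : ℤ) - w y), mul_sum]
    apply sum_congr rfl
    intro x _
    rw [mul_sum]
    apply sum_congr rfl
    intro y _
    rw [hφ, hψ]
    ring
  rw [e1, abs_mul, abs_of_pos (by positivity)]
  have h2 := kN_form f PP hPP p hpP ρ hρ hG φ ψ
  have e2 : nm (fun _ : X => (p : ℝ)⁻¹) f1 = √((p : ℝ)⁻¹ * ∑ i ∈ range p, φ i ^ 2) := by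
    unfold nm
    congr 1
    rw [← hX.sum fun i => φ i ^ 2, mul_sum]
    exact sum_congr rfl fun x _ => by rw [hφ]
  have e3 : nm (fun _ : Y => (p : ℝ)⁻¹) g1 = √((p : ℝ)⁻¹ * ∑ i ∈ range p, ψ i ^ 2) := by
    unfold nm
    congr 1
    rw [← hY.sum fun i => ψ i ^ 2, mul_sum]
    exact sum_congr rfl fun x _ => by rw [hψ]
  rw [e2, e3, Real.sqrt_mul (by positivity), Real.sqrt_mul (by positivity)]
  have h3 : √((p : ℝ)⁻¹) * √((p : ℝ)⁻¹) = (p : ℝ)⁻¹ := Real.mul_self_sqrt (by positivity)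
  calc (p : ℝ)⁻¹ * (p : ℝ)⁻¹ * |∑ i ∈ range p, ∑ j ∈ range p, φ i * ψ j * kN f p ((i : ℤ) - j)|
      ≤ (p : ℝ)⁻¹ * (p : ℝ)⁻¹ * (ρ * p * (√(∑ x ∈ range p, φ x ^ 2)
          * √(∑ y ∈ range p, ψ y ^ 2))) := mul_le_mul_of_nonneg_left h2 (by positivity)
    _ = ρ * (p : ℝ)⁻¹ * (√(∑ x ∈ range p, φ x ^ 2) * √(∑ y ∈ range p, ψ y ^ 2)) := by
        field_simp
    _ = _ := by
        have h4 : ∀ A B s : ℝ, s * s = (p : ℝ)⁻¹ → ρ * (p : ℝ)⁻¹ * (A * B)
            = ρ * (s * A) * (s * B) := by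
          intro A B s hs
          rw [← hs]
          ring
        exact h4 _ _ _ h3

/-- the norm of the kernel, from the bound of the complete sum -/
theorem GamN_le {f : PL} {PP : Finset ℕ} (hPP : NS f PP) {p : ℕ} (hpP : p ∈ PP)
    (hk1 : 1 ≤ f.natDegree) (hkp : 2 * f.natDegree ≤ p)
    (hnc : ∃ j : ℕ, 1 ≤ j ∧ ¬ (p : ℤ) ∣ f.coeff j) {a : ℤ}
    (hG : ‖P042.SS.Gam f a p‖ ≤ f.natDegree / √(p : ℝ)) :
    ‖GamN f PP a p‖ ≤ 4 * f.natDegree / √(p : ℝ) ∧ 1 / 2 ≤ dns f p := by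
  have hp := (hPP p hpP).1
  have hp0 : (0:ℝ) < p := by exact_mod_cast hp.pos
  have hp1 : (1:ℝ) ≤ p := by exact_mod_cast hp.one_lt.le
  have hkpr : (2:ℝ) * f.natDegree ≤ p := by exact_mod_cast hkp
  have hk1r : (1:ℝ) ≤ f.natDegree := by exact_mod_cast hk1
  have h1 := dns_ge f p hp hk1 (by omega) hnc
  have h2 : (f.natDegree : ℝ) / p ≤ 1 / 2 := by
    rw [div_le_iff₀ hp0]
    linarith
  have h3 := GamN_prime_norm f PP hPP p hpP _ ((f.natDegree : ℝ) / p) a hG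
    (by linarith) h2
  refine ⟨h3.trans ?_, by linarith⟩
  have hs : √(p : ℝ) ≤ p := by
    rw [Real.sqrt_le_left hp0.le]
    nlinarith
  have hs0 : 0 < √(p : ℝ) := Real.sqrt_pos.mpr hp0
  have h4 : (f.natDegree : ℝ) / p ≤ f.natDegree / √(p : ℝ) :=
    div_le_div₀ (by linarith) (by linarith) hs0 hs
  calc 2 * ((f.natDegree : ℝ) / √(p : ℝ) + (f.natDegree : ℝ) / p)
      ≤ 2 * ((f.natDegree : ℝ) / √(p : ℝ) + f.natDegree / √(p : ℝ)) := by linarith
    _ = 4 * f.natDegree / √(p : ℝ) := by ring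

end Vale.Agent.P042P.H954
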