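import Vale.Agent.P042PQ.H452SeamL
import Vale.Agent.P042PQ.H954PrimeK
import Vale.Agent.P042.H452.SeamK

set_option autoImplicit false

/-!
P042, prime arguments: port of `P042.H452.SeamK` to the pairs (polynomial, linear form).
-/

namespace Vale.Agent.P042P.H452
open Vale.Agent.P042 hiding AuxData AuxData.lam_le AuxData.lam_pos AuxData.natDegree_H DiffFree
  rMax
open Vale.Agent.P042.H452 hiding FB GamW_eq_GamN PS PS_eq SeamH SeamH.pos SeamH.prime SeamH.rho0
  SeamH.term_bound Tt crossT crossT_eq kernel_rel main_eq ps_l1 seam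

open Polynomial Finset
open Vale.Agent.P042.SS hiding Gam
open Vale.Agent.P042.H74 hiding GamN GamN_coprime GamN_eq GamN_norm GamN_prime_norm GamN_tiny
  GamN_zero GamN_zero_one GamW GamW_eq_avC GamW_split GamW_zero_one NS NS_fer Ram Ram_index
  Ram_mul Ram_one Ram_prime Ram_prod Ram_tiny Ram_tiny_zero Ram_zero Ram_zero_of_Wq Wq Wq_mul
  Wq_per Wq_zero Wq_zero_num Wq_zero_tiny avC_om avC_om_single deriv_fer_eval dns dns_fer dns_ge
  dns_pos dvd_deriv_fer fer fer_coeff fer_const fer_eval fer_natDegree kN kN_form kN_per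
  multFam_GamN neg_one_le_kN nonconst_fer om om_ne_zero om_per om_union sum_Ram_full sum_Ram_index
  sum_Ram_tiny sum_Wq
open Vale.Agent.P042P.H74
open Vale.Agent.P042.H954 hiding GamN_le kN_le kN_op kN_per' sum_kN sum_kN_sub sum_kN_sub'
open Vale.Agent.P042P.H954

section residues

variable {V : Type*} [Fintype V] {p : ℕ} {v : V → ℕ}

variable {r : ℤ → V}

omit [Fintype V] in
/-- the kernel relation -/
theorem kernel_rel {g : PL} (hr : ∀ n : ℤ, (p : ℤ) ∣ n - v (r n)) {K : V → V → ℝ}
    {e e' : V → ℝ}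
    (hK : ∀ x y, 1 + K x y = (1 + e x) * (1 + kN g p ((v x : ℤ) - v y)) * (1 + e' y)) (n m : ℤ) :
    1 + K (r n) (r m) = (1 + e (r n)) * (1 + kN g p (n - m)) * (1 + e' (r m)) := by
  rw [hK, kN_per' g p (n - m) ((v (r n) : ℤ) - v (r m))]
  have h1 := hr n
  have h2 := hr m
  have h3 : n - m - ((v (r n) : ℤ) - v (r m)) = (n - v (r n)) - (m - v (r m)) := by ring
  rw [h3]
  exact dvd_sub h1 h2

end residues

section main

variable {ι : Type*} [Fintype ι] [DecidableEq ι] {V : ι → Type*} [∀ i, Fintype (V i)]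
  [∀ i, DecidableEq (V i)]

end main

end Vale.Agent.P042P.H452
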