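import Vale.Agent.P042PQ.H386K5
import Vale.Agent.P042PQ.H452SeamK
import Vale.Agent.P042.H452.KerL

set_option autoImplicit false

/-!
P042, prime arguments: port of `P042.H452.KerL` to the pairs (polynomial, linear form).
-/

namespace Vale.Agent.P042P.H452
open Vale.Agent.P042 hiding AuxData AuxData.lam_le AuxData.lam_pos AuxData.natDegree_H DiffFree
  rMax
open Vale.Agent.P042.H452 hiding FB GamW_eq_GamN PS PS_eq SeamH SeamH.pos SeamH.prime SeamH.rho0
  SeamH.term_bound Tt crossT crossT_eq kernel_rel main_eq ps_l1 seam tilt_one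

open Polynomial Finset
open Vale.Agent.P042.SS hiding Gam
open Vale.Agent.P042.H74 hiding GamN GamN_coprime GamN_eq GamN_norm GamN_prime_norm GamN_tiny
  GamN_zero GamN_zero_one GamW GamW_eq_avC GamW_split GamW_zero_one NS NS_fer Ram Ram_index
  Ram_mul Ram_one Ram_prime Ram_prod Ram_tiny Ram_tiny_zero Ram_zero Ram_zero_of_Wq Wq Wq_mul
  Wq_per Wq_zero Wq_zero_num Wq_zero_tiny avC_om avC_om_single deriv_fer_eval dns dns_fer dns_ge
  dns_pos dvd_deriv_fer fer fer_coeff fer_const fer_eval fer_natDegree kN kN_form kN_per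
  multFam_GamN neg_one_le_kN nonconst_fer om om_ne_zero om_per om_union sum_Ram_full sum_Ram_index
  sum_Ram_tiny sum_Wq
open Vale.Agent.P042P.H74
open Vale.Agent.P042.H954 hiding GamN_le kN_le kN_op kN_per' sum_kN sum_kN_sub sum_kN_sub'
open Vale.Agent.P042P.H954

open Vale.Agent.P042.H599 (cm Law klu)

open Vale.Agent.P042.H386 (OutW kLu)

/-- the tilt of one low prime, integer form -/
theorem tilt_one {X : Type} [Fintype X] {p : ℕ} {v : X → ℕ} (hp : 0 < p) (hX : Rs X p v)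
    {r : ℤ → X} (hr : ∀ n : ℤ, (p : ℤ) ∣ n - v (r n)) {g : PL} {w : X → ℝ} {K : X → X → ℝ}
    {e e' : X → ℝ} {α b : ℝ} (h : OutW w (fun x y => kN g p ((v x : ℤ) - v y)) K e e' p α)
    (hb : (p : ℝ) ^ (7 * α - 1 / 2) * √(kLu w) ≤ b) :
    (∀ n : ℤ, e (r (n + p)) = e (r n)) ∧ (∀ n : ℤ, e' (r (n + p)) = e' (r n)) ∧
    ∑ x ∈ range p, e (r (x : ℤ)) ^ 2 ≤ p * b ^ 2 ∧
    ∑ x ∈ range p, e' (r (x : ℤ)) ^ 2 ≤ p * b ^ 2 ∧
    ∀ n m : ℤ, 1 + K (r n) (r m) = (1 + e (r n)) * (1 + kN g p (n - m)) * (1 + e' (r m)) := by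
  refine ⟨fun n => by rw [red_per hX hr], fun n => by rw [red_per hX hr],
    tilt_sq hX hr hp e b (h.nme.trans hb), tilt_sq hX hr hp e' b (h.nme'.trans hb),
    fun n m => kernel_rel hr h.tilt n m⟩

end Vale.Agent.P042P.H452
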