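import Vale.Agent.P042PQ.H452KerL
import Vale.Agent.P042PQ.H739LowF
import Vale.Agent.P042.H452.KerT

set_option autoImplicit false

/-!
P042, prime arguments: port of `P042.H452.KerT` to the pairs (polynomial, linear form).
-/

namespace Vale.Agent.P042P.H452
open Vale.Agent.P042 hiding AuxData AuxData.lam_le AuxData.lam_pos AuxData.natDegree_H DiffFree
  rMax
open Vale.Agent.P042.H452 hiding FB GamW_eq_GamN PS PS_eq SeamH SeamH.pos SeamH.prime SeamH.rho0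
  SeamH.term_bound Tt crossT crossT_eq hloc_tilts kernel_rel main_eq ps_l1 seam tilt_one

open Polynomial Finset
open Vale.Agent.P042.SS hiding Gam
open Vale.Agent.P042.H74 hiding GamN GamN_coprime GamN_eq GamN_norm GamN_prime_norm GamN_tiny
  GamN_zero GamN_zero_one GamW GamW_eq_avC GamW_split GamW_zero_one Gam_fer_norm NS NS_fer Ram
  Ram_index Ram_mul Ram_one Ram_prime Ram_prod Ram_tiny Ram_tiny_zero Ram_zero Ram_zero_of_Wq Wq
  Wq_mul Wq_per Wq_zero Wq_zero_num Wq_zero_tiny avC_om avC_om_single deriv_fer_eval dns dns_fer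
  dns_ge dns_ge_exp dns_le_one dns_nonneg dns_pos dvd_deriv_fer fer fer_coeff fer_const fer_eval
  fer_natDegree kN kN_form kN_per multFam_GamN neg_one_le_kN nonconst_fer not_dvd_of_nonconst om
  om_ne_zero om_per om_union prod_dns_ge prod_dns_ge_aux seamG sum_Ram_full sum_Ram_index
  sum_Ram_tiny sum_Wq
open Vale.Agent.P042P.H74
open Vale.Agent.P042.H954 hiding GamN_le kN_le kN_op kN_per' sum_kN sum_kN_sub sum_kN_sub'
open Vale.Agent.P042P.H954

open Vale.Agent.P042.H599 (cm Law klu)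

open Vale.Agent.P042.H386 (OutW kLu)

open Vale.Agent.P042.H739 (Wst)

/-- **the tilts of the low primes** (typed sites `a`, low sites the images of the primes of
`Wst K0 g P`) -/
theorem hloc_tilts (g α : ℝ) (hg : 0 < g) (hg1 : g ≤ 1 / 2) (hα : 0 < α) (hα1 : α ≤ g / 128) :
    ∃ P0 : ℝ, ∀ P : ℝ, P0 ≤ P → ∀ (K0 : ℕ) (a : Type) (prm : a → ℕ) (V : a → Type)
      [∀ i, Fintype (V i)] (v : ∀ i, V i → ℕ) (red : ℤ → ∀ i, V i) (h : PL) (nu : ℕ → ℝ)
      (A M : ℕ) (K : ∀ i, V i → V i → ℝ) (e e' : ∀ i, V i → ℝ)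
      (j : {p // p ∈ Wst K0 g P} → a),
      (∀ i, prm (j i) = i.1) → (∀ i, Rs (V i) (prm i) (v i)) →
      (∀ n i, ((prm i : ℕ) : ℤ) ∣ n - v i (red n i)) → Law nu A M →
      (∀ i, OutW (fun x => cm nu A M (prm (j i)) (v (j i) x))
        (fun x y => kN h (prm (j i)) ((v (j i) x : ℤ) - v (j i) y)) (K (j i)) (e (j i))
        (e' (j i)) (prm (j i)) α) →
      (∀ i b, (prm (j i) : ℝ) * cm nu A M (prm (j i)) b ≤ (prm (j i) : ℝ) ^ α) →
      ∃ b : {p // p ∈ Wst K0 g P} → ℝ,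
        (∀ i, 0 ≤ b i) ∧
        (∀ i n, e (j i) (red (n + (i.1 : ℕ)) (j i)) = e (j i) (red n (j i))) ∧
        (∀ i n, e' (j i) (red (n + (i.1 : ℕ)) (j i)) = e' (j i) (red n (j i))) ∧
        (∀ i, ∑ x ∈ range i.1, e (j i) (red (x : ℤ) (j i)) ^ 2 ≤ (i.1 : ℕ) * b i ^ 2) ∧
        (∀ i, ∑ x ∈ range i.1, e' (j i) (red (x : ℤ) (j i)) ^ 2 ≤ (i.1 : ℕ) * b i ^ 2) ∧
        (∑ i, (b i + b i) ≤ P ^ (1 - g / 4)) ∧
        (∀ i, ∀ n m : ℤ, 1 + K (j i) (red n (j i)) (red m (j i)) =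
          (1 + e (j i) (red n (j i))) * (1 + kN h i.1 (n - m)) *
            (1 + e' (j i) (red m (j i)))) := by
  obtain ⟨P0, hP0⟩ := H377.sumB g α hg hg1 hα hα1
  refine ⟨P0, fun P hP K0 a prm V _ v red h nu A M K e e' j hj hRs hred hL hW hs => ?_⟩
  have hpos : ∀ i : {p // p ∈ Wst K0 g P}, 1 ≤ i.1 := by
    intro i
    have h1 := i.2
    unfold Wst at h1
    rw [mem_filter] at h1
    exact h1.2.1.one_lt.le
  have key : ∀ i : {p // p ∈ Wst K0 g P},
      (∀ n : ℤ, e (j i) (red (n + (prm (j i) : ℕ)) (j i)) = e (j i) (red n (j i))) ∧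
      (∀ n : ℤ, e' (j i) (red (n + (prm (j i) : ℕ)) (j i)) = e' (j i) (red n (j i))) ∧
      ∑ x ∈ range (prm (j i)), e (j i) (red (x : ℤ) (j i)) ^ 2 ≤
        (prm (j i) : ℕ) * ((prm (j i) : ℝ) ^ (8 * α - 1 / 2)) ^ 2 ∧
      ∑ x ∈ range (prm (j i)), e' (j i) (red (x : ℤ) (j i)) ^ 2 ≤
        (prm (j i) : ℕ) * ((prm (j i) : ℝ) ^ (8 * α - 1 / 2)) ^ 2 ∧
      ∀ n m : ℤ, 1 + K (j i) (red n (j i)) (red m (j i)) =
        (1 + e (j i) (red n (j i))) * (1 + kN h (prm (j i)) (n - m)) *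
          (1 + e' (j i) (red m (j i))) := by
    intro i
    have hp : 0 < prm (j i) := by
      rw [hj i]
      exact hpos i
    refine tilt_one hp (hRs (j i)) (r := fun n => red n (j i)) (fun n => hred n (j i)) (hW i) ?_
    refine tilt_b (hRs (j i)).card hp (fun x => H599.cm_nonneg hL.nonneg _ _) ?_ hα.le
      (fun x => hs i _)
    rw [(hRs (j i)).sum fun b => cm nu A M (prm (j i)) b]
    exact H599.sum_cm hL.sum hp
  refine ⟨fun i => ((i.1 : ℕ) : ℝ) ^ (8 * α - 1 / 2), fun i => Real.rpow_nonneg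
    (Nat.cast_nonneg _) _, fun i n => ?_, fun i n => ?_, fun i => ?_, fun i => ?_,
    hP0 P hP K0, fun i n m => ?_⟩
  · have h1 := (key i).1 n
    rwa [hj i] at h1
  · have h1 := (key i).2.1 n
    rwa [hj i] at h1
  · have h1 := (key i).2.2.1
    rwa [hj i] at h1
  · have h1 := (key i).2.2.2.1
    rwa [hj i] at h1
  · have h1 := (key i).2.2.2.2 n m
    rwa [hj i] at h1

end Vale.Agent.P042P.H452
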