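import Vale.Agent.P042PQ.H954PrimeK
import Vale.Agent.P042.H452.RamK

set_option autoImplicit false

/-!
P042, prime arguments: port of `P042.H452.RamK` to the pairs (polynomial, linear form).
-/

namespace Vale.Agent.P042P.H452
open Vale.Agent.P042 hiding AuxData AuxData.lam_le AuxData.lam_pos AuxData.natDegree_H DiffFree
  rMax
open Vale.Agent.P042.H452 hiding GamN_conj Ram_conj Ram_ramK Ram_shift Wq_conj abs_ramK_le
  norm_GamN_le ooK ooK_OB ooK_left ooK_op ooK_right ramK ramK_shift sum_Ram sum_ramK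

open Polynomial Finset
open Vale.Agent.P042.SS hiding Gam
open Vale.Agent.P042.H74 hiding GamN GamN_coprime GamN_eq GamN_norm GamN_prime_norm GamN_tiny
  GamN_zero GamN_zero_one GamW GamW_eq_avC GamW_split GamW_zero_one NS NS_fer Ram Ram_mul Ram_one
  Ram_prime Ram_prod Ram_tiny Ram_tiny_zero Ram_zero Ram_zero_of_Wq Wq Wq_mul Wq_per Wq_zero
  Wq_zero_num Wq_zero_tiny avC_om avC_om_single deriv_fer_eval dns dns_fer dns_ge dns_pos
  dvd_deriv_fer fer fer_coeff fer_const fer_eval fer_natDegree kN kN_form kN_per multFam_GamN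
  neg_one_le_kN nonconst_fer om om_ne_zero om_per om_union sum_Ram_tiny sum_Wq
open Vale.Agent.P042P.H74
open Vale.Agent.P042.H954 hiding GamN_le kN_le kN_op kN_per' sum_kN sum_kN_sub sum_kN_sub'
open Vale.Agent.P042P.H954

/-- the kernel of the modulus `m` -/
noncomputable def ramK (g : PL) (PP : Finset ℕ) (m : ℕ) (t : ℤ) : ℝ := (Ram g PP m t).re

theorem Wq_conj (g : PL) (PP : Finset ℕ) (a : ℤ) (q : ℕ) :
    (starRingEnd ℂ) (Wq g PP a q) = Wq g PP (-a) q := by
  unfold Wq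
  rw [avC_conj]
  congr 1
  funext z
  rw [map_mul, map_mul, Complex.conj_ofReal, Complex.conj_ofReal, AN.e_conj]
  congr 3
  push_cast
  ring

variable {g : PL} {PP : Finset ℕ}

theorem GamN_conj (hPP : NS g PP) (a : ℤ) {q : ℕ} (hq : 1 ≤ q) :
    (starRingEnd ℂ) (GamN g PP a q) = GamN g PP (-a) q := by
  rw [GamN_eq g PP hPP a q hq, GamN_eq g PP hPP (-a) q hq, map_div₀, Wq_conj,
    Complex.conj_ofReal]

theorem norm_GamN_le (hPP : NS g PP) (a : ℤ) {q : ℕ} (hq : 1 ≤ q) : ‖GamN g PP a q‖ ≤ 1 := by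
  classical
  rw [GamN_eq g PP hPP a q hq]
  set U := PP.filter (fun p => p ∣ q) with hU
  have hUP : ∀ p ∈ U, p.Prime ∧ 0 < dns g p := fun p hp => hPP p (mem_filter.1 hp).1
  have hpos : 0 < ∏ p ∈ U, dns g p := prod_pos fun p hp => (hUP p hp).2
  rw [norm_div, Complex.norm_real, Real.norm_eq_abs, abs_of_pos hpos, div_le_one hpos]
  unfold Wq
  have hom : ∀ z, 0 ≤ om g U z := fun z => by
    unfold om
    exact prod_nonneg fun p _ => by split_ifs <;> norm_num
  have h1 := norm_avC_le q (fun z => (om g U z : ℂ) *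
      ((nu g PP q z : ℂ) * e (a * ((g.eval z : ℤ) : ℝ) / q)))
    (fun z => om g U z * nu g PP q z) (fun z => by
      rw [norm_mul, norm_mul, norm_e, mul_one, Complex.norm_real, Complex.norm_real,
        Real.norm_eq_abs, Real.norm_eq_abs, abs_of_nonneg (hom z),
        abs_of_nonneg (nu_nonneg g PP q z)])
  refine h1.trans (le_of_eq ?_)
  set S := q.primeFactors \ PP with hS
  have hSP : ∀ p ∈ S, p.Prime := fun p hp => Nat.prime_of_mem_primeFactors (mem_sdiff.1 hp).1
  have hdis : Disjoint U S := disjoint_left.2 fun p hp hp' =>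
    (mem_sdiff.1 hp').2 (mem_filter.1 hp).1
  have hcop : Nat.Coprime (∏ p ∈ U, p) (∏ p ∈ S, p) :=
    Nat.Coprime.prod_left fun p hp => Nat.Coprime.prod_right fun l hl =>
      (Nat.coprime_primes (hUP p hp).1 (hSP l hl)).2 fun h => disjoint_left.1 hdis hp (h ▸ hl)
  have hdvd : (∏ p ∈ U, p) * (∏ p ∈ S, p) ∣ q := hcop.mul_dvd_of_dvd_of_dvd
    (Finset.prod_primes_dvd q (fun p hp => (hUP p hp).1.prime) fun p hp => (mem_filter.1 hp).2)
    (Finset.prod_primes_dvd q (fun p hp => (hSP p hp).prime) fun p hp =>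
      Nat.dvd_of_mem_primeFactors (mem_sdiff.1 hp).1)
  obtain ⟨w, hw⟩ := hdvd
  have hw1 : 1 ≤ w := by
    rcases Nat.eq_zero_or_pos w with h | h
    · rw [h, mul_zero] at hw
      omega
    · exact h
  have p1 := om_per g U _ fun p hp => dvd_prod_of_mem (fun p => p) hp
  have p2 := P042PU.uw_per g S _ fun p hp => dvd_prod_of_mem (fun p => p) hp
  have h2 : avC q (fun z => ((om g U z * nu g PP q z : ℝ) : ℂ)) =
      ((∏ p ∈ U, dns g p : ℝ) : ℂ) := by
    have h3 : (fun z => ((om g U z * nu g PP q z : ℝ) : ℂ)) =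
        fun z => (om g U z : ℂ) * (P042PU.uw g S z : ℂ) := by
      funext z
      rw [Complex.ofReal_mul]
      rfl
    rw [h3, hw, avC_period hw1 ((p1.of_dvd (dvd_mul_right _ _)).mul (p2.of_dvd (dvd_mul_left _ _))),
      avC_crt hcop (prod_pos fun p hp => (hUP p hp).1.pos) (prod_pos fun p hp => (hSP p hp).pos)
        p1 p2, avC_om g U fun p hp => (hUP p hp).1, P042PU.avC_uw g S hSP, mul_one]
  rw [h2, Complex.ofReal_re]

/-- the kernel is real -/
theorem Ram_conj (hPP : NS g PP) {m : ℕ} (hm : 1 ≤ m) (t : ℤ) :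
    (starRingEnd ℂ) (Ram g PP m t) = Ram g PP m t := by
  have hm0 : (m : ℝ) ≠ 0 := by positivity
  have hM := multFam_GamN g PP hPP
  unfold Ram cR
  rw [map_sum]
  have h1 : ∀ a : ℕ, (starRingEnd ℂ) (GamN g PP a m * e (-((t : ℝ) * ((a : ℝ) / m)))) =
      GamN g PP ((m : ℤ) - a) m * e (-((t : ℝ) * ((((m : ℤ) - a : ℤ) : ℝ) / m))) := by
    intro a
    rw [map_mul, GamN_conj hPP a hm, AN.e_conj]
    have h2 := hM.per m (-(a : ℤ)) 1 hm
    simp only [one_mul] at h2
    have h3 : (m : ℤ) - a = -(a : ℤ) + m := by ring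
    rw [h3, h2]
    congr 1
    have h4 : -((t : ℝ) * (((-(a : ℤ) + m : ℤ) : ℝ) / m)) =
        ((-t : ℤ) : ℝ) + - -((t : ℝ) * ((a : ℝ) / m)) := by
      push_cast
      field_simp
      ring
    rw [h4, e_int_add]
  rcases Nat.lt_or_ge 1 m with hm1 | hm1
  · refine sum_nbij' (fun a => m - a) (fun a => m - a) ?_ ?_ ?_ ?_ ?_
    · intro a ha
      rw [mem_filter, mem_range] at ha ⊢
      have ha0 : 0 < a := by
        rcases Nat.eq_zero_or_pos a with h | h
        · rw [h, Nat.coprime_zero_right] at ha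
          omega
        · exact h
      refine ⟨by omega, ?_⟩
      exact (Nat.coprime_self_sub_right ha.1.le).2 ha.2
    · intro a ha
      rw [mem_filter, mem_range] at ha ⊢
      have ha0 : 0 < a := by
        rcases Nat.eq_zero_or_pos a with h | h
        · rw [h, Nat.coprime_zero_right] at ha
          omega
        · exact h
      refine ⟨by omega, ?_⟩
      exact (Nat.coprime_self_sub_right ha.1.le).2 ha.2
    · intro a ha
      rw [mem_filter, mem_range] at ha
      omega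
    · intro a ha
      rw [mem_filter, mem_range] at ha
      omega
    · intro a ha
      rw [mem_filter, mem_range] at ha
      rw [h1 a]
      have h5 : (((m - a : ℕ) : ℕ) : ℤ) = (m : ℤ) - a := by
        rw [Nat.cast_sub ha.1.le]
      rw [h5]
      congr 3
      rw [← Int.cast_natCast (R := ℝ) (m - a), h5]
  · have hm' : m = 1 := by omega
    subst hm'
    have h6 : (range 1).filter (Nat.Coprime 1) = {0} := by decide
    rw [h6, sum_singleton, sum_singleton, h1]
    have h7 := hM.per 1 0 1 le_rfl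
    simp only [one_mul, Nat.cast_one, zero_add] at h7
    simp only [Nat.cast_zero, Nat.cast_one, sub_zero]
    rw [h7]
    congr 1
    have h8 : -((t : ℝ) * (((1 : ℤ) : ℝ) / 1)) = ((-t : ℤ) : ℝ) + 0 := by
      push_cast
      ring
    rw [h8, e_int_add]
    congr 1
    ring

theorem Ram_ramK (hPP : NS g PP) {m : ℕ} (hm : 1 ≤ m) (t : ℤ) :
    Ram g PP m t = (ramK g PP m t : ℂ) := by
  have h := Ram_conj hPP hm t
  rw [Complex.conj_eq_iff_re] at h
  unfold ramK
  exact h.symm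

theorem abs_ramK_le (hPP : NS g PP) {m : ℕ} (hm : 1 ≤ m) (t : ℤ) : |ramK g PP m t| ≤ m := by
  unfold ramK
  refine (Complex.abs_re_le_norm _).trans ?_
  unfold Ram cR
  refine (norm_sum_le _ _).trans ?_
  have h1 : ∀ a ∈ (range m).filter (Nat.Coprime m),
      ‖GamN g PP a m * e (-((t : ℝ) * ((a : ℝ) / m)))‖ ≤ 1 := by
    intro a _
    rw [norm_mul, norm_e, mul_one]
    exact norm_GamN_le hPP a hm
  refine (sum_le_sum h1).trans ?_
  rw [sum_const, nsmul_eq_mul, mul_one]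
  have h2 := card_filter_le (range m) (Nat.Coprime m)
  rw [card_range] at h2
  exact_mod_cast h2

theorem Ram_shift {m : ℕ} (hm : 1 ≤ m) {t t' : ℤ} (h : (m : ℤ) ∣ t - t') :
    Ram g PP m t = Ram g PP m t' := by
  obtain ⟨c, hc⟩ := h
  have hm0 : (m : ℝ) ≠ 0 := by positivity
  have ht : t = t' + m * c := by linarith
  unfold Ram cR
  refine sum_congr rfl fun a _ => ?_
  congr 1
  have h4 : -((t : ℝ) * ((a : ℝ) / m)) = ((-(c * a) : ℤ) : ℝ) + -((t' : ℝ) * ((a : ℝ) / m)) := by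
    rw [ht]
    push_cast
    field_simp
    ring
  rw [h4, e_int_add]

theorem ramK_shift {m : ℕ} (hm : 1 ≤ m) {t t' : ℤ} (h : (m : ℤ) ∣ t - t') :
    ramK g PP m t = ramK g PP m t' := by
  unfold ramK
  rw [Ram_shift hm h]

/-- mean zero in both variables -/
theorem sum_Ram {m : ℕ} (hm : 2 ≤ m) (t : ℤ) :
    ∑ x ∈ range m, Ram g PP m (t + x) = 0 ∧ ∑ x ∈ range m, Ram g PP m (t - x) = 0 := by
  have hm1 : 1 ≤ m := by omega
  have hm0 : (m : ℝ) ≠ 0 := by positivity
  have key : ∀ a ∈ (range m).filter (Nat.Coprime m), ∀ s : ℤ, (s = 1 ∨ s = -1) →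
      ∑ x ∈ range m, e (-(((t + s * x : ℤ) : ℝ) * ((a : ℝ) / m))) = 0 := by
    intro a ha s hs
    rw [mem_filter, mem_range] at ha
    have h1 : ∀ x ∈ range m, e (-(((t + s * x : ℤ) : ℝ) * ((a : ℝ) / m))) =
        e (-((t : ℝ) * ((a : ℝ) / m))) * e (((-(s * a) : ℤ) : ℝ) * ((x : ℝ) / m)) := by
      intro x _
      rw [← e_add]
      congr 1
      push_cast
      field_simp
      ring
    rw [sum_congr rfl h1, ← mul_sum, echar_orth m hm1, if_neg, mul_zero]
    intro hd
    have h2 : (m : ℤ) ∣ (a : ℤ) := by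
      rcases hs with h | h
      · rw [h, one_mul, dvd_neg] at hd
        exact hd
      · rw [h] at hd
        have h3 : -((-1 : ℤ) * (a : ℤ)) = a := by ring
        rwa [h3] at hd
    have h3 : m ∣ a := by exact_mod_cast h2
    have h4 := Nat.eq_one_of_dvd_coprimes ha.2 dvd_rfl h3
    omega
  constructor
  · unfold Ram cR
    rw [sum_comm]
    refine sum_eq_zero fun a ha => ?_
    rw [← mul_sum]
    have := key a ha 1 (Or.inl rfl)
    simp only [one_mul] at this
    rw [this, mul_zero]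
  · unfold Ram cR
    rw [sum_comm]
    refine sum_eq_zero fun a ha => ?_
    rw [← mul_sum]
    have := key a ha (-1) (Or.inr rfl)
    have h5 : ∀ x : ℕ, t + -1 * (x : ℤ) = t - x := fun x => by ring
    simp only [h5] at this
    rw [this, mul_zero]

theorem sum_ramK {m : ℕ} (hm : 2 ≤ m) (t : ℤ) :
    ∑ x ∈ range m, ramK g PP m (t + x) = 0 ∧ ∑ x ∈ range m, ramK g PP m (t - x) = 0 := by
  obtain ⟨h1, h2⟩ := sum_Ram (g := g) (PP := PP) hm t
  unfold ramK
  rw [← Complex.re_sum, ← Complex.re_sum, h1, h2, Complex.zero_re]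
  exact ⟨rfl, rfl⟩

section site

variable {X : Type*} [Fintype X] {m : ℕ} {v : X → ℕ}

/-- the kernel on the classes mod `m` -/
noncomputable def ooK (g : PL) (PP : Finset ℕ) (m : ℕ) (v : X → ℕ) (x y : X) : ℝ :=
  ramK g PP m ((v x : ℤ) - v y)

theorem ooK_left (hm : 2 ≤ m) (hX : Rs X m v) (y : X) :
    ∑ x, ooK g PP m v x y = 0 := by
  unfold ooK
  have h1 := hX.sum fun i => ramK g PP m ((i : ℤ) - v y)
  rw [h1]
  have h2 := (sum_ramK (g := g) (PP := PP) hm (-(v y : ℤ))).1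
  rw [← h2]
  exact sum_congr rfl fun x _ => by rw [neg_add_eq_sub]

theorem ooK_right (hm : 2 ≤ m) (hX : Rs X m v) (x : X) :
    ∑ y, ooK g PP m v x y = 0 := by
  unfold ooK
  have h1 := hX.sum fun i => ramK g PP m ((v x : ℤ) - i)
  rw [h1]
  exact (sum_ramK (g := g) (PP := PP) hm (v x : ℤ)).2

/-- operator bound with respect to the uniform law -/
theorem ooK_op (hPP : NS g PP) (hm : 1 ≤ m) (hX : Rs X m v) (f : X → ℝ) :
    ∑ a, (Fintype.card X : ℝ)⁻¹ *
      (∑ b, (Fintype.card X : ℝ)⁻¹ * (ooK g PP m v a b * f b)) ^ 2 ≤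
      (m : ℝ) ^ 2 * ∑ b, (Fintype.card X : ℝ)⁻¹ * f b ^ 2 := by
  have hm0 : (0 : ℝ) < m := by exact_mod_cast hm
  have hc : (Fintype.card X : ℝ) = m := hX.card
  have hmi : (0 : ℝ) ≤ (m : ℝ)⁻¹ := inv_nonneg.2 hm0.le
  rw [hc]
  have h1 : ∀ a : X, (∑ b, (m : ℝ)⁻¹ * (ooK g PP m v a b * f b)) ^ 2 ≤
      (m : ℝ) ^ 2 * ∑ b, (m : ℝ)⁻¹ * f b ^ 2 := by
    intro a
    have h2 := sum_mul_sq_le_sq_mul_sq univ (fun b : X => ooK g PP m v a b) f
    have h3 : ∑ b : X, ooK g PP m v a b ^ 2 ≤ (m : ℝ) * (m : ℝ) ^ 2 := by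
      have h4 : ∀ b ∈ (univ : Finset X), ooK g PP m v a b ^ 2 ≤ (m : ℝ) ^ 2 := by
        intro b _
        have := abs_ramK_le (g := g) hPP hm ((v a : ℤ) - v b)
        unfold ooK
        rw [← sq_abs]
        exact pow_le_pow_left₀ (abs_nonneg _) this 2
      refine (sum_le_sum h4).trans ?_
      rw [sum_const, nsmul_eq_mul, card_univ, hc]
    have h5 : (∑ b, (m : ℝ)⁻¹ * (ooK g PP m v a b * f b)) ^ 2 =
        (m : ℝ)⁻¹ ^ 2 * (∑ b, ooK g PP m v a b * f b) ^ 2 := by
      rw [← mul_sum, mul_pow]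
    rw [h5, ← mul_sum]
    have h6 : (∑ b, ooK g PP m v a b * f b) ^ 2 ≤ (m * (m : ℝ) ^ 2) * ∑ b, f b ^ 2 :=
      h2.trans (mul_le_mul_of_nonneg_right h3 (sum_nonneg fun b _ => sq_nonneg _))
    refine (mul_le_mul_of_nonneg_left h6 (by positivity)).trans (le_of_eq ?_)
    field_simp
  refine (sum_le_sum fun a _ => mul_le_mul_of_nonneg_left (h1 a) hmi).trans ?_
  rw [← mul_sum, sum_const, nsmul_eq_mul, card_univ, hc, ← mul_assoc, inv_mul_cancel₀ hm0.ne',
    one_mul]

/-- the kernel class at the site of the modulus -/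
theorem ooK_OB (hPP : NS g PP) (hm : 2 ≤ m) (hX : Rs X m v) :
    H365.OB (fun (_ : Unit) (_ : X) => (Fintype.card X : ℝ)⁻¹) (fun _ => ooK g PP m v)
      (fun _ => 0) (fun _ _ => 0) (fun _ _ => 0) (fun _ => ooK g PP m v) (fun _ => (m : ℝ))
      (fun _ => 0) where
  rho0 _ := Nat.cast_nonneg _
  e0 _ := le_rfl
  split _ a b := by ring
  sl _ b := by
    rw [← mul_sum, ooK_left hm hX, mul_zero]
  sr _ a := by
    rw [← mul_sum, ooK_right hm hX, mul_zero]
  ul _ := by simp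
  ur _ := by simp
  cn _ := by simp
  un _ := by simp
  un' _ := by simp
  sn _ f := ooK_op hPP (by omega) hX f

end site

section opt

universe u1 u2

variable {α : Type u1} {V : Option α → Type u2} [∀ i, Fintype (V i)] {lam : ∀ i, V i → ℝ}
  {K : ∀ i, V i → V i → ℝ} {c : Option α → ℝ} {u u' : ∀ i, V i → ℝ} {s : ∀ i, V i → V i → ℝ}
  {rho ee : Option α → ℝ}

end opt

end Vale.Agent.P042P.H452
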