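import Vale.Agent.P042PQ.H386K5
import Vale.Agent.P042PQ.H452RamK
import Vale.Agent.P042.H452.PairK

set_option autoImplicit false

/-!
P042, prime arguments: port of `P042.H452.PairK` to the pairs (polynomial, linear form).
-/

namespace Vale.Agent.P042P.H452
open Vale.Agent.P042 hiding AuxData AuxData.lam_le AuxData.lam_pos AuxData.natDegree_H DiffFree
  rMax
open Vale.Agent.P042.H452 hiding GamN_conj Ram_conj Ram_ramK Ram_shift Wq_conj abs_ramK_le
  norm_GamN_le ooK ooK_OB ooK_left ooK_op ooK_right pair_ker prSt_F ramK ramK_shift sum_Ram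
  sum_ramK

open Polynomial Finset
open Vale.Agent.P042.SS hiding Gam
open Vale.Agent.P042.H74 hiding GamN GamN_coprime GamN_eq GamN_norm GamN_prime_norm GamN_tiny
  GamN_zero GamN_zero_one GamW GamW_eq_avC GamW_split GamW_zero_one NS NS_fer Ram Ram_mul Ram_one
  Ram_prime Ram_prod Ram_tiny Ram_tiny_zero Ram_zero Ram_zero_of_Wq Wq Wq_mul Wq_per Wq_zero
  Wq_zero_num Wq_zero_tiny avC_om avC_om_single deriv_fer_eval dns dns_fer dns_ge dns_pos
  dvd_deriv_fer fer fer_coeff fer_const fer_eval fer_natDegree kN kN_form kN_per multFam_GamN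
  neg_one_le_kN nonconst_fer om om_ne_zero om_per om_union sum_Ram_tiny sum_Wq
open Vale.Agent.P042P.H74
open Vale.Agent.P042.H954 hiding GamN_le kN_le kN_op kN_per' sum_kN sum_kN_sub sum_kN_sub'
open Vale.Agent.P042P.H954

open Vale.Agent.P042.H599 (cm Law klu)

open Vale.Agent.P042.H386 (OutW kLu refW GP)
open Vale.Agent.P042P.H386 (PrSt ker_kN)

section ext

universe u1 u2

variable {α : Type u1} {V : Option α → Type u2} [∀ i, Fintype (V i)] {lam : ∀ i, V i → ℝ}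

end ext

/-- **kernel half of the pair of laws**, typed sites: reference `refW (lo i)` = the marginals of
the state at the low sites, uniform above -/
theorem pair_ker (k : ℕ) (hk : 1 ≤ k) (α γ : ℝ) (hα : 0 < α) (hα1 : α ≤ 1 / 48)
    (hγ : 14 * α ≤ γ) :
    ∃ K0 : ℝ, 1 ≤ K0 ∧ ∀ (f g : PL) (nu : ℕ → ℝ) (A M : ℕ) (ι : Type) [Fintype ι]
      [DecidableEq ι] (prm : ι → ℕ) (V : ι → Type) [∀ i, Fintype (V i)]
      [∀ i, DecidableEq (V i)] (v : ∀ i, V i → ℕ) (lo : ι → Prop) [DecidablePred lo]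
      (ℓ es : ι → ℝ),
      g.natDegree = k → Law nu A M → Function.Injective prm →
      (∀ i, K0 ≤ prm i ∧ GP g (prm i)) → (∀ i, Rs (V i) (prm i) (v i)) →
      (∀ i x, v i x < prm i) →
      (∀ i, lo i → (∀ t : ℤ, kN g (prm i) t = kN f (prm i) t) ∧
        PrSt f nu A M ((prm i : ℝ) ^ α) (prm i)) →
      (∀ i, Real.exp (ℓ i) = prm i) → (∀ i, es i - Real.log 2 ≤ ℓ i) →
      (∀ i, Real.log 2 ≤ γ * es i) → (∀ i, 5 * Real.log 2 ≤ es i) →
      ∃ (K : ∀ i, V i → V i → ℝ) (e e' : ∀ i, V i → ℝ) (u u' : ∀ i, V i → ℝ)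
        (s : ∀ i, V i → V i → ℝ) (rho ee : ι → ℝ),
        (∀ i, lo i → OutW (fun x => cm nu A M (prm i) (v i x))
          (fun x y => kN g (prm i) ((v i x : ℤ) - v i y)) (K i) (e i) (e' i) (prm i) α) ∧
        (∀ i, ¬ lo i → K i = fun x y => kN g (prm i) ((v i x : ℤ) - v i y)) ∧
        H365.OB (fun i => refW (lo i) nu A M (prm i) (v i)) K (fun _ => 0) u u' s rho ee ∧
        (∀ i x, 0 ≤ refW (lo i) nu A M (prm i) (v i) x) ∧
        (∀ i, ∑ x, refW (lo i) nu A M (prm i) (v i) x = 1) ∧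
        (∀ i, rho i ≤ Real.exp (-(1 / 2) * es i + γ * es i)) ∧
        (∀ i, ee i ≤ Real.exp (-es i + γ * es i)) ∧ ∑ i, ee i ≤ 1 / 32 := by
  obtain ⟨K0, hK0, H⟩ := ker_kN k hk α hα hα1
  refine ⟨K0, hK0, fun f g nu A M ι _ _ prm V _ _ v lo _ ℓ es hg hL hinj hp hRs hv hW hℓ hes hγes
    hes5 => ?_⟩
  obtain ⟨K, e, e', u, u', s, rho, ee, h1, h2, h3, h4, h5, h6⟩ :=
    H f g nu A M ι prm V v lo hg hL hinj hp hRs hv hW
  have hpos : ∀ i, 0 < prm i := fun i => (hp i).2.pr.pos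
  refine ⟨K, e, e', u, u', s, rho, ee, h1, fun i hi => (h2 i hi).1, h3, fun i x => ?_, fun i => ?_,
    fun i => ?_, fun i => ?_, h6⟩
  · unfold refW
    split_ifs
    · exact H599.cm_nonneg hL.nonneg _ _
    · positivity
  · unfold refW
    split_ifs
    · rw [(hRs i).sum fun b => cm nu A M (prm i) b]
      exact H599.sum_cm hL.sum (hpos i)
    · rw [sum_const, card_univ, nsmul_eq_mul, mul_inv_cancel₀]
      rw [(hRs i).card]
      exact_mod_cast (hpos i).ne'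
  · rw [h4 i, ← hℓ i]
    have := hes5 i
    have hl : 0 < Real.log 2 := Real.log_pos (by norm_num)
    exact rho1_of (hes i) (by linarith) hγ (hγes i) hα.le (by linarith)
  · refine (h5 i).trans ?_
    have h7 : (prm i : ℝ) ^ (-(5 / 4 : ℝ)) *
        min 1 (kLu (refW (lo i) nu A M (prm i) (v i))) ≤ (prm i : ℝ) ^ (-(5 / 4 : ℝ)) * 1 :=
      mul_le_mul_of_nonneg_left (min_le_left _ _) (Real.rpow_nonneg (Nat.cast_nonneg _) _)
    refine h7.trans ?_
    rw [mul_one, ← hℓ i]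
    exact e1_of (hes i) (hes5 i) (by linarith)

/-- **from the fields `sup`, `row` of the exported state to `PrSt`** -/
theorem prSt_F {b gr α c0 : ℝ} (hb : b ≤ α) (hgr : gr < α) (hc : 0 < c0) :
    ∃ K0 : ℝ, 1 ≤ K0 ∧ ∀ (f : PL) (nu : ℕ → ℝ) (A M p : ℕ), K0 ≤ p →
      (∀ a, p * cm nu A M p a ≤ (p : ℝ) ^ b) →
      (∀ a, a < p → cm nu A M p a ≠ 0 →
        (p : ℝ) ^ (-gr) / c0 ≤ ∑ c ∈ range p, cm nu A M p c * (1 + kN f p ((a : ℤ) - c)) ∧
        (p : ℝ) ^ (-gr) / c0 ≤ ∑ c ∈ range p, cm nu A M p c * (1 + kN f p ((c : ℤ) - a))) →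
      PrSt f nu A M ((p : ℝ) ^ α) p := by
  have hd : 0 < α - gr := by linarith
  refine ⟨max 1 (c0 ^ (1 / (α - gr))), le_max_left _ _, fun f nu A M p hp hs hr => ?_⟩
  have hp1 : (1 : ℝ) ≤ p := (le_max_left _ _).trans hp
  have hp0 : (0 : ℝ) < p := by linarith
  have h4 : c0 ≤ (p : ℝ) ^ (α - gr) := by
    have h2 := Real.rpow_le_rpow (by positivity) ((le_max_right _ _).trans hp) hd.le
    rwa [← Real.rpow_mul hc.le, one_div, inv_mul_cancel₀ hd.ne', Real.rpow_one] at h2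
  have h5 : ((p : ℝ) ^ α)⁻¹ ≤ (p : ℝ) ^ (-gr) / c0 := by
    rw [Real.rpow_sub hp0, le_div_iff₀ (Real.rpow_pos_of_pos hp0 _)] at h4
    rw [Real.rpow_neg hp0.le, le_div_iff₀ hc]
    have g1 := Real.rpow_pos_of_pos hp0 α
    have g2 := Real.rpow_pos_of_pos hp0 gr
    rw [inv_mul_le_iff₀ g1, ← div_eq_mul_inv, le_div_iff₀ g2]
    linarith
  exact ⟨fun a => (hs a).trans (Real.rpow_le_rpow_of_exponent_le hp1 hb),
    fun a ha h0 => h5.trans (hr a ha h0).1, fun a ha h0 => h5.trans (hr a ha h0).2⟩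

end Vale.Agent.P042P.H452
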