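import Vale.Agent.P042PQ.H74Tiny2
import Vale.Agent.P042.H452.Seam2

set_option autoImplicit false

/-!
P042, prime arguments: port of `P042.H452.Seam2` to the pairs (polynomial, linear form).
-/

namespace Vale.Agent.P042P.H452
open Vale.Agent.P042 hiding AuxData AuxData.lam_le AuxData.lam_pos AuxData.natDegree_H DiffFree
  rMax
open Vale.Agent.P042.H452 hiding PS PS_eq ps_l1

open Polynomial Finset
open Vale.Agent.P042.SS hiding Gam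
open Vale.Agent.P042.H74 hiding GamN GamN_coprime GamN_eq GamN_norm GamN_prime_norm GamN_tiny
  GamN_zero GamN_zero_one GamW GamW_eq_avC GamW_split GamW_zero_one NS NS_fer Ram Ram_mul Ram_one
  Ram_prime Ram_prod Ram_tiny Ram_tiny_zero Ram_zero Ram_zero_of_Wq Wq Wq_mul Wq_per Wq_zero
  Wq_zero_num Wq_zero_tiny avC_om avC_om_single deriv_fer_eval dns dns_fer dns_ge dns_pos
  dvd_deriv_fer fer fer_coeff fer_const fer_eval fer_natDegree kN kN_form kN_per multFam_GamN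
  neg_one_le_kN nonconst_fer om om_ne_zero om_per om_union sum_Ram_tiny sum_Wq
open Vale.Agent.P042P.H74

/-- the pair sum of the kernel `Ram` -/
noncomputable def PS (f : PL) (PP : Finset ℕ) (S1 S2 : Finset ℤ) (F F' : ℤ → ℝ) (q : ℕ) : ℂ :=
  ∑ n ∈ S1, ∑ m ∈ S2, ((F n * F' m : ℝ) : ℂ) * Ram f PP q (n - m)

theorem PS_eq (f : PL) (PP : Finset ℕ) (S1 S2 : Finset ℤ) (F F' : ℤ → ℝ) (q : ℕ) :
    PS f PP S1 S2 F F' q = ∑ a ∈ (range q).filter (Nat.Coprime q),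
      GamN f PP a q * (Sf S1 F ((a : ℝ) / q) * (starRingEnd ℂ) (Sf S2 F' ((a : ℝ) / q))) := by
  have h1 : ∀ a ∈ (range q).filter (Nat.Coprime q),
      GamN f PP a q * (Sf S1 F ((a : ℝ) / q) * (starRingEnd ℂ) (Sf S2 F' ((a : ℝ) / q))) =
      ∑ n ∈ S1, ∑ m ∈ S2, ((F n * F' m : ℝ) : ℂ) *
        (GamN f PP a q * e (-(((n - m : ℤ) : ℝ) * ((a : ℝ) / q)))) := by
    intro a _
    unfold Sf
    rw [map_sum, sum_mul_sum, mul_sum]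
    refine sum_congr rfl fun n _ => ?_
    rw [mul_sum]
    refine sum_congr rfl fun m _ => ?_
    rw [map_mul, conj_e, Complex.conj_ofReal]
    have he : e (-(((n - m : ℤ) : ℝ) * ((a : ℝ) / q))) =
        e (-((n : ℝ) * ((a : ℝ) / q))) * e (- -((m : ℝ) * ((a : ℝ) / q))) := by
      rw [← e_add]
      congr 1
      push_cast
      ring
    rw [he]
    push_cast
    ring
  rw [sum_congr rfl h1, sum_comm]
  unfold PS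
  refine sum_congr rfl fun n _ => ?_
  rw [sum_comm]
  refine sum_congr rfl fun m _ => ?_
  rw [← mul_sum]
  rfl

/-- **the `l^1` bound** for the moduli `D0 * m`, `m ∈ 𝓜` -/
theorem ps_l1 (f : PL) (PP : Finset ℕ) (S1 S2 : Finset ℤ) (N' : ℕ)
    (hS1 : S1 ⊆ Icc (1 : ℤ) N') (hS2 : S2 ⊆ Icc (1 : ℤ) N') (F F' : ℤ → ℝ) (Q : ℕ)
    (hQ : 1 ≤ Q) (D0 : ℕ) (hD0 : 1 ≤ D0) (𝓜 : Finset ℕ) (h1 : ∀ m ∈ 𝓜, 1 ≤ m)
    (hm : ∀ m ∈ 𝓜, m * D0 ≤ Q) (c : ℝ) (hc : 0 ≤ c)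
    (hG : ∀ m ∈ 𝓜, ∀ a : ℤ, IsCoprime a ((m * D0 : ℕ) : ℤ) → ‖GamN f PP a (m * D0)‖ ≤ c) :
    ∑ m ∈ 𝓜, ‖PS f PP S1 S2 F F' (m * D0)‖ ≤
      c * (((N' : ℝ) + (Q : ℝ) ^ 4) * (Real.sqrt (∑ n ∈ S1, F n ^ 2) *
        Real.sqrt (∑ n ∈ S2, F' n ^ 2))) := by
  classical
  have e1 : ∀ m ∈ 𝓜, ‖PS f PP S1 S2 F F' (m * D0)‖ ≤
      c * ∑ a ∈ (range (m * D0)).filter (Nat.Coprime (m * D0)),
        ‖Sf S1 F ((a : ℝ) / ((m * D0 : ℕ) : ℝ))‖ * ‖Sf S2 F' ((a : ℝ) / ((m * D0 : ℕ) : ℝ))‖ := by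
    intro m hmm
    rw [PS_eq, mul_sum]
    refine (norm_sum_le _ _).trans (sum_le_sum fun a ha => ?_)
    rw [mem_filter] at ha
    rw [norm_mul, norm_mul, RCLike.norm_conj]
    exact mul_le_mul_of_nonneg_right (hG m hmm a (Nat.isCoprime_iff_coprime.2 ha.2.symm))
      (by positivity)
  refine (sum_le_sum e1).trans ?_
  rw [← mul_sum]
  refine mul_le_mul_of_nonneg_left ?_ hc
  have e2 : ∑ m ∈ 𝓜, ∑ a ∈ (range (m * D0)).filter (Nat.Coprime (m * D0)),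
        ‖Sf S1 F ((a : ℝ) / ((m * D0 : ℕ) : ℝ))‖ * ‖Sf S2 F' ((a : ℝ) / ((m * D0 : ℕ) : ℝ))‖ ≤
      ∑ q ∈ Icc 1 Q, ∑ a ∈ (range q).filter (Nat.Coprime q),
        ‖Sf S1 F ((a : ℝ) / q)‖ * ‖Sf S2 F' ((a : ℝ) / q)‖ := by
    have e3 : ∑ m ∈ 𝓜, ∑ a ∈ (range (m * D0)).filter (Nat.Coprime (m * D0)),
        ‖Sf S1 F ((a : ℝ) / ((m * D0 : ℕ) : ℝ))‖ * ‖Sf S2 F' ((a : ℝ) / ((m * D0 : ℕ) : ℝ))‖ =
        ∑ q ∈ 𝓜.image (fun m => m * D0), ∑ a ∈ (range q).filter (Nat.Coprime q),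
        ‖Sf S1 F ((a : ℝ) / q)‖ * ‖Sf S2 F' ((a : ℝ) / q)‖ := by
      rw [sum_image]
      intro x _ y _ hxy
      exact Nat.eq_of_mul_eq_mul_right hD0 hxy
    rw [e3]
    refine sum_le_sum_of_subset_of_nonneg ?_ fun q _ _ => sum_nonneg fun a _ => by positivity
    intro q hq
    rw [mem_image] at hq
    obtain ⟨m, hmm, rfl⟩ := hq
    exact mem_Icc.2 ⟨Nat.mul_pos (h1 m hmm) hD0, hm m hmm⟩
  refine e2.trans ?_
  have e4 := Real.sum_mul_le_sqrt_mul_sqrt ((Icc 1 Q).sigma fun q => (range q).filter (Nat.Coprime q))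
    (fun x => ‖Sf S1 F ((x.2 : ℝ) / x.1)‖) (fun x => ‖Sf S2 F' ((x.2 : ℝ) / x.1)‖)
  rw [sum_sigma, sum_sigma, sum_sigma] at e4
  refine e4.trans ?_
  have e5 := Real.sqrt_le_sqrt (ls_set S1 N' hS1 F Q hQ)
  have e6 := Real.sqrt_le_sqrt (ls_set S2 N' hS2 F' Q hQ)
  refine (mul_le_mul e5 e6 (Real.sqrt_nonneg _) (Real.sqrt_nonneg _)).trans (le_of_eq ?_)
  have h0 : (0 : ℝ) ≤ (N' : ℝ) + (Q : ℝ) ^ 4 := by positivity
  rw [Real.sqrt_mul h0, Real.sqrt_mul h0]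
  have h2 : Real.sqrt ((N' : ℝ) + (Q : ℝ) ^ 4) * Real.sqrt ((N' : ℝ) + (Q : ℝ) ^ 4) =
      (N' : ℝ) + (Q : ℝ) ^ 4 := Real.mul_self_sqrt h0
  calc Real.sqrt ((N' : ℝ) + (Q : ℝ) ^ 4) * Real.sqrt (∑ n ∈ S1, F n ^ 2) *
        (Real.sqrt ((N' : ℝ) + (Q : ℝ) ^ 4) * Real.sqrt (∑ n ∈ S2, F' n ^ 2))
      = (Real.sqrt ((N' : ℝ) + (Q : ℝ) ^ 4) * Real.sqrt ((N' : ℝ) + (Q : ℝ) ^ 4)) *
        (Real.sqrt (∑ n ∈ S1, F n ^ 2) * Real.sqrt (∑ n ∈ S2, F' n ^ 2)) := by ring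
    _ = _ := by rw [h2]

end Vale.Agent.P042P.H452
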