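import Vale.Agent.P042PQ.H452Seam2
import Vale.Agent.P042PQ.H74SeamD
import Vale.Agent.P042.H452.Seam3

set_option autoImplicit false

/-!
P042, prime arguments: port of `P042.H452.Seam3` to the pairs (polynomial, linear form).
-/

namespace Vale.Agent.P042P.H452
open Vale.Agent.P042 hiding AuxData AuxData.lam_le AuxData.lam_pos AuxData.natDegree_H DiffFree
  rMax
open Vale.Agent.P042.H452 hiding PS PS_eq SeamH SeamH.pos SeamH.prime SeamH.rho0 SeamH.term_bound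
  Tt ps_l1

open Polynomial Finset
open Vale.Agent.P042.SS hiding Gam
open Vale.Agent.P042.H74 hiding GamN GamN_coprime GamN_eq GamN_norm GamN_prime_norm GamN_tiny
  GamN_zero GamN_zero_one GamW GamW_eq_avC GamW_split GamW_zero_one NS NS_fer Ram Ram_index
  Ram_mul Ram_one Ram_prime Ram_prod Ram_tiny Ram_tiny_zero Ram_zero Ram_zero_of_Wq Wq Wq_mul
  Wq_per Wq_zero Wq_zero_num Wq_zero_tiny avC_om avC_om_single deriv_fer_eval dns dns_fer dns_ge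
  dns_pos dvd_deriv_fer fer fer_coeff fer_const fer_eval fer_natDegree kN kN_form kN_per
  multFam_GamN neg_one_le_kN nonconst_fer om om_ne_zero om_per om_union sum_Ram_full sum_Ram_index
  sum_Ram_tiny sum_Wq
open Vale.Agent.P042P.H74

variable {ι : Type*} [Fintype ι] [DecidableEq ι]

/-- one term of the expansion -/
noncomputable def Tt (g : PL) (PP : Finset ℕ) (S1 S2 : Finset ℤ) (w w' : ℤ → ℝ)
    (e e' : ι → ℤ → ℝ) (prm : ι → ℕ) (t : Finset ι × Finset ι × Finset ι) (m2 : ℕ) : ℂ :=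
  PS g PP S1 S2 (fun n => w n * ∏ i ∈ t.2.1, e i n) (fun n => w' n * ∏ i ∈ t.2.2, e' i n)
    ((∏ i ∈ t.1, prm i) * m2)

/-- the hypotheses of the seam -/
structure SeamH (g : PL) (PP T : Finset ℕ) (prm : ι → ℕ) (kw : ℕ → ℕ → ℝ) (ρ b b' : ι → ℝ)
    (e e' : ι → ℤ → ℝ) (S1 S2 : Finset ℤ) (w w' : ℤ → ℝ) (A : ℝ) (N' Q m0 : ℕ) : Prop where
  hPP : NS g PP
  inj : Function.Injective prm
  mem : ∀ i, prm i ∈ PP
  kw0 : ∀ p j, 0 ≤ kw p j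
  hG : ∀ (q : ℕ) (a : ℤ), 1 ≤ q → IsCoprime a (q : ℤ) → ‖GamN g PP a q‖ ≤ kapProd kw q
  hρ : ∀ i, kw (prm i) 1 ≤ ρ i
  b0 : ∀ i, 0 ≤ b i
  b0' : ∀ i, 0 ≤ b' i
  per : ∀ i n, e i (n + prm i) = e i n
  per' : ∀ i n, e' i (n + prm i) = e' i n
  he : ∀ i, ∑ x ∈ range (prm i), e i (x : ℤ) ^ 2 ≤ prm i * b i ^ 2
  he' : ∀ i, ∑ x ∈ range (prm i), e' i (x : ℤ) ^ 2 ≤ prm i * b' i ^ 2
  hS1 : S1 ⊆ Icc (1 : ℤ) N'
  hS2 : S2 ⊆ Icc (1 : ℤ) N'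
  A0 : 0 ≤ A
  hw : ∀ n ∈ S1, |w n| ≤ A
  hw' : ∀ n ∈ S2, |w' n| ≤ A
  Q1 : 1 ≤ Q
  QN : Q ^ 4 ≤ N'
  hm0 : ∀ B : Finset ι, B.card ≤ m0 → ∏ i ∈ B, prm i ≤ N'

namespace SeamH

variable {g : PL} {PP T : Finset ℕ} {prm : ι → ℕ} {kw : ℕ → ℕ → ℝ} {ρ b b' : ι → ℝ}
    {e e' : ι → ℤ → ℝ} {S1 S2 : Finset ℤ} {w w' : ℤ → ℝ} {A : ℝ} {N' Q m0 : ℕ}

omit [Fintype ι] [DecidableEq ι] in
theorem prime (H : SeamH g PP T prm kw ρ b b' e e' S1 S2 w w' A N' Q m0) (i : ι) :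
    (prm i).Prime := (H.hPP _ (H.mem i)).1

omit [Fintype ι] [DecidableEq ι] in
theorem rho0 (H : SeamH g PP T prm kw ρ b b' e e' S1 S2 w w' A N' Q m0) (i : ι) : 0 ≤ ρ i :=
  (H.kw0 _ _).trans (H.hρ i)

omit [Fintype ι] [DecidableEq ι] in
theorem pos (H : SeamH g PP T prm kw ρ b b' e e' S1 S2 w w' A N' Q m0) (B : Finset ι) :
    1 ≤ ∏ i ∈ B, prm i :=
  Nat.one_le_iff_ne_zero.2 (prod_ne_zero_iff.2 fun i _ => (H.prime i).ne_zero)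

/-- the `l^1` bound of one triple -/
theorem term_bound (H : SeamH g PP T prm kw ρ b b' e e' S1 S2 w w' A N' Q m0)
    (t : Finset ι × Finset ι × Finset ι) (h1 : t.2.1.card ≤ m0) (h2 : t.2.2.card ≤ m0)
    (M : ℕ) (hM : M ≤ Q) (𝓜 : Finset ℕ) (h𝓜 : 𝓜 ⊆ Mset T prm M (∏ i ∈ t.1, prm i)) (c : ℝ)
    (hc : ∀ m2 ∈ 𝓜, kapProd kw m2 ≤ c) (hc0 : 0 ≤ c) :
    ∑ m2 ∈ 𝓜, ‖Tt g PP S1 S2 w w' e e' prm t m2‖ ≤
      4 * (N' : ℝ) ^ 2 * A ^ 2 * (c * pr3 ρ b b' t) := by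
  have hmem : ∀ m2 ∈ 𝓜, 1 ≤ m2 ∧ (∏ i ∈ t.1, prm i) * m2 ≤ M ∧ ∀ i, ¬ prm i ∣ m2 := by
    intro m2 hm2
    have := h𝓜 hm2
    unfold Mset at this
    rw [mem_filter, mem_Icc] at this
    exact ⟨this.1.1, this.2.1, this.2.2.2⟩
  have hρB : 0 ≤ ∏ i ∈ t.1, ρ i := prod_nonneg fun i _ => H.rho0 i
  have hbB : 0 ≤ ∏ i ∈ t.2.1, b i := prod_nonneg fun i _ => H.b0 i
  have hbB' : 0 ≤ ∏ i ∈ t.2.2, b' i := prod_nonneg fun i _ => H.b0' i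
  have key := ps_l1 g PP S1 S2 N' H.hS1 H.hS2 (fun n => w n * ∏ i ∈ t.2.1, e i n)
    (fun n => w' n * ∏ i ∈ t.2.2, e' i n) Q H.Q1 (∏ i ∈ t.1, prm i) (H.pos t.1) 𝓜
    (fun m hm => (hmem m hm).1) (fun m hm => by
      rw [mul_comm]
      exact (hmem m hm).2.1.trans hM) ((∏ i ∈ t.1, ρ i) * c) (by positivity) (by
      intro m hm a ha
      obtain ⟨g1, g2, g3⟩ := hmem m hm
      refine (H.hG (m * ∏ i ∈ t.1, prm i) a (Nat.mul_pos g1 (H.pos t.1)) ha).trans ?_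
      rw [mul_comm m, kapProd_index kw prm H.prime H.inj t.1 m fun i _ => g3 i]
      refine mul_le_mul (prod_le_prod (fun i _ => H.kw0 _ _) fun i _ => H.hρ i) (hc m hm)
        (prod_nonneg fun p _ => H.kw0 _ _) hρB)
  have e1 : ∑ m2 ∈ 𝓜, ‖Tt g PP S1 S2 w w' e e' prm t m2‖ =
      ∑ m ∈ 𝓜, ‖PS g PP S1 S2 (fun n => w n * ∏ i ∈ t.2.1, e i n)
        (fun n => w' n * ∏ i ∈ t.2.2, e' i n) (m * ∏ i ∈ t.1, prm i)‖ := by
    refine sum_congr rfl fun m _ => ?_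
    unfold Tt
    rw [mul_comm]
  rw [e1]
  refine key.trans ?_
  have g1 := l2_term prm H.prime H.inj e H.per b H.b0 H.he t.2.1 N' (H.hm0 _ h1) S1 H.hS1 w A
    H.A0 H.hw
  have g2 := l2_term prm H.prime H.inj e' H.per' b' H.b0' H.he' t.2.2 N' (H.hm0 _ h2) S2 H.hS2
    w' A H.A0 H.hw'
  have hN : (0 : ℝ) ≤ N' := Nat.cast_nonneg _
  have hA := H.A0
  have g3 : (N' : ℝ) + (Q : ℝ) ^ 4 ≤ 2 * N' := by
    have : ((Q ^ 4 : ℕ) : ℝ) ≤ N' := by exact_mod_cast H.QN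
    push_cast at this
    linarith
  have g4 : Real.sqrt (∑ n ∈ S1, (w n * ∏ i ∈ t.2.1, e i n) ^ 2) *
      Real.sqrt (∑ n ∈ S2, (w' n * ∏ i ∈ t.2.2, e' i n) ^ 2) ≤
      (A * Real.sqrt (2 * N') * ∏ i ∈ t.2.1, b i) *
        (A * Real.sqrt (2 * N') * ∏ i ∈ t.2.2, b' i) :=
    mul_le_mul g1 g2 (Real.sqrt_nonneg _) (by positivity)
  have g5 : (A * Real.sqrt (2 * N') * ∏ i ∈ t.2.1, b i) *
        (A * Real.sqrt (2 * N') * ∏ i ∈ t.2.2, b' i) =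
      2 * N' * A ^ 2 * ((∏ i ∈ t.2.1, b i) * ∏ i ∈ t.2.2, b' i) := by
    have : Real.sqrt (2 * (N' : ℝ)) * Real.sqrt (2 * N') = 2 * N' :=
      Real.mul_self_sqrt (by positivity)
    calc _ = (Real.sqrt (2 * (N' : ℝ)) * Real.sqrt (2 * N')) * A ^ 2 *
          ((∏ i ∈ t.2.1, b i) * ∏ i ∈ t.2.2, b' i) := by ring
      _ = _ := by rw [this]
  rw [g5] at g4
  refine (mul_le_mul_of_nonneg_left (mul_le_mul g3 g4 (by positivity) (by positivity))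
    (by positivity)).trans (le_of_eq ?_)
  unfold pr3
  ring

end SeamH

end Vale.Agent.P042P.H452
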