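import Vale.Agent.P042PQ.H452Seam4
import Vale.Agent.P042.H452.SeamL

set_option autoImplicit false

/-!
P042, prime arguments: port of `P042.H452.SeamL` to the pairs (polynomial, linear form).
-/

namespace Vale.Agent.P042P.H452
open Vale.Agent.P042 hiding AuxData AuxData.lam_le AuxData.lam_pos AuxData.natDegree_H DiffFree
  rMax
open Vale.Agent.P042.H452 hiding FB GamW_eq_GamN PS PS_eq SeamH SeamH.pos SeamH.prime SeamH.rho0
  SeamH.term_bound Tt crossT crossT_eq main_eq ps_l1 seam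

open Polynomial Finset
open Vale.Agent.P042.SS hiding Gam
open Vale.Agent.P042.H74 hiding GamN GamN_coprime GamN_eq GamN_norm GamN_prime_norm GamN_tiny
  GamN_zero GamN_zero_one GamW GamW_eq_avC GamW_split GamW_zero_one NS NS_fer Ram Ram_index
  Ram_mul Ram_one Ram_prime Ram_prod Ram_tiny Ram_tiny_zero Ram_zero Ram_zero_of_Wq Wq Wq_mul
  Wq_per Wq_zero Wq_zero_num Wq_zero_tiny avC_om avC_om_single deriv_fer_eval dns dns_fer dns_ge
  dns_pos dvd_deriv_fer fer fer_coeff fer_const fer_eval fer_natDegree kN kN_form kN_per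
  multFam_GamN neg_one_le_kN nonconst_fer om om_ne_zero om_per om_union sum_Ram_full sum_Ram_index
  sum_Ram_tiny sum_Wq
open Vale.Agent.P042P.H74
open Vale.Agent.P042.H739 hiding Base6 GwTy LOWERF LOWat STat StTy

variable {ι : Type*} [Fintype ι] [DecidableEq ι]

omit [Fintype ι] [DecidableEq ι] in
theorem GamW_eq_GamN (g : PL) (PP : Finset ℕ) (hPP : NS g PP) (a : ℤ) (q : ℕ) :
    GamW g PP a q = ((∏ p ∈ PP, dns g p : ℝ) : ℂ) * GamN g PP a q := by
  have h1 : GamW g PP 0 1 = ((∏ p ∈ PP, dns g p : ℝ) : ℂ) :=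
    GamW_zero_one g PP fun p hp => (hPP p hp).1
  have h2 : (∏ p ∈ PP, dns g p) ≠ 0 := prod_ne_zero_iff.2 fun p hp => ((hPP p hp).2).ne'
  have h3 : ((∏ p ∈ PP, dns g p : ℝ) : ℂ) ≠ 0 := by exact_mod_cast h2
  unfold GamN
  rw [h1, mul_div_cancel₀ _ h3]

end Vale.Agent.P042P.H452
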