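import Vale.Agent.P042PQ.H103MeiF
import Vale.Agent.P042.H945.PLawB

set_option autoImplicit false

/-!
P042, prime arguments: port of `P042.H945.PLawB` to the pairs (polynomial, linear form).
-/

set_option linter.unusedSectionVars false

namespace Vale.Agent.P042P.H945
open Vale.Agent.P042 hiding AuxData AuxData.lam_le AuxData.lam_pos AuxData.natDegree_H DiffFree
  rMax
open Vale.Agent.P042.H945 hiding cell_of_St dc_of_St num_of_St plaw_St

open Finset Polynomial

open Vale.Agent.P042.H599 (cm Law bwt FamOk)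

open Vale.Agent.P042.H779 (marg m1 phi)

open Vale.Agent.P042.H779.Ab.Ll (len)

open Vale.Agent.P042.H858 (pf MFe)

open Vale.Agent.P042.H438 (Rs uw)

open Vale.Agent.P042.H92 (Prm PLaw LF DCl)

open Vale.Agent.P042.H362 (FP QL costF)
open Vale.Agent.P042P.H362 (StF1 AtF)

section

variable {ι : Type*} [Fintype ι] [DecidableEq ι] {V : ι → Type*} [∀ i, Fintype (V i)]
  [∀ i, DecidableEq (V i)] {q : ι → ℕ} {r : ∀ i, ℕ → V i}

variable {S : Finset ι} {W : Finset ℕ} {mu : ℕ → ℝ} {M D0 w0 u v : ℕ} {κ' : Type} {qp : FP}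
  {fm : Vale.Agent.P042.H599.Fam κ'} {f : PL} {Dm Lq : ℝ} {Q : Prm}

theorem cell_of_St (st : AtF W qp f M mu Dm) (ql : QL W qp M mu Dm Lq)
    (C : WCell S q r W mu M D0 w0 u v) (K : WNum Q W qp D0 M Dm Lq) :
    CellIn S q r W qp.g qp.ga qp.b qp.be mu M (Real.exp Lq) Dm D0 w0 u v where
  rs := C.rs
  law := st.law
  nn := st.nn
  mf := by
    intro D w y hD hDM _ hm hth hy hy0 hyK
    have hDp : (0 : ℝ) < D := by exact_mod_cast hD
    refine (ql D w u v y hD ((Real.log_le_iff_le_exp hDp).2 hDM) C.u1 C.vM ?_ hm hth hy hy0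
      hyK) |>.trans' ?_
    · refine C.big.trans (mul_le_mul_of_nonneg_right ?_ (Nat.cast_nonneg _))
      rw [← Real.log_le_iff_le_exp (by norm_num)]
      exact K.Dm100
    · refine add_le_add le_rfl (le_of_eq ?_)
      refine Finset.sum_congr (Finset.filter_congr fun p hp => ?_) fun _ _ => rfl
      exact ((C.prime p hp).coprime_iff_not_dvd).symm
  atom := st.atom
  sup := st.sup
  prime := C.prime
  inS := C.inS
  outS := C.outS
  cop := C.cop
  copW := C.copW
  D1 := C.D1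
  m0 := C.m0 st.law
  Vpos := by
    have := C.Vp st.law
    exact_mod_cast this
  be0 := K.be0

theorem num_of_St (st : AtF W qp f M mu Dm) (C : WCell S q r W mu M D0 w0 u v)
    (K : WNum Q W qp D0 M Dm Lq) :
    CellNum Q S q qp.g qp.ga qp.b qp.be mu M (Real.exp Lq) Dm D0 w0 u v := by
  have hM := C.Mp st.law
  have hV := C.Vp st.law
  have hD := C.D0p
  have hm := C.m0 st.law
  have hlV := C.logV st.law
  have hlV0 := C.logV0 st.law
  have hden : Real.log (1 / 2) ≤
      Real.log (D0 * ms mu M (cl D0 w0 u v) * M / ((v + 1 - u : ℕ) : ℝ)) := by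
    refine Real.log_le_log (by norm_num) ?_
    rw [le_div_iff₀ hV]
    linarith [C.dens]
  rw [one_div, Real.log_inv] at hden
  have hlD : 0 ≤ Real.log (D0 : ℝ) := Real.log_natCast_nonneg _
  refine ⟨fun i hi => K.γ1 _ (C.inS i hi), K.gγ, K.bγ, K.beγ, ?_, ?_, ?_, ?_, ?_⟩
  · have h1 : qp.be * (Real.log D0 + (Real.log M - Real.log ((v + 1 - u : ℕ) : ℝ)) + 1) ≤
        qp.be * (Real.log D0 + Real.log 100 + 1) :=
      mul_le_mul_of_nonneg_left (by linarith) K.be0
    have h2 := K.a0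
    linarith
  · have h1 : 0 ≤ qp.be * (Real.log D0 + Real.log 100 + 1) :=
      mul_nonneg K.be0 (by
        have : 0 ≤ Real.log (100 : ℝ) := Real.log_nonneg (by norm_num)
        linarith)
    have h2 := K.a0
    have h3 : 0 ≤ Real.log (2 : ℝ) := Real.log_nonneg (by norm_num)
    linarith
  · rw [← Real.exp_log hD, ← Real.exp_add]
    exact Real.exp_le_exp.2 K.hDM
  · have h3 : 0 ≤ Real.log (2 : ℝ) := Real.log_nonneg (by norm_num)
    linarith [K.hDm]
  · have h1 : Real.exp (-Dm) ≤ Real.exp (-(Q.c0 * Real.exp Q.p)) / 2 := by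
      have h2 : Real.exp (-(Q.c0 * Real.exp Q.p)) / 2 =
          Real.exp (-(Q.c0 * Real.exp Q.p) - Real.log 2) := by
        rw [Real.exp_sub, Real.exp_log (by norm_num)]
      rw [h2]
      exact Real.exp_le_exp.2 (by linarith [K.hDm])
    have h3 := C.dens
    have h4 := Real.exp_pos (-(Q.c0 * Real.exp Q.p))
    calc Real.exp (-Dm) * ((v + 1 - u : ℕ) : ℝ)
        ≤ Real.exp (-(Q.c0 * Real.exp Q.p)) / 2 * ((v + 1 - u : ℕ) : ℝ) :=
          mul_le_mul_of_nonneg_right h1 hV.le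
      _ = Real.exp (-(Q.c0 * Real.exp Q.p)) * (((v + 1 - u : ℕ) : ℝ) / 2) := by ring
      _ ≤ Real.exp (-(Q.c0 * Real.exp Q.p)) * (D0 * ms mu M (cl D0 w0 u v) * M) :=
          mul_le_mul_of_nonneg_left h3 h4.le
      _ = _ := by ring

/-- density caps for the moments -/
theorem dc_of_St (st : AtF W qp f M mu Dm) (C : WCell S q r W mu M D0 w0 u v)
    (K : WNum Q W qp D0 M Dm Lq) :
    DCl S (uw q) (pf r (rst mu M (cl D0 w0 u v)) 1 M) (fun i => Real.log (q i)) Q.Λ
      (Q.cD * Real.exp Q.p) := by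
  have hM := C.Mp st.law
  have hV := C.Vp st.law
  have hD := C.D0p
  have hm := C.m0 st.law
  have hV0 : 0 < v + 1 - u := by exact_mod_cast hV
  -- the size of the class
  have hVM : Real.log M ≤ Real.log 100 + Real.log ((v + 1 - u : ℕ) : ℝ) := by
    linarith [C.logV st.law]
  have hΛ := K.lenN
  have h200 : Real.log (200 : ℝ) = Real.log 2 + Real.log 100 := by
    rw [← Real.log_mul (by norm_num) (by norm_num)]
    norm_num
  have hNlow : 2 * Real.exp Q.Λ ^ 4 ≤ ((v + 1 - u : ℕ) : ℝ) / D0 := by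
    rw [← Real.exp_nat_mul, le_div_iff₀ hD]
    have h1 : 2 * Real.exp (((4 : ℕ) : ℝ) * Q.Λ) * D0 =
        Real.exp (Real.log 2 + 4 * Q.Λ + Real.log D0) := by
      rw [Real.exp_add, Real.exp_add, Real.exp_log (by norm_num), Real.exp_log hD]
      norm_num
    rw [h1, ← Real.le_log_iff_exp_le hV]
    linarith
  -- the class and its elements
  intro A U _ hAU b T hT hTd e k hk hE
  have hsupp : ∀ i < M, rst mu M (cl D0 w0 u v) (1 + i) ≠ 0 →
      ∃ j < (v + 1 - u) / D0 + 1, 1 + i = (u + (D0 + w0 - u % D0) % D0) + D0 * j := by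
    intro i _ hne
    have hcl : cl D0 w0 u v (1 + i) := by
      by_contra hcon
      unfold rst at hne
      rw [if_neg hcon] at hne
      exact hne rfl
    obtain ⟨h1, h2, h3⟩ := hcl
    have hD1 := C.D1
    have hlt : (D0 + w0 - u % D0) % D0 < D0 := Nat.mod_lt _ (by omega)
    have hum : u % D0 < D0 := Nat.mod_lt _ (by omega)
    -- the difference is a multiple of D0
    obtain ⟨s, hs⟩ : ∃ s, s = (D0 + w0 - u % D0) % D0 := ⟨_, rfl⟩
    have hmod : (u + s) % D0 = w0 := by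
      rw [hs, Nat.add_mod, Nat.mod_mod, ← Nat.add_mod]
      have h4 : u + (D0 + w0 - u % D0) = w0 + D0 * (u / D0 + 1) := by
        have h5 := Nat.div_add_mod u D0
        have h6 : D0 * (u / D0 + 1) = D0 * (u / D0) + D0 := by ring
        omega
      rw [h4, Nat.add_mul_mod_self_left, Nat.mod_eq_of_lt C.w]
    have hge : u + s ≤ 1 + i := by
      by_contra hcon
      rw [not_le] at hcon
      have h7 : (1 + i) ≡ u + s [MOD D0] := by
        unfold Nat.ModEq
        rw [h3, hmod]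
      have h8 : D0 ∣ (u + s) - (1 + i) := (Nat.modEq_iff_dvd' hcon.le).1 h7
      have h9 : (u + s) - (1 + i) < D0 := by rw [hs]; omega
      have h10 := Nat.eq_zero_of_dvd_of_lt h8 h9
      omega
    have h7 : u + s ≡ (1 + i) [MOD D0] := by
      unfold Nat.ModEq
      rw [h3, hmod]
    obtain ⟨j, hj⟩ := (Nat.modEq_iff_dvd' hge).1 h7
    refine ⟨j, ?_, ?_⟩
    · have h8 : D0 * j ≤ v + 1 - u := by omega
      have h9 : j ≤ (v + 1 - u) / D0 := by
        rw [Nat.le_div_iff_mul_le (by omega)]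
        linarith [mul_comm D0 j]
      omega
    · rw [← hs]
      omega
  have hκ0 : (0 : ℝ) ≤ 4 * Real.exp (32 * Dm) * D0 / ((v + 1 - u : ℕ) : ℝ) := by positivity
  have hcap : ∀ i < M, rst mu M (cl D0 w0 u v) (1 + i) ≤
      4 * Real.exp (32 * Dm) * D0 / ((v + 1 - u : ℕ) : ℝ) := by
    intro i _
    unfold rst
    split_ifs with h
    · have h1 := st.cap (1 + i)
      change mu (1 + i) / ms mu M (cl D0 w0 u v) ≤ _
      rw [div_le_div_iff₀ hm hV]
      have h2 : mu (1 + i) ≤ 2 * Real.exp (32 * Dm) / M := by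
        rw [le_div_iff₀ hM]; linarith
      have h3 : ((v + 1 - u : ℕ) : ℝ) ≤ 2 * (D0 * ms mu M (cl D0 w0 u v) * M) := by
        linarith [C.dens]
      calc mu (1 + i) * ((v + 1 - u : ℕ) : ℝ)
          ≤ 2 * Real.exp (32 * Dm) / M * (2 * (D0 * ms mu M (cl D0 w0 u v) * M)) :=
            mul_le_mul h2 h3 hV.le (by positivity)
        _ = 4 * Real.exp (32 * Dm) * D0 * ms mu M (cl D0 w0 u v) := by
            field_simp
            ring
    · exact hκ0
  have hfl : (((v + 1 - u) / D0 : ℕ) : ℝ) ≤ ((v + 1 - u : ℕ) : ℝ) / D0 := Nat.cast_div_le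
  have hN : 2 * Real.exp Q.Λ ^ 4 ≤ (((v + 1 - u) / D0 + 1 : ℕ) : ℝ) := by
    refine hNlow.trans ?_
    have h1 := Nat.lt_floor_add_one (((v + 1 - u : ℕ) : ℝ) / D0)
    rw [Nat.floor_div_natCast, Nat.floor_natCast] at h1
    push_cast
    exact h1.le
  have h1V : 1 ≤ ((v + 1 - u : ℕ) : ℝ) / D0 := by
    refine le_trans ?_ hNlow
    have h1 : 1 ≤ Real.exp Q.Λ ^ 4 := one_le_pow₀ (Real.one_le_exp K.Λ0)
    linarith
  have hDD : 2 * (4 * Real.exp (32 * Dm) * D0 / ((v + 1 - u : ℕ) : ℝ)) *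
      (((v + 1 - u) / D0 + 1 : ℕ) : ℝ) ≤ Real.exp (Q.cD * Real.exp Q.p) := by
    have h1 : (((v + 1 - u) / D0 + 1 : ℕ) : ℝ) ≤ 2 * (((v + 1 - u : ℕ) : ℝ) / D0) := by
      push_cast at hfl ⊢
      linarith
    calc 2 * (4 * Real.exp (32 * Dm) * D0 / ((v + 1 - u : ℕ) : ℝ)) *
        (((v + 1 - u) / D0 + 1 : ℕ) : ℝ)
        ≤ 2 * (4 * Real.exp (32 * Dm) * D0 / ((v + 1 - u : ℕ) : ℝ)) *
          (2 * (((v + 1 - u : ℕ) : ℝ) / D0)) := mul_le_mul_of_nonneg_left h1 (by positivity)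
      _ = 16 * Real.exp (32 * Dm) := by field_simp; ring
      _ = Real.exp (Real.log 16 + 32 * Dm) := by
          rw [Real.exp_add, Real.exp_log (by norm_num)]
      _ ≤ Real.exp (Q.cD * Real.exp Q.p) := by
          refine Real.exp_le_exp.2 ?_
          have h2 : Real.log (16 : ℝ) ≤ Real.log 1600 :=
            Real.log_le_log (by norm_num) (by norm_num)
          linarith [K.cD]
  refine H438.dcl0 C.rs (by have := C.D1; omega) hκ0 (fun i => (C.cop i).symm) hsupp hcap
    (fun i => rfl) hN hDD hAU b (fun E x y h => hT E fun i hi => h i (by exact_mod_cast hi))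
    (Or.inl hk) fun E h1 h2 => ?_
  refine le_trans ?_ (hE E h1 h2)
  have h3 : 0 ≤ k * len (fun i => Real.log (q i)) E :=
    mul_nonneg (Nat.cast_nonneg _) (sum_nonneg fun i _ => Real.log_natCast_nonneg _)
  linarith

/-- **`H92.PLaw` from the state at a window cell**; `hfam` : the families of the state -/
theorem plaw_St (st : StF1 W qp fm f M mu Dm Lq) {Mm : ℕ} (hf : FamOk fm Mm)
    (C : WCell S q r W mu M D0 w0 u v) (K : WNum Q W qp D0 M Dm Lq) (es : ι → ℝ)
    (hfam : ∀ m n : ℕ, 1 ≤ m → (m : ℝ) ≤ Real.exp (2 * Q.d1 * Q.p) → 1 ≤ n →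
      n * Real.log 2 ≤ Q.C1 * Q.p + 1 → (∃ i ∈ S, es i ≤ n * Real.log 2) →
      ∃ k ∈ fm.F, (∀ p ∈ fm.W k, p.Coprime D0 ∧ ∃ i, q i = p) ∧
        10 ≤ LF m n ∧ 40000 * LF m n ^ 2 ≤ fm.ω k * fm.K k ∧
        72 * Q.a0 * LF m n ^ 2 ≤ fm.ω k * fm.K k ∧ 6 * LF m n ≤ Dm ∧
        (∃ q0, ∑ R ∈ (fm.W k).powerset with ¬ ∏ p ∈ R, p ≤ fm.B k, bwt (fm.t k) (fm.W k) R ≤ q0 ∧
          1408 * q0 * LF m n ≤ 1) ∧
        ∀ i ∈ S, es i ≤ n * Real.log 2 → q i ∈ fm.W k ∧
          H365.rate ((1 - Q.G) * Q.p) (es i) / ((m : ℝ) * n) ^ Q.CK ≤ fm.t k (q i)) :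
    PLaw Q S (fun i => Real.log (q i)) es (lamR S q r mu M) (uw q)
      (pf r (rst mu M (cl D0 w0 u v)) 1 M) := by
  have hat := st.toAtF
  have hM := C.Mp st.law
  have hV := C.Vp st.law
  have hm := C.m0 st.law
  have hcell := cell_of_St hat st.ql C K
  have hnum := num_of_St hat C K
  have hDm0 : 0 ≤ Dm := by
    have : 0 ≤ Real.log (100 : ℝ) := Real.log_nonneg (by norm_num)
    linarith [K.Dm100]
  have hl2 : Real.log (2 : ℝ) ≤ Real.log 100 := Real.log_le_log (by norm_num) (by norm_num)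
  have h100 : 1 ≤ Real.log (100 : ℝ) := by
    rw [Real.le_log_iff_exp_le (by norm_num)]
    have := Real.exp_one_lt_d9
    linarith
  refine plaw_of_cell hcell hnum hDm0 (C.logV0 st.law) ?_ (dc_of_St hat C K) ?_
  · refine H103.mei_StF st hf (fun p hp => (C.prime p hp).pos) K.be0 C.rs.pos C.rs.cop ?_
      C.rs.r_iff C.D1 K.D0s C.u1 C.vM ?_ C.cop (a0 := Real.log 2) (a1 := Q.a0)
      (Real.log_nonneg (by norm_num)) (hl2.trans K.Dm100) ?_ ?_ Q S es hfam
    · intro i j hij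
      by_contra hne
      have h1 : (q i).Coprime (q j) := C.rs.cop hne
      rw [← hij, Nat.coprime_self] at h1
      have := C.rs.two i
      omega
    · refine C.big.trans (mul_le_mul_of_nonneg_right ?_ (Nat.cast_nonneg _))
      rw [← Real.log_le_iff_le_exp (by norm_num)]
      exact K.Dm100
    · have h1 : H103.coF W qp M D0 u v ≤ qp.be * (Real.log D0 + Real.log 100 + 1) := by
        unfold H103.coF costF
        have h2 : ∑ p ∈ W with p ∣ D0, (p : ℝ) ^ (-qp.ga) = 0 := by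
          rw [Finset.filter_false_of_mem fun p hp => C.copW p hp, Finset.sum_empty]
        rw [h2, add_zero]
        exact mul_le_mul_of_nonneg_left (by linarith [C.logV st.law]) K.be0
      linarith [K.a0]
    · rw [Real.exp_neg, Real.exp_log (by norm_num)]
      linarith [C.dens]
  · refine H540.hlev_of es hcell (P := Real.exp Q.p) (κ := qp.kp / 64) (by rw [Real.log_exp])
      st.cap K.C1 K.b0 (fun i hi => K.top _ (C.inS i hi)) (h100.trans K.Dm100) K.DmP K.logM ?_ ?_
      K.γ2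
    · rw [Real.log_exp]; exact K.p8
    · rw [Real.log_exp]; exact K.p16

end

end Vale.Agent.P042P.H945
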