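import Vale.Agent.P042PQ.H860Glue
import Vale.Agent.P042PQ.H945PLawB
import Vale.Agent.P042.H599.CellD

set_option autoImplicit false

/-!
P042, prime arguments: port of `P042.H599.CellD` to the pairs (polynomial, linear form).
-/

namespace Vale.Agent.P042P.H599
open Vale.Agent.P042 hiding AuxData AuxData.lam_le AuxData.lam_pos AuxData.natDegree_H DiffFree
  rMax
open Vale.Agent.P042.H599 hiding ok_cop_of ok_cop_site ok_h0 ok_q0_prime

open Finset
open Vale.Agent.P042.H739 hiding Base6 CELLS GWk GwTy HLOC HLOCat LOWERF LOWat STat StTy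
  lowat_congr lowat_ofP lowerF_of lower_at seamH_of
open Vale.Agent.P042P.H739
open Vale.Agent.P042.H359
open Vale.Agent.P042.H860 hiding Inst Inst.PP Inst.S1 Inst.S2 Inst.f1 Inst.f2 Inst.g Inst.m1
  Inst.m2 Inst.nu1 Inst.nu2 Inst.q0 Inst.q1 Inst.w' Ok Ok.NS Ok.PP_eq Ok.gdeg Ok.gp Ok.gpg
  Ok.not_dvd_q1 Ok.q0_pos Ok.q1_pos lo loEquiv
open Vale.Agent.P042P.H860

open Vale.Agent.P042.H945 (cl ms WCell)

open Vale.Agent.P042.H438 (Rs)

section

variable {I : Inst} {κ : ℝ}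

theorem ok_q0_prime (h : H860.Ok I κ) {p : ℕ} (hp : p.Prime) (hd : p ∣ I.q0) : p ≤ I.K0 :=
  (mem_Tst.1 (h.tiny.mem_of_dvd_qnul hp hd)).2

/-- a number without prime factors up to `K0` is coprime to the modulus -/
theorem ok_cop_of (h : H860.Ok I κ) {m : ℕ} (hm : ∀ p ∈ Tst I.K0, ¬ p ∣ m) :
    m.Coprime I.q0 := by
  refine Nat.Coprime.symm (Nat.coprime_of_dvd' fun p hp h1 h2 => ?_)
  exact absurd h2 (hm p (mem_Tst.2 ⟨hp, ok_q0_prime h hp h1⟩))

theorem ok_cop_site (h : H860.Ok I κ) {p : ℕ} (hp : p ∈ Typ I.K0 I.C1 I.P) :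
    p.Coprime I.q0 := by
  have h1 := mem_Typ.1 hp
  rw [h1.2.1.coprime_iff_not_dvd]
  intro hd
  have h2 := ok_q0_prime h h1.2.1 hd
  omega

variable {K0 : ℕ} {C1 P : ℝ}

theorem ok_h0 (h : H860.Ok I κ) : 1 ≤ I.h0 := by
  have h1 : (0 : ℝ) < I.N := lt_of_lt_of_le (Real.exp_pos _) h.base.lo
  have h2 : 0 < I.N := by exact_mod_cast h1
  have := h.hN
  omega

variable (I)

variable {I}

end

end Vale.Agent.P042P.H599
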