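import Vale.Agent.P042PQ.H739LowF

set_option autoImplicit false

/-!
P042, prime arguments: port of `P042.H739.LowF` to the pairs (polynomial, linear form).
-/

namespace Vale.Agent.P042P.H739
open Vale.Agent.P042 hiding AuxData AuxData.lam_le AuxData.lam_pos AuxData.natDegree_H DiffFree
  rMax
open Vale.Agent.P042.H739 hiding Base6 CELLS GWk GwTy HLOC HLOCat LOWERF LOWat STat StTy
  lowat_congr lowat_ofP lowerF_of lower_at seamH_of

open Polynomial Finset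
open Vale.Agent.P042.SS hiding Gam
open Vale.Agent.P042.H74 hiding GamN GamN_coprime GamN_eq GamN_norm GamN_prime_norm GamN_tiny
  GamN_zero GamN_zero_one GamW GamW_eq_avC GamW_split GamW_zero_one Gam_fer_norm NS NS_fer Ram
  Ram_index Ram_mul Ram_one Ram_prime Ram_prod Ram_tiny Ram_tiny_zero Ram_zero Ram_zero_of_Wq Wq
  Wq_mul Wq_per Wq_zero Wq_zero_num Wq_zero_tiny avC_om avC_om_single deriv_fer_eval dns dns_fer
  dns_ge dns_ge_exp dns_le_one dns_nonneg dns_pos dvd_deriv_fer fer fer_coeff fer_const fer_eval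
  fer_natDegree kN kN_form kN_per multFam_GamN neg_one_le_kN nonconst_fer not_dvd_of_nonconst om
  om_ne_zero om_per om_union prod_dns_ge prod_dns_ge_aux seamG sum_Ram_full sum_Ram_index
  sum_Ram_tiny sum_Wq
open Vale.Agent.P042P.H74
open Vale.Agent.P042.H452 hiding FB GamW_eq_GamN PS PS_eq SeamH SeamH.pos SeamH.prime SeamH.rho0
  SeamH.term_bound Tt crossT crossT_eq main_eq ps_l1 seam
open Vale.Agent.P042P.H452

open Vale.Agent.P042.H245 hiding GWf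
open Vale.Agent.P042.H359

/-- change of the complete sums -/
theorem lowat_congr {C1f : ℕ → ℝ} {k K0 : ℕ} {κ0 thQ P : ℝ} {f : PL} {N' : ℕ} {G : ℤ → ℝ}
    (hfk : f.natDegree = k) (h : LOWat (GWf (C1f k)) K0 κ0 thQ P f N' G) :
    LOWat (GWk C1f) K0 κ0 thQ P f N' G := by
  obtain ⟨q0, z0, H, h0, z, G1, G2, a1, a2, a0, a3, a4, a5, a6, a7, a8, a9, a10, a11, a12, a13, a14,
    a15, a16⟩ := h
  refine ⟨q0, z0, H, h0, z, G1, G2, a1, a2, a0, a3, a4, a5, a6, a7, a8, a9, a10, a11, a12, a13, a14,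
    a15, ?_⟩
  have h4 : GWk C1f (fer f q0 z0) P =
      GWf (C1f k) (fer f q0 z0) P := by
    funext a q
    unfold GWk GWf
    rw [fer_natDegree f _ a1, hfk]
  rw [h4]
  exact a16

/-- **the integer side of the power version**: the lower bound of the cross form at every state
from the masses of the cells and the lower bound of the local sum -/
theorem lowerF_of {K0f Q0f : ℕ → ℕ → ℝ → ℕ} {C1f : ℕ → ℝ} (hC1f : ∀ k, 2 ≤ C1f k) {St : StTy}
    (hK0f : ∀ k R : ℕ, 2 ≤ k → 1 ≤ R → ∀ K00 : ℕ, ∃ κs : ℝ, 0 < κs ∧ ∀ κ : ℝ, 0 < κ → κ ≤ κs →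
      K00 ≤ K0f k R κ)
    (hQ0f : ∀ (k R : ℕ) (κ : ℝ), Q0s k R (K0f k R κ) ≤ Q0f k R κ)
    (hcell : CELLS K0f Q0f St) (hloc : HLOC K0f C1f St) : LOWERF (GWk C1f) St := by
  classical
  intro k R hk hR thQ κ0 hthQ hthQ16 hκ0
  obtain ⟨C1, hC1e⟩ : ∃ x : ℝ, x = C1f k := ⟨_, rfl⟩
  have hC1 : 2 ≤ C1 := by
    rw [hC1e]
    exact hC1f k
  obtain ⟨c, K00, kap, hc0, hc4, hk2, hRK, hkap0, hkap1, hG⟩ := seamG k R hk hR
  obtain ⟨g, θ, κs1, hg0, hg2, hθ0, hθ1, hκs1, hL⟩ := hloc k R hk hR thQ hthQ hthQ16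
  obtain ⟨κs2, hκs2, hCe⟩ := hcell k R hk hR
  obtain ⟨κs3, hκs3, hK0'⟩ := hK0f k R hk hR K00
  obtain ⟨β, hβ⟩ : ∃ x : ℝ, x = min (g * θ / 16) (c * θ / 2) := ⟨_, rfl⟩
  have hβ0 : 0 < β := by
    rw [hβ]
    exact lt_min (by positivity) (by positivity)
  obtain ⟨κ, hκe⟩ : ∃ x : ℝ, x = min (min (min κs1 κs2) κs3) (min (min (κ0 / 8) (1 / 8)) (β / 8)) := ⟨_, rfl⟩
  have hκ : 0 < κ := by
    rw [hκe]
    exact lt_min (lt_min (lt_min hκs1 hκs2) hκs3)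
      (lt_min (lt_min (by positivity) (by norm_num)) (by positivity))
  have hκ1 : κ ≤ κs1 := by
    rw [hκe]; exact (min_le_left _ _).trans ((min_le_left _ _).trans (min_le_left _ _))
  have hκ2 : κ ≤ κs2 := by
    rw [hκe]; exact (min_le_left _ _).trans ((min_le_left _ _).trans (min_le_right _ _))
  have hκ6 : κ ≤ κs3 := by rw [hκe]; exact (min_le_left _ _).trans (min_le_right _ _)
  have hK0 := hK0' κ hκ hκ6
  have hκ3 : κ ≤ κ0 / 8 := by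
    rw [hκe]; exact (min_le_right _ _).trans ((min_le_left _ _).trans (min_le_left _ _))
  have hκ4 : κ ≤ 1 / 8 := by
    rw [hκe]; exact (min_le_right _ _).trans ((min_le_left _ _).trans (min_le_right _ _))
  have hκ5 : κ ≤ β / 8 := by rw [hκe]; exact (min_le_right _ _).trans (min_le_right _ _)
  obtain ⟨ε, hεe⟩ : ∃ x : ℝ, x = min (κ0 / 4) (β / 4) := ⟨_, rfl⟩
  have hε : 0 < ε := by
    rw [hεe]
    exact lt_min (by positivity) (by positivity)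
  have hε1 : ε ≤ κ0 / 4 := by rw [hεe]; exact min_le_left _ _
  have hε2 : ε ≤ β / 4 := by rw [hεe]; exact min_le_right _ _
  obtain ⟨P1, hL'⟩ := hL κ hκ hκ1 ε hε
  obtain ⟨P2, hCe'⟩ := hCe κ hκ hκ2
  obtain ⟨K0, hK0e⟩ : ∃ x : ℕ, x = K0f k R κ := ⟨_, rfl⟩
  rw [← hK0e, ← hC1e] at hL'
  rw [← hK0e] at hCe' hK0
  have hQ0' := hQ0f k R κ
  obtain ⟨Q0, hQ0⟩ : ∃ x : ℕ, x = Q0f k R κ := ⟨_, rfl⟩
  rw [← hK0e] at hQ0'
  rw [← hQ0] at hCe' hQ0'
  obtain ⟨P3, hnum⟩ := (numP g θ c κ κ0 ε thQ Q0 k hg0 hg2 hθ0 hc0 hκ0 hthQ).exists_forall_of_atTop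
  obtain ⟨P4, hdns⟩ := prod_dns_ge k C1 ε (by linarith) hε
  refine ⟨κ, hκ, by linarith, K0, max (max P1 P2) (max P3 P4),
    fun P hP f N' G hfk hfl hfR hfc hB hSt => ?_⟩
  have N := hnum P ((le_max_left _ _).trans ((le_max_right _ _).trans hP))
  have hP1 : 1 ≤ P := N.P1
  have hP0 : 0 < P := by linarith
  have hlg : 0 < Real.log P := by have := N.lg; linarith
  have hTp : ∀ p ∈ Tst K0, p.Prime := fun p hp => (mem_Tst.1 hp).1
  have hTle : ∀ p ∈ Tst K0, p ≤ K0 := fun p hp => (mem_Tst.1 hp).2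
  obtain ⟨z0, hz0lt, hz0⟩ := exists_z0 f R hR (by omega) hfR (Tst K0) hTp
  rw [hfk] at hz0lt hz0
  have hT : TinyD f (Tst K0) (Vp k R) (q1s k R K0) (z0 : ℤ) := ⟨hTp, rfl, hz0⟩
  have hq0pos : 1 ≤ q0s k R K0 f z0 := qnul_pos (z0 : ℤ) hT.q1_pos
  have hq0le : q0s k R K0 f z0 ≤ Q0 := (H758.qnul_le hR hT hTle).trans hQ0'
  have hq0p : ∀ p : ℕ, p.Prime → p ∣ q0s k R K0 f z0 → p ≤ K0 := fun p hp hd =>
    hTle p (hT.mem_of_dvd_qnul hp hd)
  have : NeZero (q0s k R K0 f z0) := ⟨by omega⟩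
  -- the windows
  have hlo : Real.exp (P / 2) ≤ N' := by
    refine le_trans (Real.exp_le_exp.2 ?_) hB.lo
    nlinarith
  have hN64 : 6400 ≤ N' := by
    have h1 : (6400 : ℝ) ≤ N' := by
      refine le_trans ?_ hlo
      rw [← Real.log_le_iff_le_exp (by norm_num)]
      exact N.c5
    exact_mod_cast h1
  obtain ⟨h0, hh0⟩ : ∃ x : ℕ, x = N' / 64 := ⟨_, rfl⟩
  obtain ⟨Hw, hHw⟩ : ∃ x : ℕ, x = N' / 16 + 1 := ⟨_, rfl⟩
  have hh0N : N' ≤ 100 * h0 := by omega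
  obtain ⟨w, hw1, hw2⟩ := two_cells (q := q0s k R K0 f z0) (g := G) (N' := N') (h0 := h0)
    (ε := 1 / 8000) hB.sum
    (fun z V hz hzV hV w => hCe' P ((le_max_right _ _).trans ((le_max_left _ _).trans hP)) f N' G
      hfk hfl hB hSt _ hq0pos hq0le hq0p z V hz hzV (by omega) w)
    (by norm_num) (by norm_num) (by omega) ((3 * Hw + h0 : ℕ) : ℤ) 0 (by omega) (by omega)
    (Or.inr (by omega)) (Or.inr (by omega)) le_rfl (by omega) (Or.inl rfl) (Or.inr (by omega))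
    (f.eval (z0 : ℤ))
  obtain ⟨e, e', b, b', K, hb0, hb0', hper, hper', he, he', hbs, hK, hlow⟩ :=
    hL' P ((le_max_left _ _).trans ((le_max_left _ _).trans hP)) f N' G hfk hfl hfR hfc hB hSt z0 hT
      h0 ((3 * Hw + h0 : ℕ) : ℤ) 0 w (by omega) (by omega) le_rfl (by omega) hh0N hw1 hw2
  obtain ⟨PP, hPPe⟩ : ∃ x : Finset ℕ, x = PPf C1 (fer f (q1s k R K0) z0) P := ⟨_, rfl⟩
  have hPPm : ∀ p ∈ PP, p.Prime ∧ p ∉ Tst K0 := by
    intro p hp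
    rw [hPPe] at hp
    obtain ⟨a1, a2, a3, a4⟩ := mem_PPf.1 hp
    exact ⟨a1, hT.notMem_of_nonconst a3⟩
  obtain ⟨hNS, hnT, hGam, hkw, hρ⟩ := hG f hfk hfl hfR (Tst K0) PP (q1s k R K0) z0
    (fun p hp hd => hT.mem_of_dvd_q1 hp hd)
    (fun p hp hle => mem_Tst.2 ⟨hp, hle.trans hK0⟩) hPPm
  have hdeg : (fer f (q1s k R K0) (z0 : ℤ)).natDegree = k := by
    rw [fer_natDegree f _ hT.q1_pos, hfk]
  have hdn := (hdns P ((le_max_right _ _).trans ((le_max_right _ _).trans hP))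
      (fer f (q1s k R K0) z0) (PPf C1 (fer f (q1s k R K0) z0) P) hdeg
      (fun p hp => mem_PPf.1 hp)).1
  have habs : ∀ n : ℤ, |G n| ≤ Real.exp (κ * P) := fun n => by
    rw [abs_of_nonneg (hB.G0 n)]
    exact hB.le n
  refine lowat_congr hfk ?_
  rw [← hC1e]
  exact lower_at hc0 hg0 hθ0 hθ1 hthQ hthQ16 hκ0 hβ hκ3 hκ5 hε1 hε2 N hfk hT
    hz0lt.le hq0le hdn hPPe
    (fun a1 a2 a3 a4 a5 a6 _ _ a7 a8 => seamH_of hC1 hg0 hP1 hlg hθ0 hθ1 hthQ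
      hthQ16 hkap0 hfk hT hPPe hNS hnT hGam hρ a1 a2 a3 a4 a5 a6 a7 a8 habs hlo) hkw hPPm
    (by omega) (by omega) (by omega) (by omega) (by omega) hh0N w hw1 hw2 e e' b b' K hb0 hb0'
    hper hper' he he' hbs hK hlow

end Vale.Agent.P042P.H739
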