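import Vale.Agent.P042PQ.H74Tiny2
import Vale.Agent.P042.H74.ProdDns

set_option autoImplicit false

/-!
P042, prime arguments: port of `P042.H74.ProdDns` to the pairs (polynomial, linear form).
-/

namespace Vale.Agent.P042P.H74
open Vale.Agent.P042 hiding AuxData AuxData.lam_le AuxData.lam_pos AuxData.natDegree_H DiffFree
  rMax
open Vale.Agent.P042.H74 hiding GamN GamN_coprime GamN_eq GamN_norm GamN_prime_norm GamN_tiny
  GamN_zero GamN_zero_one GamW GamW_eq_avC GamW_split GamW_zero_one NS NS_fer Ram Ram_mul Ram_one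
  Ram_prime Ram_prod Ram_tiny Ram_tiny_zero Ram_zero Ram_zero_of_Wq Wq Wq_mul Wq_per Wq_zero
  Wq_zero_num Wq_zero_tiny avC_om avC_om_single deriv_fer_eval dns dns_fer dns_ge dns_ge_exp
  dns_le_one dns_nonneg dns_pos dvd_deriv_fer fer fer_coeff fer_const fer_eval fer_natDegree kN
  kN_form kN_per multFam_GamN neg_one_le_kN nonconst_fer om om_ne_zero om_per om_union prod_dns_ge
  prod_dns_ge_aux sum_Ram_tiny sum_Wq

open Polynomial Finset

theorem dns_le_one (f : PL) (p : ℕ) : dns f p ≤ 1 := by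
  unfold dns
  apply div_le_one_of_le₀ _ (Nat.cast_nonneg _)
  have h := card_filter_le (range p) (fun z : ℕ => ¬ (p : ℤ) ∣ (Dp f p).eval (z : ℤ))
  rw [card_range] at h
  exact_mod_cast h

theorem dns_nonneg (f : PL) (p : ℕ) : 0 ≤ dns f p := by
  unfold dns
  positivity

/-- exponential form of the density bound -/
theorem dns_ge_exp (f : PL) (p : ℕ) (hp : p.Prime) (hkp : f.natDegree < p)
    (hnc : ∃ j : ℕ, 1 ≤ j ∧ ¬ (p : ℤ) ∣ f.coeff j) :
    Real.exp (-(((f.natDegree : ℝ) + 1) ^ 2 * (1 / p))) ≤ dns f p := by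
  have hk1 : 1 ≤ f.natDegree := by
    obtain ⟨j, hj1, hj⟩ := hnc
    have hne : f.coeff j ≠ 0 := by
      intro h0
      exact hj (h0 ▸ dvd_zero _)
    exact hj1.trans (le_natDegree_of_ne_zero hne)
  have h1 := dns_ge f p hp hk1 hkp hnc
  refine le_trans ?_ h1
  set k : ℝ := (f.natDegree : ℝ) with hk
  have hk1' : (1 : ℝ) ≤ k := by
    rw [hk]
    exact_mod_cast hk1
  have hp1 : k + 1 ≤ (p : ℝ) := by
    rw [hk]
    exact_mod_cast hkp
  have hp0 : (0 : ℝ) < p := by linarith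
  have hy : 0 < 1 - k / p := by
    rw [sub_pos, div_lt_one hp0]
    linarith
  rw [← Real.le_log_iff_exp_le hy]
  have h2 := Real.one_sub_inv_le_log_of_pos hy
  refine le_trans ?_ h2
  have h3 : 1 - k / p = (p - k) / p := by field_simp
  rw [h3, inv_div]
  have h4 : (0 : ℝ) < p - k := by linarith
  have h5 : 1 - (p : ℝ) / (p - k) = -(k / (p - k)) := by
    field_simp
    ring
  rw [h5]
  apply neg_le_neg
  rw [mul_one_div, div_le_div_iff₀ h4 hp0]
  have hk0 : (0 : ℝ) ≤ k := by linarith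
  nlinarith [mul_nonneg hk0 (sub_nonneg.2 hp1), mul_nonneg (mul_nonneg hk0 hk0) (sub_nonneg.2 hp1),
    sub_nonneg.2 hp1]

/-- the product of the densities is at least `exp(-k^2 (1 + C1 log P))` -/
theorem prod_dns_ge_aux (f : PL) (PP : Finset ℕ) (C1 P : ℝ) (hP : 1 ≤ P) (hC1 : 0 ≤ C1)
    (h : ∀ p ∈ PP, p.Prime ∧ f.natDegree < p ∧ (∃ j : ℕ, 1 ≤ j ∧ ¬ (p : ℤ) ∣ f.coeff j) ∧
      (p : ℝ) ≤ P ^ C1) :
    Real.exp (-(((f.natDegree : ℝ) + 1) ^ 2 * (1 + C1 * Real.log P))) ≤ ∏ p ∈ PP, dns f p := by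
  have h1 : Real.exp (-(((f.natDegree : ℝ) + 1) ^ 2 * ∑ p ∈ PP, (1 / (p : ℝ)))) ≤ ∏ p ∈ PP, dns f p := by
    rw [mul_sum, ← sum_neg_distrib, Real.exp_sum]
    apply prod_le_prod
    · intro p _
      exact (Real.exp_pos _).le
    · intro p hp
      obtain ⟨h2, h3, h4, -⟩ := h p hp
      exact dns_ge_exp f p h2 h3 h4
  refine le_trans ?_ h1
  apply Real.exp_le_exp.2
  apply neg_le_neg
  apply mul_le_mul_of_nonneg_left _ (sq_nonneg _)
  have hX1 : (1 : ℝ) ≤ P ^ C1 := Real.one_le_rpow hP hC1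
  have h2 : PP ⊆ Icc 1 ⌊P ^ C1⌋₊ := by
    intro p hp
    obtain ⟨h2, -, -, h5⟩ := h p hp
    rw [mem_Icc]
    exact ⟨h2.one_le, Nat.le_floor h5⟩
  calc ∑ p ∈ PP, (1 / (p : ℝ)) ≤ ∑ p ∈ Icc 1 ⌊P ^ C1⌋₊, (1 / (p : ℝ)) :=
        sum_le_sum_of_subset_of_nonneg h2 (fun p _ _ => by positivity)
    _ = ((harmonic ⌊P ^ C1⌋₊ : ℚ) : ℝ) := by
        rw [harmonic_eq_sum_Icc]
        push_cast
        apply sum_congr rfl
        intro p _
        rw [one_div]
    _ ≤ 1 + Real.log (P ^ C1) := harmonic_floor_le_one_add_log _ hX1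
    _ = 1 + C1 * Real.log P := by rw [Real.log_rpow (by linarith)]

/-- **the product of the densities is subexponentially small at worst** -/
theorem prod_dns_ge (k : ℕ) (C1 κ : ℝ) (hC1 : 0 ≤ C1) (hκ : 0 < κ) :
    ∃ P0 : ℝ, ∀ P : ℝ, P0 ≤ P → ∀ (f : PL) (PP : Finset ℕ), f.natDegree = k →
      (∀ p ∈ PP, p.Prime ∧ f.natDegree < p ∧ (∃ j : ℕ, 1 ≤ j ∧ ¬ (p : ℤ) ∣ f.coeff j) ∧
        p ≤ ⌊P ^ C1⌋₊) →
      Real.exp (-(κ * P)) ≤ ∏ p ∈ PP, dns f p ∧ ∏ p ∈ PP, dns f p ≤ 1 := by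
  obtain ⟨P0, hP0⟩ := log_small (((k : ℝ) + 1) ^ 2) (((k : ℝ) + 1) ^ 2 * C1) κ hκ
  refine ⟨P0, fun P hP f PP hk hPP => ?_⟩
  obtain ⟨h1, h2⟩ := hP0 P hP
  constructor
  · refine le_trans ?_ (prod_dns_ge_aux f PP C1 P h1 hC1 (fun p hp => ?_))
    · apply Real.exp_le_exp.2
      apply neg_le_neg
      rw [hk]
      linarith
    · obtain ⟨h3, h4, h5, h6⟩ := hPP p hp
      refine ⟨h3, h4, h5, ?_⟩
      exact (Nat.le_floor_iff (by positivity)).1 h6
  · apply prod_le_one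
    · intro p _
      exact dns_nonneg f p
    · intro p _
      exact dns_le_one f p

end Vale.Agent.P042P.H74
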