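import Vale.Agent.P042PQ.Base
import Vale.Agent.P042.H74.Ram

set_option autoImplicit false

/-!
P042, prime arguments: port of `P042.H74.Ram` to the pairs (polynomial, linear form).
-/

namespace Vale.Agent.P042P.H74
open Vale.Agent.P042 hiding AuxData AuxData.lam_le AuxData.lam_pos AuxData.natDegree_H DiffFree
  rMax
open Vale.Agent.P042.H74 hiding GamN GamN_coprime GamN_eq GamN_zero_one GamW GamW_eq_avC
  GamW_split GamW_zero_one NS Wq avC_om avC_om_single dns fer fer_coeff fer_eval fer_natDegree om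
  om_per om_union

open Polynomial Finset
open Vale.Agent.P042.SS hiding Gam

theorem om_per (f : PL) (S : Finset ℕ) (M : ℕ) (hM : ∀ p ∈ S, p ∣ M) :
    Per M (fun z => (om f S z : ℂ)) := by
  intro z
  unfold om
  simp only
  congr 1
  refine prod_congr rfl fun p hp => ?_
  have h1 : ((p : ℤ) ∣ (Dp f p).eval (z + M)) ↔ ((p : ℤ) ∣ (Dp f p).eval z) := by
    apply eval_dvd_congr
    obtain ⟨c, hc⟩ := hM p hp
    rw [hc]
    exact ⟨c, by push_cast; ring⟩
  simp only [h1]

theorem avC_om_single (f : PL) (p : ℕ) :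
    avC p (fun z => (om f {p} z : ℂ)) = (dns f p : ℂ) := by
  unfold avC dns om
  simp only [prod_singleton]
  rw [card_filter]
  push_cast
  congr 1
  refine sum_congr rfl fun z _ => ?_
  split_ifs <;> simp_all

theorem om_union (f : PL) (S T : Finset ℕ) (h : Disjoint S T) (z : ℤ) :
    om f (S ∪ T) z = om f S z * om f T z := by
  unfold om
  rw [prod_union h]

theorem avC_om (f : PL) (S : Finset ℕ) (hS : ∀ p ∈ S, p.Prime) :
    avC (∏ p ∈ S, p) (fun z => (om f S z : ℂ)) = ((∏ p ∈ S, dns f p : ℝ) : ℂ) := by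
  classical
  induction S using Finset.induction_on with
  | empty => simp [avC, om]
  | insert p S hp ih =>
    have hpp := hS p (mem_insert_self _ _)
    have hS' : ∀ q ∈ S, q.Prime := fun q hq => hS q (mem_insert_of_mem hq)
    rw [prod_insert hp, prod_insert hp]
    have h1 : ∀ z, (om f (insert p S) z : ℂ) = (om f {p} z : ℂ) * (om f S z : ℂ) := by
      intro z
      rw [insert_eq, om_union f {p} S (by simpa using hp)]
      push_cast
      rfl
    have h2 : (fun z => (om f (insert p S) z : ℂ)) =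
        fun z => (fun z => (om f {p} z : ℂ)) z * (fun z => (om f S z : ℂ)) z := funext h1
    rw [h2, avC_crt _ hpp.one_le _ (om_per f {p} p (by simp))
      (om_per f S _ fun q hq => dvd_prod_of_mem _ hq), avC_om_single, ih hS']
    · push_cast
      rfl
    · apply Nat.Coprime.prod_right
      intro q hq
      exact (Nat.coprime_primes hpp (hS' q hq)).2 (by
        rintro rfl
        exact hp hq)
    · exact Nat.one_le_iff_ne_zero.2 (prod_ne_zero_iff.2 fun q hq => (hS' q hq).ne_zero)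

/-- the part at the primes dividing `q` -/
noncomputable def Wq (f : PL) (PP : Finset ℕ) (a : ℤ) (q : ℕ) : ℂ :=
  avC q (fun z => (om f (PP.filter (fun p => p ∣ q)) z : ℂ) *
    ((nu f PP q z : ℂ) * e (a * ((f.eval z : ℤ) : ℝ) / q)))

theorem GamW_eq_avC (f : PL) (PP : Finset ℕ) (a : ℤ) (q : ℕ) :
    GamW f PP a q = avC (q * ∏ p ∈ PP, p)
      (fun z => (om f PP z : ℂ) *
        ((nu f PP q z : ℂ) * e (a * ((f.eval z : ℤ) : ℝ) / q))) := rfl

theorem GamW_split (f : PL) (PP : Finset ℕ) (hPP : ∀ p ∈ PP, p.Prime) (a : ℤ) (q : ℕ)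
    (hq : 1 ≤ q) :
    GamW f PP a q = Wq f PP a q * ((∏ p ∈ PP.filter (fun p => ¬ p ∣ q), dns f p : ℝ) : ℂ) := by
  classical
  set P1 := PP.filter (fun p => p ∣ q) with hP1
  set P2 := PP.filter (fun p => ¬ p ∣ q) with hP2
  have hdis : Disjoint P1 P2 := disjoint_filter_filter_not _ _ _
  have hun : P1 ∪ P2 = PP := filter_union_filter_not_eq _ _
  have hprod : q * ∏ p ∈ PP, p = (q * ∏ p ∈ P2, p) * ∏ p ∈ P1, p := by
    rw [← hun, prod_union hdis]
    ring
  have h1P : ∀ S ⊆ PP, 1 ≤ ∏ p ∈ S, p := fun S hS =>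
    Nat.one_le_iff_ne_zero.2 (prod_ne_zero_iff.2 fun q hq => (hPP q (hS hq)).ne_zero)
  rw [GamW_eq_avC, hprod]
  have hF : (fun z => (om f PP z : ℂ) *
      ((nu f PP q z : ℂ) * e (a * ((f.eval z : ℤ) : ℝ) / q))) =
      fun z => (fun z => (om f P1 z : ℂ) *
        ((nu f PP q z : ℂ) * e (a * ((f.eval z : ℤ) : ℝ) / q))) z *
        (fun z => (om f P2 z : ℂ)) z := by
    funext z
    simp only
    rw [← hun, om_union f P1 P2 hdis]
    push_cast
    ring
  have hq1 : Per q (fun z => (om f P1 z : ℂ) *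
      ((nu f PP q z : ℂ) * e (a * ((f.eval z : ℤ) : ℝ) / q))) :=
    (om_per f P1 q fun p hp => (mem_filter.1 hp).2).mul (ne_per f PP a q hq)
  have hq2 : Per (∏ p ∈ P2, p) (fun z => (om f P2 z : ℂ)) :=
    om_per f P2 _ fun q hq => dvd_prod_of_mem _ hq
  have hper : Per (q * ∏ p ∈ P2, p) (fun z =>
      (fun z => (om f P1 z : ℂ) *
        ((nu f PP q z : ℂ) * e (a * ((f.eval z : ℤ) : ℝ) / q))) z *
        (fun z => (om f P2 z : ℂ)) z) :=
    (hq1.of_dvd (dvd_mul_right _ _)).mul (hq2.of_dvd (dvd_mul_left _ _))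
  rw [hF, avC_period (h1P P1 (filter_subset _ _)) hper]
  rw [avC_crt _ hq (h1P P2 (filter_subset _ _)) hq1 hq2]
  · rw [avC_om f P2 fun p hp => hPP p (mem_filter.1 hp).1]
    rfl
  · apply Nat.Coprime.prod_right
    intro p hp
    rw [mem_filter] at hp
    exact ((Nat.Prime.coprime_iff_not_dvd (hPP p hp.1)).2 hp.2).symm

theorem GamW_zero_one (f : PL) (PP : Finset ℕ) (hPP : ∀ p ∈ PP, p.Prime) :
    GamW f PP 0 1 = ((∏ p ∈ PP, dns f p : ℝ) : ℂ) := by
  rw [GamW_split f PP hPP 0 1 le_rfl]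
  have h1 : PP.filter (fun p => ¬ p ∣ 1) = PP := by
    apply filter_true_of_mem
    intro p hp h
    exact (hPP p hp).one_lt.ne' (Nat.dvd_one.1 h)
  have h2 : PP.filter (fun p => p ∣ 1) = ∅ := by
    apply filter_false_of_mem
    intro p hp h
    exact (hPP p hp).one_lt.ne' (Nat.dvd_one.1 h)
  rw [h1]
  unfold Wq avC
  rw [h2]
  have he : e 0 = 1 := by
    unfold e
    simp
  simp [om, nu, he]

/-- normalised complete sum -/
noncomputable def GamN (f : PL) (PP : Finset ℕ) (a : ℤ) (q : ℕ) : ℂ :=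
  GamW f PP a q / GamW f PP 0 1

/-- nonsingular residues exist at all primes -/
def NS (f : PL) (PP : Finset ℕ) : Prop := ∀ p ∈ PP, p.Prime ∧ 0 < dns f p

theorem GamN_eq (f : PL) (PP : Finset ℕ) (hPP : NS f PP) (a : ℤ) (q : ℕ) (hq : 1 ≤ q) :
    GamN f PP a q =
      Wq f PP a q / ((∏ p ∈ PP.filter (fun p => p ∣ q), dns f p : ℝ) : ℂ) := by
  classical
  unfold GamN
  rw [GamW_split f PP (fun p hp => (hPP p hp).1) a q hq,
    GamW_zero_one f PP (fun p hp => (hPP p hp).1)]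
  rw [← prod_filter_mul_prod_filter_not PP (fun p => p ∣ q) (dns f)]
  have h2 : (∏ p ∈ PP.filter (fun p => ¬ p ∣ q), dns f p) ≠ 0 :=
    prod_ne_zero_iff.2 fun p hp => ((hPP p (mem_filter.1 hp).1).2).ne'
  have h2' : ((∏ p ∈ PP.filter (fun p => ¬ p ∣ q), dns f p : ℝ) : ℂ) ≠ 0 := by exact_mod_cast h2
  rw [Complex.ofReal_mul, mul_div_mul_right _ _ h2']

theorem GamN_zero_one (f : PL) (PP : Finset ℕ) (hPP : NS f PP) : GamN f PP 0 1 = 1 := by
  unfold GamN
  apply div_self
  rw [GamW_zero_one f PP (fun p hp => (hPP p hp).1)]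
  have : (∏ p ∈ PP, dns f p) ≠ 0 := prod_ne_zero_iff.2 fun p hp => ((hPP p hp).2).ne'
  exact_mod_cast this

theorem GamN_coprime (f : PL) (PP : Finset ℕ) (hPP : NS f PP) (a : ℤ) (q : ℕ) (hq : 1 ≤ q)
    (h : ∀ p ∈ PP, ¬ p ∣ q) : GamN f PP a q = Gam f a q := by
  rw [GamN_eq f PP hPP a q hq]
  unfold Wq
  rw [filter_false_of_mem h]
  unfold avC Gam om
  simp [nu_coprime f PP q h]

end Vale.Agent.P042P.H74
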