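import Vale.Agent.P042PQ.H74Ram
import Vale.Agent.P042.H74.Ram2

set_option autoImplicit false

/-!
P042, prime arguments: port of `P042.H74.Ram2` to the pairs (polynomial, linear form).
-/

namespace Vale.Agent.P042P.H74
open Vale.Agent.P042 hiding AuxData AuxData.lam_le AuxData.lam_pos AuxData.natDegree_H DiffFree
  rMax
open Vale.Agent.P042.H74 hiding GamN GamN_coprime GamN_eq GamN_zero_one GamW GamW_eq_avC
  GamW_split GamW_zero_one NS Ram Ram_mul Wq Wq_mul Wq_per avC_om avC_om_single dns fer fer_coeff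
  fer_eval fer_natDegree multFam_GamN om om_per om_union

open Polynomial Finset
open Vale.Agent.P042.SS hiding Gam

theorem Wq_per (f : PL) (PP : Finset ℕ) (a m : ℤ) (q : ℕ) (hq : 1 ≤ q) :
    Wq f PP (a + m * q) q = Wq f PP a q := by
  unfold Wq
  congr 1
  funext z
  congr 2
  have hq0r : (q : ℝ) ≠ 0 := by
    have : q ≠ 0 := by omega
    exact_mod_cast this
  have h4 : ((a + m * q : ℤ) : ℝ) * ((f.eval z : ℤ) : ℝ) / q =
      a * ((f.eval z : ℤ) : ℝ) / q + ((m * f.eval z : ℤ) : ℝ) := by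
    push_cast
    field_simp
  rw [h4, e_add, e_int, mul_one]

theorem Wq_mul (f : PL) (PP : Finset ℕ) (hPP : ∀ p ∈ PP, p.Prime) (D1 D2 : ℕ) (n u1 u2 : ℤ)
    (h1 : 1 ≤ D1) (h2 : 1 ≤ D2) (hu : u1 * D2 + u2 * D1 = 1) :
    Wq f PP n (D1 * D2) = Wq f PP (n * u1) D1 * Wq f PP (n * u2) D2 := by
  have hc : Nat.Coprime D1 D2 := by
    rw [← Nat.isCoprime_iff_coprime]
    exact ⟨u2, u1, by linarith⟩
  have hD1 : (D1 : ℝ) ≠ 0 := by positivity
  have hD2 : (D2 : ℝ) ≠ 0 := by positivity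
  have hu'' : (u1 : ℝ) * D2 + u2 * D1 = 1 := by exact_mod_cast hu
  unfold Wq
  rw [← avC_crt hc h1 h2
    ((om_per f _ D1 fun p hp => (mem_filter.1 hp).2).mul (ne_per f PP (n * u1) D1 h1))
    ((om_per f _ D2 fun p hp => (mem_filter.1 hp).2).mul (ne_per f PP (n * u2) D2 h2))]
  congr 1
  funext z
  have hset : PP.filter (fun p => p ∣ D1 * D2) =
      PP.filter (fun p => p ∣ D1) ∪ PP.filter (fun p => p ∣ D2) := by
    rw [← filter_or]
    apply filter_congr
    intro p hp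
    exact (hPP p hp).dvd_mul
  have hdis : Disjoint (PP.filter (fun p => p ∣ D1)) (PP.filter (fun p => p ∣ D2)) := by
    rw [disjoint_filter]
    intro p hp hd1 hd2
    exact (hPP p hp).one_lt.ne' (Nat.eq_one_of_dvd_coprimes hc hd1 hd2)
  rw [hset, om_union _ _ _ hdis, nu_mul f PP hc]
  have he : e (n * ((f.eval z : ℤ) : ℝ) / ((D1 * D2 : ℕ) : ℝ)) =
      e (((n * u1 : ℤ) : ℝ) * ((f.eval z : ℤ) : ℝ) / D1) *
        e (((n * u2 : ℤ) : ℝ) * ((f.eval z : ℤ) : ℝ) / D2) := by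
    rw [← e_add]
    congr 1
    push_cast
    field_simp
    linear_combination (-(n : ℝ)) * ((f.eval z : ℤ) : ℝ) * hu''
  rw [he]
  push_cast
  ring

/-- the normalised weighted complete sums form a multiplicative family -/
theorem multFam_GamN (f : PL) (PP : Finset ℕ) (hPP : NS f PP) :
    MultFam (fun D n => GamN f PP n D) where
  per := fun D n m hD => by
    rw [GamN_eq f PP hPP _ D hD, GamN_eq f PP hPP _ D hD, Wq_per f PP n m D hD]
  one := GamN_zero_one f PP hPP
  mul := by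
    intro D1 D2 n u1 u2 h1 h2 hu
    have hc : Nat.Coprime D1 D2 := by
      rw [← Nat.isCoprime_iff_coprime]
      exact ⟨u2, u1, by linarith⟩
    rw [GamN_eq f PP hPP _ _ (Nat.mul_pos h1 h2), GamN_eq f PP hPP _ D1 h1,
      GamN_eq f PP hPP _ D2 h2, Wq_mul f PP (fun p hp => (hPP p hp).1) D1 D2 n u1 u2 h1 h2 hu,
      div_mul_div_comm]
    congr 1
    have hset : PP.filter (fun p => p ∣ D1 * D2) =
        PP.filter (fun p => p ∣ D1) ∪ PP.filter (fun p => p ∣ D2) := by
      rw [← filter_or]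
      apply filter_congr
      intro p hp
      exact (hPP p hp).1.dvd_mul
    have hdis : Disjoint (PP.filter (fun p => p ∣ D1)) (PP.filter (fun p => p ∣ D2)) := by
      rw [disjoint_filter]
      intro p hp hd1 hd2
      exact (hPP p hp).1.one_lt.ne' (Nat.eq_one_of_dvd_coprimes hc hd1 hd2)
    rw [hset, prod_union hdis]
    push_cast
    rfl

/-- twisted sums of the normalised weighted complete sums -/
noncomputable def Ram (f : PL) (PP : Finset ℕ) (D : ℕ) (m : ℤ) : ℂ :=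
  cR (fun D n => GamN f PP n D) D m

theorem Ram_mul (f : PL) (PP : Finset ℕ) (hPP : NS f PP) (D1 D2 : ℕ) (h1 : 1 ≤ D1)
    (h2 : 1 ≤ D2) (hc : Nat.Coprime D1 D2) (m : ℤ) :
    Ram f PP (D1 * D2) m = Ram f PP D1 m * Ram f PP D2 m :=
  cR_mul (multFam_GamN f PP hPP) D1 D2 h1 h2 hc m

end Vale.Agent.P042P.H74
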