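import Vale.Agent.P042PQ.H74Ram3
import Vale.Agent.P042.H74.Ram4

set_option autoImplicit false

/-!
P042, prime arguments: port of `P042.H74.Ram4` to the pairs (polynomial, linear form).
-/

namespace Vale.Agent.P042P.H74
open Vale.Agent.P042 hiding AuxData AuxData.lam_le AuxData.lam_pos AuxData.natDegree_H DiffFree
  rMax
open Vale.Agent.P042.H74 hiding GamN GamN_coprime GamN_eq GamN_norm GamN_prime_norm GamN_zero
  GamN_zero_one GamW GamW_eq_avC GamW_split GamW_zero_one NS Ram Ram_mul Ram_one Ram_prime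
  Ram_prod Ram_zero Wq Wq_mul Wq_per Wq_zero Wq_zero_num avC_om avC_om_single dns fer fer_coeff
  fer_eval fer_natDegree kN kN_form kN_per multFam_GamN neg_one_le_kN om om_ne_zero om_per
  om_union sum_Wq

open Polynomial Finset
open Vale.Agent.P042.SS hiding Gam

/-- size of the normalised weighted complete sums -/
theorem GamN_norm (f : PL) (PP : Finset ℕ) (hPP : NS f PP) (κ : ℕ → ℝ) (kap : ℕ → ℕ → ℝ)
    (hκ0 : ∀ p, 0 ≤ κ p) (hkap0 : ∀ p j, 0 ≤ kap p j)
    (hκ : ∀ p ∈ PP, ∀ a : ℤ, IsCoprime a (p : ℤ) → ‖GamN f PP a p‖ ≤ κ p)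
    (hkap : ∀ (q : ℕ) (a : ℤ), 1 ≤ q → IsCoprime a (q : ℤ) → ‖Gam f a q‖ ≤ kapProd kap q) :
    ∀ (q : ℕ) (a : ℤ), 1 ≤ q → IsCoprime a (q : ℤ) →
      ‖GamN f PP a q‖ ≤ kapProd (kapW PP κ kap) q := by
  intro q a hq ha
  refine norm_le_kapProd (multFam_GamN f PP hPP) (kapW PP κ kap) ?_ ?_ q hq a ha
  · intro p j
    unfold kapW
    split_ifs
    · exact hκ0 p
    · exact le_rfl
    · exact hkap0 p j
  · intro p j a hp hj ha
    unfold kapW
    have hcop : IsCoprime a ((p ^ j : ℕ) : ℤ) := by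
      push_cast
      exact IsCoprime.pow_right ha
    have hpj : 1 ≤ p ^ j := Nat.one_le_iff_ne_zero.2 (pow_ne_zero _ hp.ne_zero)
    split_ifs with h1 h2
    · rw [h2, pow_one]
      exact hκ p h1 a ha
    · have h3 : p ^ 2 ∣ p ^ j := pow_dvd_pow p (by omega)
      have h4 := GamN_zero f PP hPP a (p ^ j) p h1 hpj h3 hcop
      rw [h4, norm_zero]
    · have h3 : ∀ l ∈ PP, ¬ l ∣ p ^ j := by
        intro l hl hd
        have hl' := (hPP l hl).1
        have h4 := hl'.dvd_of_dvd_pow hd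
        rw [(Nat.prime_dvd_prime_iff_eq hl' hp).1 h4] at hl
        exact h1 hl
      have h4 := GamN_coprime f PP hPP a (p ^ j) hpj h3
      rw [h4]
      refine (hkap (p ^ j) a hpj hcop).trans (le_of_eq ?_)
      unfold kapProd
      rw [Nat.primeFactors_prime_pow (by omega) hp, prod_singleton, hp.factorization_pow]
      simp

/-- one prime: from the complete sum to the weighted sum -/
theorem GamN_prime_norm (f : PL) (PP : Finset ℕ) (hPP : NS f PP) (p : ℕ) (hpP : p ∈ PP)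
    (κ s : ℝ) (a : ℤ) (hG : ‖P042.SS.Gam f a p‖ ≤ κ) (hs : 1 - dns f p ≤ s) (hs2 : s ≤ 1 / 2) :
    ‖GamN f PP a p‖ ≤ 2 * (κ + s) := by
  obtain ⟨hp, hd⟩ := hPP p hpP
  have hPP' : ∀ p ∈ PP, p.Prime := fun p hp => (hPP p hp).1
  have hp0 : (0 : ℝ) < p := by exact_mod_cast hp.pos
  rw [GamN_eq f PP hPP a p hp.one_lt.le, filter_dvd_prime PP p hp hpP hPP', prod_singleton,
    norm_div, Complex.norm_real, Real.norm_eq_abs, abs_of_pos hd]
  have hd2 : 1 / 2 ≤ dns f p := by linarith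
  have hW : ‖Wq f PP a p‖ ≤ κ + s := by
    have h1 : Wq f PP a p = P042.SS.Gam f a p -
        (∑ z ∈ range p, (((1 - om f {p} (z : ℤ) : ℝ)) : ℂ) *
          e (a * ((f.eval (z : ℤ) : ℤ) : ℝ) / p)) / p := by
      unfold Wq avC P042.SS.Gam
      rw [filter_dvd_prime PP p hp hpP hPP', ← sub_div, ← sum_sub_distrib]
      congr 1
      refine sum_congr rfl fun z _ => ?_
      simp only [nu_prime f PP hp hpP]
      push_cast
      ring
    rw [h1]
    refine (norm_sub_le _ _).trans (add_le_add hG ?_)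
    rw [norm_div, Complex.norm_natCast, div_le_iff₀ hp0]
    refine (norm_sum_le _ _).trans ?_
    have h2 : ∀ z ∈ range p, ‖(((1 - om f {p} (z : ℤ) : ℝ)) : ℂ) *
        e (a * ((f.eval (z : ℤ) : ℤ) : ℝ) / p)‖ = 1 - om f {p} (z : ℤ) := by
      intro z _
      rw [norm_mul, norm_e, mul_one, Complex.norm_real, Real.norm_eq_abs, abs_of_nonneg]
      unfold om
      rw [prod_singleton]
      split_ifs <;> norm_num
    rw [sum_congr rfl h2, sum_sub_distrib]
    have h3 : ∑ z ∈ range p, om f {p} (z : ℤ) = p * dns f p := by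
      unfold om dns
      simp only [prod_singleton]
      rw [card_filter]
      push_cast
      rw [mul_div_cancel₀ _ hp0.ne']
      refine sum_congr rfl fun z _ => ?_
      split_ifs <;> simp_all
    rw [h3, sum_const, card_range, nsmul_eq_mul, mul_one]
    nlinarith
  rw [div_le_iff₀ hd]
  have h0 := norm_nonneg (Wq f PP a p)
  nlinarith

/-- bilinear form of the kernel with respect to the uniform measure -/
theorem kN_form (f : PL) (PP : Finset ℕ) (hPP : NS f PP) (p : ℕ) (hpP : p ∈ PP) (lam : ℝ)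
    (hlam : 0 ≤ lam) (hG : ∀ a : ℤ, IsCoprime a (p : ℤ) → ‖GamN f PP a p‖ ≤ lam)
    (φ ψ : ℤ → ℝ) :
    |∑ x ∈ range p, ∑ y ∈ range p, φ x * ψ y * kN f p ((x : ℤ) - y)| ≤
      lam * p * (Real.sqrt (∑ x ∈ range p, φ x ^ 2) * Real.sqrt (∑ y ∈ range p, ψ y ^ 2)) := by
  obtain ⟨hp, hd⟩ := hPP p hpP
  have hp1 := hp.one_lt.le
  have hp0 : (0 : ℝ) < p := by exact_mod_cast hp.pos
  have hpc : (p : ℂ) ≠ 0 := by exact_mod_cast hp.ne_zero
  have h1 : ((∑ x ∈ range p, ∑ y ∈ range p, φ x * ψ y * kN f p ((x : ℤ) - y) : ℝ) : ℂ) =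
      ∑ a ∈ Ico 1 p, GamN f PP a p * ((p * ph φ p ((a : ℝ) / p)) *
        (starRingEnd ℂ) (p * ph ψ p ((a : ℝ) / p))) := by
    push_cast
    have h2 : ∀ x ∈ range p, ∀ y ∈ range p, (φ x : ℂ) * ψ y * (kN f p ((x : ℤ) - y) : ℂ) =
        ∑ a ∈ Ico 1 p, GamN f PP a p * (((φ x : ℂ) * e (-((x : ℝ) * ((a : ℝ) / p)))) *
          ((ψ y : ℂ) * e (((y : ℝ) * ((a : ℝ) / p))))) := by
      intro x _ y _
      rw [← Ram_prime f PP hPP p hpP]
      unfold Ram cR
      rw [TT.Ker.coprime_prime_set hp, mul_sum]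
      refine sum_congr rfl fun a _ => ?_
      have he : e (-((((x : ℤ) - (y : ℤ) : ℤ) : ℝ) * ((a : ℝ) / p))) =
          e (-((x : ℝ) * ((a : ℝ) / p))) * e (((y : ℝ) * ((a : ℝ) / p))) := by
        rw [← e_add]
        congr 1
        push_cast
        ring
      rw [he]
      ring
    rw [sum_congr rfl fun x hx => sum_congr rfl fun y hy => h2 x hx y hy]
    rw [sum_congr rfl fun x _ => sum_comm, sum_comm]
    refine sum_congr rfl fun a _ => ?_
    have h3 : (p : ℂ) * ph φ p ((a : ℝ) / p) =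
        ∑ x ∈ range p, (φ x : ℂ) * e (-((x : ℝ) * ((a : ℝ) / p))) := by
      unfold ph
      rw [mul_div_cancel₀ _ hpc]
    have h4 : (starRingEnd ℂ) ((p : ℂ) * ph ψ p ((a : ℝ) / p)) =
        ∑ y ∈ range p, (ψ y : ℂ) * e (((y : ℝ) * ((a : ℝ) / p))) := by
      unfold ph
      rw [mul_div_cancel₀ _ hpc, map_sum]
      refine sum_congr rfl fun y _ => ?_
      rw [map_mul, conj_e, Complex.conj_ofReal]
      congr 2
      ring
    rw [h3, h4, sum_mul_sum, mul_sum]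
    refine sum_congr rfl fun x _ => ?_
    rw [mul_sum]
  have h5 : |∑ x ∈ range p, ∑ y ∈ range p, φ x * ψ y * kN f p ((x : ℤ) - y)| =
      ‖∑ a ∈ Ico 1 p, GamN f PP a p * ((p * ph φ p ((a : ℝ) / p)) *
        (starRingEnd ℂ) (p * ph ψ p ((a : ℝ) / p)))‖ := by
    rw [← h1, Complex.norm_real, Real.norm_eq_abs]
  rw [h5]
  have h6 : ∀ a ∈ Ico 1 p, ‖GamN f PP a p * ((p * ph φ p ((a : ℝ) / p)) *
      (starRingEnd ℂ) (p * ph ψ p ((a : ℝ) / p)))‖ ≤
      lam * p ^ 2 * (‖ph φ p ((a : ℝ) / p)‖ * ‖ph ψ p ((a : ℝ) / p)‖) := by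
    intro a ha
    rw [mem_Ico] at ha
    have hcop : IsCoprime (a : ℤ) (p : ℤ) := by
      rw [Nat.isCoprime_iff_coprime, Nat.coprime_comm, hp.coprime_iff_not_dvd]
      exact Nat.not_dvd_of_pos_of_lt ha.1 ha.2
    rw [norm_mul, norm_mul, RCLike.norm_conj, norm_mul, norm_mul, Complex.norm_natCast]
    have := hG a hcop
    calc _ ≤ lam * ((p : ℝ) * ‖ph φ p ((a : ℝ) / p)‖ * (p * ‖ph ψ p ((a : ℝ) / p)‖)) := by
          gcongr
      _ = _ := by ring
  refine (norm_sum_le _ _).trans ((sum_le_sum h6).trans ?_)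
  rw [← mul_sum]
  have h7 : ∑ a ∈ Ico 1 p, ‖ph φ p ((a : ℝ) / p)‖ * ‖ph ψ p ((a : ℝ) / p)‖ ≤
      Real.sqrt ((∑ x ∈ range p, φ x ^ 2) / p) * Real.sqrt ((∑ x ∈ range p, ψ x ^ 2) / p) := by
    rw [← ph_parseval φ p hp1, ← ph_parseval ψ p hp1]
    have hsub : Ico 1 p ⊆ range p := by
      intro x hx
      rw [mem_Ico] at hx
      exact mem_range.2 hx.2
    refine (sum_le_sum_of_subset_of_nonneg hsub fun _ _ _ => by positivity).trans ?_
    exact Real.sum_mul_le_sqrt_mul_sqrt _ _ _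
  calc lam * (p : ℝ) ^ 2 * ∑ a ∈ Ico 1 p, ‖ph φ p ((a : ℝ) / p)‖ * ‖ph ψ p ((a : ℝ) / p)‖
      ≤ lam * (p : ℝ) ^ 2 * (Real.sqrt ((∑ x ∈ range p, φ x ^ 2) / p) *
        Real.sqrt ((∑ x ∈ range p, ψ x ^ 2) / p)) := by gcongr
    _ = lam * p * (Real.sqrt (∑ x ∈ range p, φ x ^ 2) * Real.sqrt (∑ y ∈ range p, ψ y ^ 2)) := by
        rw [Real.sqrt_div' _ hp0.le, Real.sqrt_div' _ hp0.le]
        have h8 : Real.sqrt p ^ 2 = p := Real.sq_sqrt hp0.le
        have h9 : Real.sqrt p ≠ 0 := (Real.sqrt_pos.2 hp0).ne'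
        field_simp
        rw [h8]
        ring

end Vale.Agent.P042P.H74
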