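import Vale.Agent.P042PQ.H74Ram4
import Vale.Agent.P042.H74.Tiny

set_option autoImplicit false

/-!
P042, prime arguments: port of `P042.H74.Tiny` to the pairs (polynomial, linear form).
-/

namespace Vale.Agent.P042P.H74
open Vale.Agent.P042 hiding AuxData AuxData.lam_le AuxData.lam_pos AuxData.natDegree_H DiffFree
  rMax
open Vale.Agent.P042.H74 hiding GamN GamN_coprime GamN_eq GamN_norm GamN_prime_norm GamN_tiny
  GamN_zero GamN_zero_one GamW GamW_eq_avC GamW_split GamW_zero_one NS Ram Ram_mul Ram_one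
  Ram_prime Ram_prod Ram_tiny Ram_tiny_zero Ram_zero Ram_zero_of_Wq Wq Wq_mul Wq_per Wq_zero
  Wq_zero_num Wq_zero_tiny avC_om avC_om_single deriv_fer_eval dns fer fer_coeff fer_const
  fer_eval fer_natDegree kN kN_form kN_per multFam_GamN neg_one_le_kN om om_ne_zero om_per
  om_union sum_Ram_tiny sum_Wq

open Polynomial Finset
open Vale.Agent.P042.SS hiding Gam

/-- no Fourier coefficients at high powers of tiny primes -/
theorem Wq_zero_tiny {f : PL} {T : Finset ℕ} {V : ℕ → ℕ} {q1 : ℕ} {z0 : ℤ}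
    (h : TinyD f T V q1 z0) (PP : Finset ℕ) (hPP : ∀ p ∈ PP, p.Prime) (hdis : Disjoint T PP)
    (a : ℤ) (D p v : ℕ) (hD : 1 ≤ D) (hp : p ∈ T) (hv : v ≤ V p)
    (hv2 : ¬ ((p ^ (v + 1) : ℕ) : ℤ) ∣ (derivative f.toPolynomial).eval z0)
    (hv1 : ((p ^ v : ℕ) : ℤ) ∣ (derivative f.toPolynomial).eval z0)
    (hpD : p ^ (V p + v + 2) ∣ D) (ha : IsCoprime a (D : ℤ)) :
    Wq (fer f q1 z0) PP a D = 0 := by
  classical
  have hpp := h.prime p hp
  set g := fer f q1 z0 with hg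
  obtain ⟨s, hs⟩ := hpD
  have hs1 : 1 ≤ s := by
    rcases Nat.eq_zero_or_pos s with h0 | h0
    · rw [h0, mul_zero] at hs
      omega
    · exact h0
  -- the cofactor of `q1`
  obtain ⟨w, hw⟩ : p ^ (V p + 1) ∣ q1 := by
    rw [h.q1_eq]
    exact dvd_prod_of_mem (fun p => p ^ (V p + 1)) hp
  have hwp : ¬ p ∣ w := by
    intro hd
    have h1 : q1 = p ^ (V p + 1) * ∏ l ∈ T.erase p, l ^ (V l + 1) := by
      rw [h.q1_eq, mul_prod_erase T (fun l => l ^ (V l + 1)) hp]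
    have h2 : w = ∏ l ∈ T.erase p, l ^ (V l + 1) :=
      Nat.eq_of_mul_eq_mul_left (pow_pos hpp.pos _) (hw.symm.trans h1)
    rw [h2] at hd
    obtain ⟨l, hl, hdl⟩ := (Prime.dvd_finset_prod_iff hpp.prime _).1 hd
    have h3 := hpp.dvd_of_dvd_pow hdl
    exact (ne_of_mem_erase hl) ((Nat.prime_dvd_prime_iff_eq hpp
      (h.prime l (mem_of_mem_erase hl))).1 h3).symm
  -- the derivative along the progression
  have hcong : ∀ x : ℤ, ((p ^ (V p + 1) : ℕ) : ℤ) ∣
      (derivative f.toPolynomial).eval (q1 * x + z0) - (derivative f.toPolynomial).eval z0 := by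
    intro x
    refine Dvd.dvd.trans ?_ (sub_dvd_eval_sub _ _ _)
    have : ((p ^ (V p + 1) : ℕ) : ℤ) ∣ (q1 : ℤ) := by
      rw [hw]
      push_cast
      exact dvd_mul_right _ _
    have h2 : (q1 : ℤ) * x + z0 - z0 = q1 * x := by ring
    rw [h2]
    exact Dvd.dvd.mul_right this _
  have hdv : ∀ x : ℤ, ((p ^ v : ℕ) : ℤ) ∣ (derivative f.toPolynomial).eval (q1 * x + z0) := by
    intro x
    have h1 : ((p ^ v : ℕ) : ℤ) ∣ ((p ^ (V p + 1) : ℕ) : ℤ) := by
      exact_mod_cast pow_dvd_pow p (by omega)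
    have := dvd_add (h1.trans (hcong x)) hv1
    rwa [sub_add_cancel] at this
  choose u hu using hdv
  have hup : ∀ x, ¬ (p : ℤ) ∣ u x := by
    intro x hd
    apply hv2
    have h1 : ((p ^ (v + 1) : ℕ) : ℤ) ∣ ((p ^ (V p + 1) : ℕ) : ℤ) := by
      exact_mod_cast pow_dvd_pow p (by omega)
    have h2 : ((p ^ (v + 1) : ℕ) : ℤ) ∣ (derivative f.toPolynomial).eval (q1 * x + z0) := by
      rw [hu x, pow_succ]
      push_cast
      exact mul_dvd_mul_left _ hd
    have h3 := dvd_sub h2 (h1.trans (hcong x))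
    rwa [sub_sub_cancel] at h3
  have hap : ¬ (p : ℤ) ∣ a := by
    intro hd
    have h1 : (p : ℤ) ∣ (D : ℤ) := by
      have : p ∣ D := by
        rw [hs]
        exact Dvd.dvd.mul_right (dvd_pow_self p (by omega)) _
      exact_mod_cast this
    have := ha.isUnit_of_dvd' hd h1
    rw [Int.isUnit_iff] at this
    rcases this with h | h
    · have := hpp.one_lt
      omega
    · have := hpp.pos
      omega
  unfold Wq
  apply avC_zero (p := p) (s := s) hD hpp
    ((om_per g _ D fun l hl => (mem_filter.1 hl).2).mul (ne_per g PP a D hD))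
    (fun x => a * w * u x)
  · intro z _ hd
    have hpi : Prime (p : ℤ) := Nat.prime_iff_prime_int.1 hpp
    rcases hpi.dvd_or_dvd hd with hd | hd
    · rcases hpi.dvd_or_dvd hd with hd | hd
      · exact hap hd
      · exact hwp (by exact_mod_cast hd)
    · exact hup z hd
  · intro j z
    have hom : (om g (PP.filter (fun l => l ∣ D)) (z + ((s * j : ℕ) : ℤ)) : ℂ) =
        om g (PP.filter (fun l => l ∣ D)) z := by
      have h1 : ∀ l ∈ PP.filter (fun l => l ∣ D), l ∣ s := by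
        intro l hl
        rw [mem_filter] at hl
        have hlp : l ≠ p := by
          rintro rfl
          exact (Finset.disjoint_left.1 hdis hp) hl.1
        have hl2 := hl.2
        rw [hs] at hl2
        refine Nat.Coprime.dvd_of_dvd_mul_left ?_ hl2
        exact Nat.Coprime.pow_right _ ((Nat.coprime_primes (hPP l hl.1) hpp).2 hlp)
      have h2 := (om_per g _ s h1).mul_nat j z
      push_cast at h2 ⊢
      exact h2
    have hnu : nu g PP D (z + ((s * j : ℕ) : ℤ)) = nu g PP D z := by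
      refine nu_congr g PP D fun l hl hlD _ hv' => ?_
      have hlp : l ≠ p := by
        rintro rfl
        apply hv'
        rw [hg, fer_v, hw]
        exact Dvd.dvd.mul_left (by
          exact_mod_cast (dvd_pow_self l (Nat.succ_ne_zero _)).mul_right w) _
      rw [hs] at hlD
      have h2 : l ∣ s := Nat.Coprime.dvd_of_dvd_mul_left
        (Nat.Coprime.pow_right _ ((Nat.coprime_primes hl hpp).2 hlp)) hlD
      rw [add_sub_cancel_left]
      exact_mod_cast h2.mul_right j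
    rw [hom, hnu, mul_assoc, mul_assoc]
    congr 2
    -- the exponential
    have hdvd : D ∣ (q1 * (s * j)) * (q1 * (s * j)) := by
      rw [hs, hw]
      have h1 : p ^ (V p + v + 2) ∣ p ^ (V p + 1) * p ^ (V p + 1) := by
        rw [← pow_add]
        exact pow_dvd_pow p (by omega)
      obtain ⟨c, hc⟩ := h1
      refine ⟨c * (w * w * s * j * j), ?_⟩
      calc p ^ (V p + 1) * w * (s * j) * (p ^ (V p + 1) * w * (s * j))
          = (p ^ (V p + 1) * p ^ (V p + 1)) * (w * w * s * s * j * j) := by ring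
        _ = _ := by
          rw [hc]
          ring
    obtain ⟨c, hc⟩ := eval_shift f D (q1 * (s * j)) (q1 * z + z0) hdvd
    have h1 : g.eval (z + ((s * j : ℕ) : ℤ)) =
        g.eval z + ((q1 * (s * j) : ℕ) : ℤ) * (derivative f.toPolynomial).eval (q1 * z + z0) + D * c := by
      rw [hg, fer_eval, fer_eval, ← hc]
      congr 1
      push_cast
      ring
    rw [h1, hu z]
    have hp0 : (p : ℝ) ≠ 0 := by exact_mod_cast hpp.ne_zero
    have hs0 : (s : ℝ) ≠ 0 := by positivity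
    have hDr : (D : ℝ) = (p : ℝ) ^ (V p + v + 2) * s := by
      rw [hs]
      push_cast
      rfl
    have hqr : (q1 : ℝ) = (p : ℝ) ^ (V p + 1) * w := by
      rw [hw]
      push_cast
      rfl
    have h2 : (a : ℝ) * ((g.eval z + ((q1 * (s * j) : ℕ) : ℤ) * (((p ^ v : ℕ) : ℤ) * u z) +
        D * c : ℤ) : ℝ) / D =
        a * ((g.eval z : ℤ) : ℝ) / D + (((a * w * u z : ℤ) : ℝ) * ((j : ℝ) / p) +
          ((a * c : ℤ) : ℝ)) := by
      push_cast
      rw [hDr, hqr]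
      field_simp
      ring
    rw [h2, e_add, e_add, e_int, mul_one]

section TinyVal

variable {f : PL} {T : Finset ℕ} {V : ℕ → ℕ} {q1 : ℕ} {z0 : ℤ}

theorem GamN_tiny (h : TinyD f T V q1 z0) {PP : Finset ℕ} (hPP : NS (fer f q1 z0) PP)
    (hdis : Disjoint T PP) {q : ℕ} (hq : 1 ≤ q) (hq0 : q ∣ qnul f q1 z0) (a : ℤ) :
    GamN (fer f q1 z0) PP a q = e (a * ((f.eval z0 : ℤ) : ℝ) / q) := by
  rw [GamN_coprime (fer f q1 z0) PP hPP a q hq (h.notdvd (fun p hp => (hPP p hp).1) hdis hq0)]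
  unfold Gam
  have hnu : ∀ z, nu (fer f q1 z0) ∅ q z = 1 := nu_one _ ∅ q fun p hp hd => Or.inr (by
    have h1 := h.mem_of_dvd_qnul hp (hd.trans hq0)
    have h2 : p ∣ q1 := by
      rw [h.q1_eq]
      exact (dvd_pow_self p (by omega)).trans (dvd_prod_of_mem (fun p => p ^ (V p + 1)) h1)
    rw [fer_v]
    exact Dvd.dvd.mul_left (by exact_mod_cast h2) _)
  simp only [hnu, Complex.ofReal_one, one_mul]
  have hqr : (q : ℝ) ≠ 0 := by positivity
  have hqc : (q : ℂ) ≠ 0 := by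
    have : q ≠ 0 := by omega
    exact_mod_cast this
  have h1 : ∀ x ∈ range q, e (a * (((fer f q1 z0).eval (x : ℤ) : ℤ) : ℝ) / q) =
      e (a * ((f.eval z0 : ℤ) : ℝ) / q) := by
    intro x _
    have h2 : ((q : ℕ) : ℤ) ∣ (fer f q1 z0).eval (x : ℤ) - f.eval z0 := by
      refine Dvd.dvd.trans ?_ (fer_const f q1 z0 x)
      exact_mod_cast hq0
    obtain ⟨c, hc⟩ := h2
    have h3 : (fer f q1 z0).eval (x : ℤ) = f.eval z0 + q * c := by linarith
    rw [h3]
    have h4 : (a : ℝ) * ((f.eval z0 + q * c : ℤ) : ℝ) / q =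
        a * ((f.eval z0 : ℤ) : ℝ) / q + ((a * c : ℤ) : ℝ) := by
      push_cast
      field_simp
    rw [h4, e_add, e_int, mul_one]
  rw [sum_congr rfl h1, sum_const, card_range, nsmul_eq_mul]
  field_simp

theorem Ram_tiny (h : TinyD f T V q1 z0) {PP : Finset ℕ} (hPP : NS (fer f q1 z0) PP)
    (hdis : Disjoint T PP) {q : ℕ} (hq : 1 ≤ q) (hq0 : q ∣ qnul f q1 z0) {t : ℤ}
    (ht : ((qnul f q1 z0 : ℕ) : ℤ) ∣ t - f.eval z0) :
    Ram (fer f q1 z0) PP q t = (q.totient : ℂ) := by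
  unfold Ram cR
  have hqr : (q : ℝ) ≠ 0 := by positivity
  obtain ⟨c, hc⟩ : ((q : ℕ) : ℤ) ∣ t - f.eval z0 := Dvd.dvd.trans (by exact_mod_cast hq0) ht
  have h1 : ∀ a ∈ (range q).filter (Nat.Coprime q),
      GamN (fer f q1 z0) PP (a : ℤ) q * e (-((t : ℝ) * ((a : ℝ) / q))) = 1 := by
    intro a _
    rw [GamN_tiny h hPP hdis hq hq0, ← e_add]
    have h3 : t = f.eval z0 + q * c := by linarith
    rw [h3]
    have h4 : ((a : ℤ) : ℝ) * ((f.eval z0 : ℤ) : ℝ) / q +
        -(((f.eval z0 + q * c : ℤ) : ℝ) * ((a : ℝ) / q)) = ((-(a * c) : ℤ) : ℝ) := by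
      push_cast
      field_simp
      ring
    rw [h4, e_int]
  rw [sum_congr rfl h1, sum_const, nsmul_eq_mul, mul_one]
  rfl

theorem Ram_zero_of_Wq (g : PL) (PP : Finset ℕ) (hPP : NS g PP) (D : ℕ) (hD : 1 ≤ D)
    (hW : ∀ a : ℤ, IsCoprime a (D : ℤ) → Wq g PP a D = 0) (t : ℤ) : Ram g PP D t = 0 := by
  unfold Ram cR
  refine sum_eq_zero fun a ha => ?_
  rw [mem_filter] at ha
  have h1 : IsCoprime ((a : ℕ) : ℤ) (D : ℤ) := Nat.isCoprime_iff_coprime.2 ha.2.symm
  simp only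
  rw [GamN_eq g PP hPP _ D hD, hW _ h1, zero_div, zero_mul]

theorem Ram_tiny_zero (h : TinyD f T V q1 z0) {PP : Finset ℕ} (hPP : NS (fer f q1 z0) PP)
    (hdis : Disjoint T PP) {q : ℕ} (hq : 1 ≤ q) (hsm : ∀ p, p.Prime → p ∣ q → p ∈ T)
    (hq0 : ¬ q ∣ qnul f q1 z0) (t : ℤ) : Ram (fer f q1 z0) PP q t = 0 := by
  obtain ⟨p, hpT, v, hv, hv1, hv2, hpq⟩ := h.exists_pow hq hsm hq0
  exact Ram_zero_of_Wq _ PP hPP q hq (fun a ha =>
    Wq_zero_tiny h PP (fun p hp => (hPP p hp).1) hdis a q p v hq hpT hv hv2 hv1 hpq ha) t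

end TinyVal

/-- total sum of the local transforms over `q ≤ Q`, after removal of the tiny primes -/
theorem sum_Ram_tiny {f : PL} {T : Finset ℕ} {V : ℕ → ℕ} {q1 : ℕ} {z0 : ℤ}
    (h : TinyD f T V q1 z0) {PP : Finset ℕ} (hPP : NS (fer f q1 z0) PP)
    (hdis : Disjoint T PP) (Q : ℕ) {t : ℤ} (ht : ((qnul f q1 z0 : ℕ) : ℤ) ∣ t - f.eval z0) :
    ∑ q ∈ Icc 1 Q, Ram (fer f q1 z0) PP q t =
      ∑ d ∈ (qnul f q1 z0).divisors, (d.totient : ℂ) *
        ∑ m ∈ (Icc 1 (Q / d)).filter (fun m => ∀ p ∈ T, ¬ p ∣ m), Ram (fer f q1 z0) PP m t := by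
  classical
  have hT := h.prime
  set g := fer f q1 z0 with hg
  have hq0 : qnul f q1 z0 ≠ 0 := by
    have := qnul_pos (f := f) z0 h.q1_pos
    omega
  -- only the moduli with `T`-part dividing `qnul` matter
  have h1 : ∑ q ∈ Icc 1 Q, Ram g PP q t =
      ∑ q ∈ (Icc 1 Q).filter (fun q => tpart T q ∣ qnul f q1 z0), Ram g PP q t := by
    symm
    apply sum_filter_of_ne
    intro q hq hne
    by_contra hnd
    apply hne
    rw [mem_Icc] at hq
    have h2 : q = tpart T q * (q / tpart T q) := (Nat.mul_div_cancel' (tpart_dvd T hT q)).symm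
    have h3 : 1 ≤ q / tpart T q := by
      rcases Nat.eq_zero_or_pos (q / tpart T q) with h0 | h0
      · rw [h0, mul_zero] at h2
        omega
      · exact h0
    rw [h2, Ram_mul g PP hPP _ _ (tpart_pos T hT q) h3
      (coprime_tpart T hT q _ (not_dvd_div_tpart T hT q hq.1)),
      Ram_tiny_zero h hPP hdis (tpart_pos T hT q) (tpart_smooth T hT q) hnd, zero_mul]
  rw [h1]
  have h2 : ∀ d ∈ (qnul f q1 z0).divisors, (d.totient : ℂ) *
        ∑ m ∈ (Icc 1 (Q / d)).filter (fun m => ∀ p ∈ T, ¬ p ∣ m), Ram g PP m t =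
      ∑ m ∈ (Icc 1 (Q / d)).filter (fun m => ∀ p ∈ T, ¬ p ∣ m), Ram g PP (d * m) t := by
    intro d hd
    rw [Nat.mem_divisors] at hd
    have hd1 : 1 ≤ d := Nat.pos_of_dvd_of_pos hd.1 (by omega)
    rw [mul_sum]
    refine sum_congr rfl fun m hm => ?_
    rw [mem_filter, mem_Icc] at hm
    rw [Ram_mul g PP hPP d m hd1 hm.1.1 (coprime_of_smooth T d m
      (fun p hp hpd => h.mem_of_dvd_qnul hp (hpd.trans hd.1)) hm.2),
      Ram_tiny h hPP hdis hd1 hd.1 ht]
  rw [sum_congr rfl h2, sum_sigma']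
  symm
  refine sum_bij' (fun x _ => x.1 * x.2) (fun q _ => ⟨tpart T q, q / tpart T q⟩) ?_ ?_ ?_ ?_ ?_
  · rintro ⟨d, m⟩ hx
    simp only [mem_sigma, Nat.mem_divisors, mem_filter, mem_Icc] at hx ⊢
    have hd1 : 1 ≤ d := Nat.pos_of_dvd_of_pos hx.1.1 (by omega)
    refine ⟨⟨Nat.mul_pos hd1 hx.2.1.1, ?_⟩, ?_⟩
    · calc d * m ≤ d * (Q / d) := Nat.mul_le_mul_left _ hx.2.1.2
        _ ≤ Q := Nat.mul_div_le _ _
    · rw [tpart_mul T hT d m hd1 hx.2.1.1
        (fun p hp hpd => h.mem_of_dvd_qnul hp (hpd.trans hx.1.1)) hx.2.2]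
      exact hx.1.1
  · intro q hq
    simp only [mem_sigma, Nat.mem_divisors, mem_filter, mem_Icc] at hq ⊢
    have h3 := tpart_pos T hT q
    have h4 := tpart_dvd T hT q
    refine ⟨⟨hq.2, hq0⟩, ⟨?_, Nat.div_le_div_right hq.1.2⟩, not_dvd_div_tpart T hT q hq.1.1⟩
    exact Nat.div_pos (Nat.le_of_dvd (by omega) h4) h3
  · rintro ⟨d, m⟩ hx
    simp only [mem_sigma, Nat.mem_divisors, mem_filter, mem_Icc] at hx
    have hd1 : 1 ≤ d := Nat.pos_of_dvd_of_pos hx.1.1 (by omega)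
    have h5 := tpart_mul T hT d m hd1 hx.2.1.1
      (fun p hp hpd => h.mem_of_dvd_qnul hp (hpd.trans hx.1.1)) hx.2.2
    simp only [h5, Nat.mul_div_cancel_left m hd1]
  · intro q hq
    exact Nat.mul_div_cancel' (tpart_dvd T hT q)
  · rintro ⟨d, m⟩ hx
    rfl

end Vale.Agent.P042P.H74
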