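import Vale.Agent.P042PQ.H74Tiny
import Vale.Agent.P042.H74.Tiny2

set_option autoImplicit false

/-!
P042, prime arguments: port of `P042.H74.Tiny2` to the pairs (polynomial, linear form).
-/

namespace Vale.Agent.P042P.H74
open Vale.Agent.P042 hiding AuxData AuxData.lam_le AuxData.lam_pos AuxData.natDegree_H DiffFree
  rMax
open Vale.Agent.P042.H74 hiding GamN GamN_coprime GamN_eq GamN_norm GamN_prime_norm GamN_tiny
  GamN_zero GamN_zero_one GamW GamW_eq_avC GamW_split GamW_zero_one NS NS_fer Ram Ram_mul Ram_one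
  Ram_prime Ram_prod Ram_tiny Ram_tiny_zero Ram_zero Ram_zero_of_Wq Wq Wq_mul Wq_per Wq_zero
  Wq_zero_num Wq_zero_tiny avC_om avC_om_single deriv_fer_eval dns dns_fer dns_ge dns_pos
  dvd_deriv_fer fer fer_coeff fer_const fer_eval fer_natDegree kN kN_form kN_per multFam_GamN
  neg_one_le_kN nonconst_fer om om_ne_zero om_per om_union sum_Ram_tiny sum_Wq

open Polynomial Finset
open Vale.Agent.P042.SS hiding Gam

theorem dns_fer (f : PL) {p q1 : ℕ} (hp : p.Prime) (hc : ¬ p ∣ q1) (z0 : ℤ) :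
    dns (fer f q1 z0) p = dns f p := by
  unfold dns
  have h1 := card_affine hp.one_le (((Nat.Prime.coprime_iff_not_dvd hp).2 hc).symm) z0
    (fun z => ¬ (p : ℤ) ∣ (Dp f p).eval z) (fun z => by rw [eval_dvd_shift])
  rw [← h1]
  congr 3
  ext z
  rw [mem_filter, mem_filter, dvd_Dp_fer f hp hc]

theorem dns_ge (f : PL) (p : ℕ) (hp : p.Prime) (hk1 : 1 ≤ f.natDegree) (hkp : f.natDegree < p)
    (hnc : ∃ j : ℕ, 1 ≤ j ∧ ¬ (p : ℤ) ∣ f.coeff j) :
    1 - (f.natDegree : ℝ) / p ≤ dns f p := by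
  have h1 := card_Dp f hp hk1 hkp hnc
  have h2 := card_filter_add_card_filter_not (s := range p)
    (fun z : ℕ => (p : ℤ) ∣ (Dp f p).eval (z : ℤ))
  rw [card_range] at h2
  have hp0 : (0 : ℝ) < p := by exact_mod_cast hp.pos
  unfold dns
  rw [le_div_iff₀ hp0, sub_mul, div_mul_cancel₀ _ hp0.ne', one_mul]
  have h3 : (((range p).filter (fun z : ℕ => (p : ℤ) ∣ (Dp f p).eval (z : ℤ))).card : ℝ) ≤
      (f.natDegree : ℝ) := by exact_mod_cast h1
  have h4 : (((range p).filter (fun z : ℕ => (p : ℤ) ∣ (Dp f p).eval (z : ℤ))).card : ℝ) +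
      (((range p).filter (fun z : ℕ => ¬ (p : ℤ) ∣ (Dp f p).eval (z : ℤ))).card : ℝ) = p := by
    exact_mod_cast h2
  linarith

theorem dns_pos (f : PL) (p : ℕ) (hp : p.Prime) (hk1 : 1 ≤ f.natDegree) (hkp : f.natDegree < p)
    (hnc : ∃ j : ℕ, 1 ≤ j ∧ ¬ (p : ℤ) ∣ f.coeff j) : 0 < dns f p := by
  refine lt_of_lt_of_le ?_ (dns_ge f p hp hk1 hkp hnc)
  have hp0 : (0 : ℝ) < p := by exact_mod_cast hp.pos
  rw [sub_pos, div_lt_one hp0]
  have : (f.natDegree : ℝ) < p := by exact_mod_cast hkp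
  linarith

/-- nonsingular residues exist at all primes of `PP` for the substituted polynomial -/
theorem NS_fer (f : PL) (q1 : ℕ) (z0 : ℤ) (PP : Finset ℕ) (hk1 : 1 ≤ f.natDegree)
    (h : ∀ p ∈ PP, p.Prime ∧ f.natDegree < p ∧ ¬ p ∣ q1 ∧ ∃ j : ℕ, 1 ≤ j ∧ ¬ (p : ℤ) ∣ f.coeff j) :
    NS (fer f q1 z0) PP := by
  intro p hp
  obtain ⟨h1, h2, h3, h4⟩ := h p hp
  refine ⟨h1, ?_⟩
  rw [dns_fer f h1 h3]
  exact dns_pos f p h1 hk1 h2 h4

end Vale.Agent.P042P.H74
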