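import Vale.Agent.P042PQ.H85Dict
import Vale.Agent.P042.H85.HDic

set_option autoImplicit false

/-!
P042, prime arguments: port of `P042.H85.HDic` to the pairs (polynomial, linear form).
-/

set_option linter.unusedSectionVars false

namespace Vale.Agent.P042P.H85
open Vale.Agent.P042 hiding AuxData AuxData.lam_le AuxData.lam_pos AuxData.natDegree_H DiffFree
  rMax
open Vale.Agent.P042.H85 hiding FBa FBa_eq FBa_one FBa_oo SupI supD_of

open Finset Polynomial

open Vale.Agent.P042.H284 (FK rs)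

open Vale.Agent.P042.H461 (push)

open Vale.Agent.P042P.H74 (Ram NS)

open Vale.Agent.P042.H92 (Prm PPair Scl)

section

variable {a : Type} [Fintype a] [DecidableEq a]

/-- **Data of the super-modulus `m`** in the letters of the integer side: the system with the
residues modulo `m` at the site `none`; the two laws are the images of the two weights. -/
def SupI (Q : Prm) (K0 k : ℕ) {J : Type} [Fintype J] [DecidableEq J] (sc : a → J)
    (sn : J → ℕ) (ell : J → ℝ) (g : PL) (PP : Finset ℕ) (S1 S2 : Finset ℤ) (f f' : ℤ → ℝ)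
    (prm : a → ℕ) (lo : a → Prop) [DecidablePred lo] (Kl : {i // lo i} → ℤ → ℤ → ℝ)
    (m : ℕ) : Prop :=
  ∃ (V : Option a → Type) (_ : ∀ i, Fintype (V i)) (_ : ∀ i, DecidableEq (V i))
    (red : ℤ → ∀ i, V i) (ℓ es : Option a → ℝ) (lo' : Option a → Prop)
    (lam lam2 u : ∀ i, V i → ℝ)
    (K : ∀ i, V i → V i → ℝ) (c : Option a → ℝ) (v v' : ∀ i, V i → ℝ)
    (s : ∀ i, V i → V i → ℝ) (rho e : Option a → ℝ),
    Scl Q K0 univ (fun i => ℓ (some i)) (fun i => es (some i)) sc sn ell ∧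
    PPair Q (univ.erase none) ℓ es lo' lam lam2 u K c v v' s rho e (pw red S1 f) (pw red S2 f') ∧
    Q.p ≤ Real.log m ∧ ℓ none = Real.log m ∧
    rho none ≤ Real.exp (k * Real.log m) ∧ e none ≤ Real.exp (k * Real.log m) ∧
    (∀ (i : {i // lo i}), ∀ n ∈ S1, ∀ n' ∈ S2,
      Kl i n n' = K (some i) (red n (some i)) (red n' (some i))) ∧
    (∀ i, ¬ lo i → ∀ n ∈ S1, ∀ n' ∈ S2,
      kN g (prm i) (n - n') = K (some i) (red n (some i)) (red n' (some i))) ∧
    (∀ n ∈ S1, ∀ n' ∈ S2, Ram g PP m (n - n') = ((K none (red n none) (red n' none) : ℝ) : ℂ))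

/-- **The data of `pfin` at one super-modulus.** -/
theorem supD_of {Q : Prm} {K0 k : ℕ} {J : Type} [Fintype J] [DecidableEq J] {sc : a → J}
    {sn : J → ℕ} {ell : J → ℝ} {g : PL} {PP : Finset ℕ} (hPP : NS g PP) {S1 S2 : Finset ℤ}
    {f f' : ℤ → ℝ} {prm : a → ℕ} (hinj : Function.Injective prm) (hprm : ∀ i, prm i ∈ PP)
    {lo : a → Prop} [DecidablePred lo] {Kl : {i // lo i} → ℤ → ℤ → ℝ} {m : ℕ} (hm : 1 ≤ m)
    (hpm : ∀ i, ¬ prm i ∣ m) (H : SupI Q K0 k sc sn ell g PP S1 S2 f f' prm lo Kl m) :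
    SupD Q K0 k (Real.log m) sc sn ell (fun B => (FBa g PP S1 S2 f f' prm lo Kl 1 B).re)
      (fun B => (FBa g PP S1 S2 f f' prm lo Kl m B).re) := by
  obtain ⟨V, i1, i2, red, ℓ, es, lo', lam, lam2, u, K, c, v, v', s, rho, e, h1, h2, h3, h4, h5,
    h6, hK, hU, hR⟩ := H
  have hp1 : ∀ i, prm i ≠ 1 := fun i => (hPP _ (hprm i)).1.one_lt.ne'
  refine ⟨V, i1, i2, ℓ, es, lo', lam, lam2, u, K, c, v, v', s, rho, e, pw red S1 f, pw red S2 f',
    1, h1, h2, h3, h4, h5, h6, ?_, fun B => ?_, fun B => ?_⟩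
  · rw [abs_one]
    exact Real.one_le_exp (mul_nonneg (Nat.cast_nonneg _)
      (Real.log_nonneg (by exact_mod_cast hm)))
  · beta_reduce
    rw [FBa_oo g PP hPP S1 S2 f f' prm hinj hprm lo Kl m hm hpm red K hK hU 1
      (fun n hn n' hn' => by rw [hR n hn n' hn', one_mul]) B, Complex.ofReal_re]
  · beta_reduce
    rw [push_rs_pw, push_rs_pw, FBa_one g PP hPP S1 S2 f f' prm hinj hprm hp1 lo Kl
      (fun n (i : a) => red n (some i)) (fun i => K (some i)) hK hU B, Complex.ofReal_re]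

end

end Vale.Agent.P042P.H85
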