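import Vale.Agent.P042PQ.H362HInst
import Vale.Agent.P042PQ.H85HDic
import Vale.Agent.P042.H85.HFin

set_option autoImplicit false

/-!
P042, prime arguments: port of `P042.H85.HFin` to the pairs (polynomial, linear form).
-/

set_option linter.unusedSectionVars false

namespace Vale.Agent.P042P.H85
open Vale.Agent.P042 hiding AuxData AuxData.lam_le AuxData.lam_pos AuxData.natDegree_H DiffFree
  rMax
open Vale.Agent.P042.H85 hiding FBa FBa_eq FBa_one FBa_oo SupI hfin supD_of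

open Finset Polynomial

open Vale.Agent.P042.H284 (FK)

open Vale.Agent.P042P.H74 (Ram NS)

open Vale.Agent.P042.H92 (Prm PPair Scl BTSof BOof)

open Vale.Agent.P042.H121 (DDm)

open Vale.Agent.P042.H362 (MMt mem_MMt)
open Vale.Agent.P042P.H362 (norm_ge)

open Vale.Agent.P042.H452 (low MM)
open Vale.Agent.P042P.H452 (FB)

/-- **The last inequality, abstract letters.** -/
theorem hfin (hB : BTSof) (hO : BOof) {C1 : ℝ} (hC1 : 4 ≤ C1) (k : ℕ) {cr C2 c4 : ℝ}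
    (hcr0 : 0 < cr) (hcr : cr ≤ 1 / 2) (hC2 : 0 ≤ C2) (hc4 : 0 < c4) :
    ∃ CK0 : ℕ, ∀ CK : ℕ, CK0 ≤ CK → ∃ G0 : ℝ, 0 < G0 ∧ ∀ G : ℝ, 0 < G → G ≤ G0 →
    ∃ δ0 : ℝ, 0 < δ0 ∧ ∃ g0 : ℝ, 0 < g0 ∧ ∃ k0 : ℝ, 0 < k0 ∧ ∀ g kap γ d1 β' : ℝ, 0 < g →
      g ≤ g0 → 0 < kap → 32 * kap ≤ g → 0 < γ → γ ≤ k0 * kap →
      8 * g * C1 < β' → β' < d1 → 2 * d1 < 1 → d1 ≤ k0 →
    ∀ a0 : ℝ, 0 ≤ a0 → ∃ K0 : ℕ, ∀ θ c0 cD ε θH : ℝ, 0 < θ → 0 < c0 → 0 < cD →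
      cD ≤ k0 * (γ * θ) → 0 < ε → 0 < θH →
    ∃ p0 : ℝ, ∀ p : ℝ, p0 ≤ p → ∀ Q : Prm, Q = ⟨p, C1, γ, a0, θ, c0, cD, kap, d1, G, CK⟩ →
    ∀ (J : Type) [Fintype J] [DecidableEq J] (a : Type) [Fintype a] [DecidableEq a]
      (V : a → Type) [∀ i, Fintype (V i)] [∀ i, DecidableEq (V i)] (red : ℤ → ∀ i, V i)
      (ℓ es : a → ℝ) (sc : a → J) (sn : J → ℕ) (ell : J → ℝ) (lo' : a → Prop)
      (lam lam2 u : ∀ i, V i → ℝ) (K : ∀ i, V i → V i → ℝ) (c : a → ℝ) (v v' : ∀ i, V i → ℝ)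
      (s : ∀ i, V i → V i → ℝ) (rho e : a → ℝ) (F : PL) (PP T : Finset ℕ)
      (S1 S2 : Finset ℤ) (f f' : ℤ → ℝ) (prm : a → ℕ) (lo : a → Prop) [DecidablePred lo]
      (Kl : {i // lo i} → ℤ → ℤ → ℝ),
      NS F PP → Function.Injective prm → (∀ i, prm i ∈ PP) →
      (∀ q ∈ T, q.Prime ∧ ∀ i, prm i ≠ q) → (∀ i, Real.log (prm i) ≤ C1 * p) →
      Scl Q K0 univ ℓ es sc sn ell →
      PPair Q univ ℓ es lo' lam lam2 u K c v v' s rho e (pw red S1 f) (pw red S2 f') →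
      (∀ (i : {i // lo i}), ∀ n ∈ S1, ∀ n' ∈ S2, Kl i n n' = K i (red n i) (red n' i)) →
      (∀ i, ¬ lo i → ∀ n ∈ S1, ∀ n' ∈ S2, kN F (prm i) (n - n') = K i (red n i) (red n' i)) →
      -- (F1*)
      (∀ b0 : ℕ, (b0 : ℝ) ≤ 2 * Real.exp (β' * p) → ∀ r : J → ℝ, (∀ j, 0 ≤ r j) →
        (∀ j, r j ≤ min (Real.exp (cr * ell j)) ((b0 : ℝ) ^ cr)) →
        ∑ B ∈ DDm lo prm ⌊θH * Real.exp p / p⌋₊ ⌊Real.exp (θH * Real.exp p)⌋₊ 1,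
          |(FBa F PP S1 S2 f f' prm lo Kl 1 B).re| * ∏ i ∈ B, r (sc i) ≤
          Real.exp (C2 + ∑ j, Real.exp (8 * g * ell j) * (r j + r j ^ 2))) →
      -- (A*)
      (∀ b0 : ℕ, (b0 : ℝ) ≤ 2 * Real.exp (β' * p) → ∀ Z : ℝ, 1 ≤ Z → ∀ r : J → ℝ,
        (∀ j, 0 ≤ r j) → (∀ j, r j ≤ min (Real.exp (cr * ell j)) ((b0 : ℝ) ^ cr)) →
        ∑ m ∈ (MMt T prm ⌊Real.exp (θH * Real.exp p)⌋₊).filter (fun m : ℕ => Z < (m : ℝ)),
          ∑ B ∈ DDm lo prm ⌊θH * Real.exp p / p⌋₊ ⌊Real.exp (θH * Real.exp p)⌋₊ m,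
          |(FBa F PP S1 S2 f f' prm lo Kl m B).re| * ∏ i ∈ B, r (sc i) ≤
          δ0 * Real.exp (-(c4 * Real.log Z)) *
            Real.exp (C2 + ∑ j, Real.exp (8 * g * ell j) * (r j + r j ^ 2))) →
      -- the systems with a super-modulus
      (∀ m ∈ MMt T prm ⌊Real.exp (θH * Real.exp p)⌋₊, Real.log m ≤ Real.exp (2 * d1 * p) →
        SupI Q K0 k sc sn ell F PP S1 S2 f f' prm lo Kl m) →
      Real.exp (-(ε * Real.exp p)) ≤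
        ‖∑ C ∈ low {i // lo i} ⌊θH * Real.exp p / p⌋₊,
          ∑ m2 ∈ MM T (fun i : {i // lo i} => prm i) ⌊Real.exp (θH * Real.exp p)⌋₊,
            FB F PP S1 S2 f f' Kl C m2‖ := by
  obtain ⟨CK0, H⟩ := pfin hB hO hC1 k hcr0 hcr hC2 hc4
  refine ⟨CK0, fun CK hCK => ?_⟩
  obtain ⟨G0, hG0, H⟩ := H CK hCK
  refine ⟨G0, hG0, fun G hG hGG => ?_⟩
  obtain ⟨gs, δ0, hgs, hδ0, g0, hg0, hgs8, k0, hk0, H⟩ := H G hG hGG
  refine ⟨δ0, hδ0, g0, hg0, k0, hk0, ?_⟩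
  intro g kap γ d1 β' hg hgg hkap hk32 hγ hγk h8 hβ hd1 hd1k a0 ha0
  have hβ0 : 0 < β' := lt_trans (by positivity) h8
  have hd10 : 0 < d1 := hβ0.trans hβ
  obtain ⟨K1, H⟩ := H g kap γ d1 hg hgg hkap hk32 hγ hγk hd10 hd1k a0 ha0
  obtain ⟨K2, N⟩ := H258.pfin_numbers hcr0
  refine ⟨max K1 K2, ?_⟩
  intro θ c0 cD ε θH hθ hc0 hcD hcDk hε hθH
  obtain ⟨p1, H⟩ := H θ c0 cD hθ hc0 hcD hcDk
  obtain ⟨p2, hp2, N⟩ := N (C1 := C1) (C2 := C2) (g := g) (β' := β') (d1 := d1) (ε := ε)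
    (θ := θH) (by linarith) hg h8 hβ hd1 hε hθH
  refine ⟨max p1 p2, fun p hp Q hQ => ?_⟩
  have hpp1 : p1 ≤ p := (le_max_left _ _).trans hp
  have hpp2 : p2 ≤ p := (le_max_right _ _).trans hp
  have hp0 : 0 < p := lt_of_lt_of_le one_pos (hp2.trans hpp2)
  replace H := H p hpp1 Q hQ
  intro J _ _ a _ _ V _ _ red ℓ es sc sn ell lo' lam lam2 u K c v v' s rho e F PP T S1 S2 f f'
    prm lo _ Kl hPP hinj hprm hT hlog hScl hPair hK hU hF1 hA hSup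
  have hQp : Q.p = p := by rw [hQ]
  have hQC : Q.C1 = C1 := by rw [hQ]
  have htop : ∀ j, ell j ≤ C1 * p + 1 := fun j => by
    have h1 := hScl.top j
    rw [hQC, hQp] at h1
    exact h1
  have hell0 : ∀ j, 0 ≤ ell j := fun j => by
    rw [hScl.ell1 j]
    exact mul_nonneg (Nat.cast_nonneg _) (Real.log_nonneg (by norm_num))
  obtain ⟨b0, _, _, hb2, hb3, hb4, hr3, hrk, hεn, hbm, hbM, _⟩ := N p hpp2 sn ell hScl.inj
    hScl.ell1 (fun j => (le_max_right _ _).trans (hScl.K0 j)) htop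
  have hp : ∀ i, (prm i).Prime := fun i => (hPP _ (hprm i)).1
  have hp1 : ∀ i, prm i ≠ 1 := fun i => (hp i).one_lt.ne'
  have hprm1 : ∀ i, 1 ≤ prm i := fun i => (hp i).one_lt.le
  have hCp : 0 ≤ C1 * p := by positivity
  have key := H J a V ℓ es sc sn ell lo' lam lam2 u K c v v' s rho e (pw red S1 f)
    (pw red S2 f') b0 (fun j => Real.exp (8 * g * ell j))
    (fun j => min (Real.exp (cr * ell j)) ((b0 : ℝ) ^ cr))
    (DDm lo prm ⌊θH * Real.exp p / p⌋₊ ⌊Real.exp (θH * Real.exp p)⌋₊ 1)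
    (fun B => (FBa F PP S1 S2 f f' prm lo Kl 1 B).re)
    (MMt T prm ⌊Real.exp (θH * Real.exp p)⌋₊)
    (fun m B => (FBa F PP S1 S2 f f' prm lo Kl m B).re)
    (fun m => DDm lo prm ⌊θH * Real.exp p / p⌋₊ ⌊Real.exp (θH * Real.exp p)⌋₊ m)
    (Scl_mono (le_max_left _ _) hScl) hPair hb3 (fun j => le_rfl)
    (fun j => Real.exp_le_exp.2 (mul_le_mul_of_nonneg_right (by linarith) (hell0 j)))
    hb4 hr3 hrk
    (fun B => by
      rw [FBa_one F PP hPP S1 S2 f f' prm hinj hprm hp1 lo Kl red K hK hU B,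
        Complex.ofReal_re])
    (fun B hB => H883.mem_DDm_num hprm1 hlog hCp le_rfl
      (by simpa using (Real.exp_pos (2 * d1 * p)).le) hbm hbM hB)
    (hF1 b0 hb2) (fun m hm => (mem_MMt.1 hm).1.1)
    (fun m hm hml B hB => H883.mem_DDm_num hprm1 hlog hCp
      (le_trans (by norm_num) (mem_MMt.1 hm).1.1) hml hbm hbM hB)
    (hA b0 hb2)
    (fun m hm hml => by
      obtain ⟨V', i1, i2, red', ℓ', es', lo2, lam', lam2', u', K', c', w, w', s', rho', e',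
        h1, h2⟩ := hSup m hm hml
      exact supD_of hPP hinj hprm (le_trans (by norm_num) (mem_MMt.1 hm).1.1)
        (mem_MMt.1 hm).2.2 ⟨V', i1, i2, red', ℓ', es', lo2, lam', lam2', u', K', c', w, w', s',
          rho', e', Scl_mono (le_max_left _ _) h1, h2⟩)
  exact norm_ge F PP hPP hinj hprm hT S1 S2 f f' Kl _ _ hεn key

end Vale.Agent.P042P.H85
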