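import Vale.Agent.P042PQ.H362TrI
import Vale.Agent.P042PQ.H387Top
import Vale.Agent.P042PQ.H85HFin
import Vale.Agent.P042PQ.H85SupIn
import Vale.Agent.P042.H860.HEnd

set_option autoImplicit false

/-!
P042, prime arguments: port of `P042.H860.HEnd` to the pairs (polynomial, linear form).
-/

namespace Vale.Agent.P042P.H860
open Vale.Agent.P042 hiding AuxData AuxData.lam_le AuxData.lam_pos AuxData.natDegree_H DiffFree
  rMax
open Vale.Agent.P042.H860 hiding At F1At F1F FBI HTail Inst Inst.PP Inst.S1 Inst.S2 Inst.f1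
  Inst.f2 Inst.g Inst.m1 Inst.m2 Inst.nu1 Inst.nu2 Inst.q0 Inst.q1 Inst.w' KlI LawAt LawF Ok Ok.NS
  Ok.PP_eq Ok.gdeg Ok.gp Ok.gpg Ok.not_dvd_q1 Ok.q0_pos Ok.q1_pos end_at lo loEquiv locF_of loc_kR
  prm ref2

open Polynomial Finset
open Vale.Agent.P042.SS hiding Gam
open Vale.Agent.P042.H74 hiding GamN GamN_coprime GamN_eq GamN_norm GamN_prime_norm GamN_tiny
  GamN_zero GamN_zero_one GamW GamW_eq_avC GamW_split GamW_zero_one Gam_fer_norm NS NS_fer Ram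
  Ram_index Ram_mul Ram_one Ram_prime Ram_prod Ram_tiny Ram_tiny_zero Ram_zero Ram_zero_of_Wq Wq
  Wq_mul Wq_per Wq_zero Wq_zero_num Wq_zero_tiny avC_om avC_om_single deriv_fer_eval dns dns_fer
  dns_ge dns_ge_exp dns_le_one dns_nonneg dns_pos dvd_deriv_fer fer fer_coeff fer_const fer_eval
  fer_natDegree kN kN_form kN_per multFam_GamN neg_one_le_kN nonconst_fer not_dvd_of_nonconst om
  om_ne_zero om_per om_union prod_dns_ge prod_dns_ge_aux seamG sum_Ram_full sum_Ram_index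
  sum_Ram_tiny sum_Wq
open Vale.Agent.P042P.H74
open Vale.Agent.P042.H452 hiding FB GamN_conj GamW_eq_GamN KOpt PS PS_eq Ram_conj Ram_ramK
  Ram_shift SeamH SeamH.pos SeamH.prime SeamH.rho0 SeamH.term_bound Tilts Tt Wq_conj abs_ramK_le
  crossT crossT_eq hloc_tilts kOpt_of kernel_rel kin kp_O kp_R lamM lamS main_eq norm_GamN_le ooK
  ooK_OB ooK_left ooK_op ooK_right pair_ker prSt_F ps_l1 ramK ramK_shift seam sum_Ram sum_ramK
  tilt_one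
open Vale.Agent.P042P.H452

open Vale.Agent.P042.H739 hiding Base6 CELLS GWk GwTy HLOC HLOCat LOWERF LOWat STat StTy
  lowat_congr lowat_ofP lowerF_of lower_at seamH_of
open Vale.Agent.P042P.H739
open Vale.Agent.P042.H245 hiding GWf
open Vale.Agent.P042.H359 hiding CELLSF cells_StF
open Vale.Agent.P042P.H359

open Vale.Agent.P042.H945 (cl rst ms SM lamR)

open Vale.Agent.P042.H858 (pf)

open Vale.Agent.P042.H599 (cm Law)

open Vale.Agent.P042.H438 (Rs)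

open Vale.Agent.P042.H92 (Prm PLaw PPair Scl BTSof BOof)

open Vale.Agent.P042.H883 (JT snT ellT scT esN scI)

open Vale.Agent.P042.H85 (pw)
open Vale.Agent.P042P.H85 (FBa SupI)

open Vale.Agent.P042.H121 (DDm)

open Vale.Agent.P042.H362 (MMt LowS)
open Vale.Agent.P042P.H362 (EndI)

/-- the lower bound of `H85.hfin` at one `p` -/
def HTail (k : ℕ) (C1 cr C2 c4 δ0 g d1 β' ε θH p : ℝ) (K0 : ℕ) (Q : Prm) : Prop :=
  ∀ (J : Type) [Fintype J] [DecidableEq J] (a : Type) [Fintype a] [DecidableEq a]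
      (V : a → Type) [∀ i, Fintype (V i)] [∀ i, DecidableEq (V i)] (red : ℤ → ∀ i, V i)
      (ℓ es : a → ℝ) (sc : a → J) (sn : J → ℕ) (ell : J → ℝ) (lo' : a → Prop)
      (lam lam2 u : ∀ i, V i → ℝ) (K : ∀ i, V i → V i → ℝ) (c : a → ℝ) (v v' : ∀ i, V i → ℝ)
      (s : ∀ i, V i → V i → ℝ) (rho e : a → ℝ) (F : PL) (PP T : Finset ℕ)
      (S1 S2 : Finset ℤ) (f f' : ℤ → ℝ) (prm : a → ℕ) (lo : a → Prop) [DecidablePred lo]
      (Kl : {i // lo i} → ℤ → ℤ → ℝ),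
      NS F PP → Function.Injective prm → (∀ i, prm i ∈ PP) →
      (∀ q ∈ T, q.Prime ∧ ∀ i, prm i ≠ q) → (∀ i, Real.log (prm i) ≤ C1 * p) →
      Scl Q K0 univ ℓ es sc sn ell →
      PPair Q univ ℓ es lo' lam lam2 u K c v v' s rho e (pw red S1 f) (pw red S2 f') →
      (∀ (i : {i // lo i}), ∀ n ∈ S1, ∀ n' ∈ S2, Kl i n n' = K i (red n i) (red n' i)) →
      (∀ i, ¬ lo i → ∀ n ∈ S1, ∀ n' ∈ S2, kN F (prm i) (n - n') = K i (red n i) (red n' i)) →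
      (∀ b0 : ℕ, (b0 : ℝ) ≤ 2 * Real.exp (β' * p) → ∀ r : J → ℝ, (∀ j, 0 ≤ r j) →
        (∀ j, r j ≤ min (Real.exp (cr * ell j)) ((b0 : ℝ) ^ cr)) →
        ∑ B ∈ DDm lo prm ⌊θH * Real.exp p / p⌋₊ ⌊Real.exp (θH * Real.exp p)⌋₊ 1,
          |(FBa F PP S1 S2 f f' prm lo Kl 1 B).re| * ∏ i ∈ B, r (sc i) ≤
          Real.exp (C2 + ∑ j, Real.exp (8 * g * ell j) * (r j + r j ^ 2))) →
      (∀ b0 : ℕ, (b0 : ℝ) ≤ 2 * Real.exp (β' * p) → ∀ Z : ℝ, 1 ≤ Z → ∀ r : J → ℝ,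
        (∀ j, 0 ≤ r j) → (∀ j, r j ≤ min (Real.exp (cr * ell j)) ((b0 : ℝ) ^ cr)) →
        ∑ m ∈ (MMt T prm ⌊Real.exp (θH * Real.exp p)⌋₊).filter (fun m : ℕ => Z < (m : ℝ)),
          ∑ B ∈ DDm lo prm ⌊θH * Real.exp p / p⌋₊ ⌊Real.exp (θH * Real.exp p)⌋₊ m,
          |(FBa F PP S1 S2 f f' prm lo Kl m B).re| * ∏ i ∈ B, r (sc i) ≤
          δ0 * Real.exp (-(c4 * Real.log Z)) *
            Real.exp (C2 + ∑ j, Real.exp (8 * g * ell j) * (r j + r j ^ 2))) →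
      (∀ m ∈ MMt T prm ⌊Real.exp (θH * Real.exp p)⌋₊, Real.log m ≤ Real.exp (2 * d1 * p) →
        SupI Q K0 k sc sn ell F PP S1 S2 f f' prm lo Kl m) →
      Real.exp (-(ε * Real.exp p)) ≤
        ‖∑ C ∈ low {i // lo i} ⌊θH * Real.exp p / p⌋₊,
          ∑ m2 ∈ MM T (fun i : {i // lo i} => prm i) ⌊Real.exp (θH * Real.exp p)⌋₊,
            FB F PP S1 S2 f f' Kl C m2‖

/-- the kernels as functions of the integers -/
abbrev KlI (I : Inst) (kap : ℝ)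
    (K : ∀ i : Si I.K0 I.C1 I.P, ZMod (prm i) → ZMod (prm i) → ℝ)
    (i : {i : Si I.K0 I.C1 I.P // lo I kap i}) (n n' : ℤ) : ℝ :=
  K i.1 (redZ prm n i.1) (redZ prm n' i.1)

/-- **one instance** -/
theorem end_at {k : ℕ} {z : Loc} (hz : LocOk z) {θ c0 cD ε κ : ℝ} {I : Inst}
    (hk : I.k = k) (hOk : Ok I κ) (hC1 : I.C1 = z.C1) (hP1 : Real.exp 1 ≤ I.P)
    (hKP : (H883.nlo I.K0 : ℝ) * Real.log 2 ≤ I.C1 * Real.log I.P + 1) (hK0 : 2 ^ z.K1 ≤ I.K0)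
    (hT : HTail k z.C1 z.cr z.C2 z.c4 z.δ0 z.g z.d1 (12 * (z.g * z.C1)) ε θ (Real.log I.P) z.K1
      (z.Q θ c0 cD (Real.log I.P)))
    (hlaw : LawAt I (z.Q θ c0 cD (Real.log I.P)))
    {K : ∀ i : Si I.K0 I.C1 I.P, ZMod (prm i) → ZMod (prm i) → ℝ}
    {w w' : ∀ i : Si I.K0 I.C1 I.P, ZMod (prm i) → ℝ}
    {s : ∀ i : Si I.K0 I.C1 I.P, ZMod (prm i) → ZMod (prm i) → ℝ}
    {rho ee : Si I.K0 I.C1 I.P → ℝ} (hTl : Tilts I z.kap K)
    (hhigh : ∀ i, ¬ lo I z.kap i → ∀ n m : ℤ,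
      K i (n : ZMod (prm i)) (m : ZMod (prm i)) = kN I.g (prm i) (n - m))
    (hKP' : KPair (z.Q θ c0 cD (Real.log I.P)) univ (fun i => esN (prm i)) (lo I z.kap) (lamS I)
      (ref2 I z.kap) (H438.uw prm) K (fun _ => 0) w w' s rho ee)
    (hopt : ∀ (m : ℕ) [NeZero m], 2 ≤ m → (∀ i : Si I.K0 I.C1 I.P, m.Coprime i.1) →
      KOpt I z.kap (z.Q θ c0 cD (Real.log I.P)) K rho ee m)
    (hF1 : F1At I z θ K) : EndI I z.kap θ ε := by
  have hP0 : 0 < I.P := (Real.exp_pos _).trans_le hP1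
  have h1P : 1 ≤ I.P := (Real.one_le_exp zero_le_one).trans hP1
  have hPe : Real.exp (Real.log I.P) = I.P := Real.exp_log hP0
  have hlog : 0 ≤ Real.log I.P := Real.log_nonneg h1P
  have hC4 : 4 ≤ I.C1 := by rw [hC1]; exact hz.C1
  have hkap0 := hz.kap0
  have hsub : Wst I.K0 z.kap I.P ⊆ Typ I.K0 I.C1 I.P := Wst_sub h1P (by linarith)
  have hm := H362.mass_pos hOk
  have hpow : I.P ^ (12 * (z.g * z.C1)) = Real.exp (12 * (z.g * z.C1) * Real.log I.P) := by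
    rw [Real.rpow_def_of_pos hP0, mul_comm]
  have hQC : (z.Q θ c0 cD (Real.log I.P)).C1 = I.C1 := hC1.symm
  have hQp : (z.Q θ c0 cD (Real.log I.P)).p = Real.log I.P := rfl
  have hCp : 0 ≤ (z.Q θ c0 cD (Real.log I.P)).C1 * (z.Q θ c0 cD (Real.log I.P)).p := by
    rw [hQC, hQp]
    exact mul_nonneg (by linarith) hlog
  have hn : (H883.nlo I.K0 : ℝ) * Real.log 2 ≤
      (z.Q θ c0 cD (Real.log I.P)).C1 * (z.Q θ c0 cD (Real.log I.P)).p + 1 := by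
    rw [hQC, hQp]
    exact hKP
  have habs : ∀ (m : ℕ) (B : Finset (Si I.K0 I.C1 I.P)),
      |(FBa I.g I.PP I.S1 I.S2 I.f1 I.f2 prm (lo I z.kap) (KlI I z.kap K) m B).re| ≤
        ‖FBI I z.kap K m B‖ := fun m B => Complex.abs_re_le_norm _
  have key := hT (JT I.K0 I.C1 I.P) (Si I.K0 I.C1 I.P) (fun i => ZMod (prm i)) (redZ prm)
    (fun i => Real.log (prm i)) (fun i => esN (prm i)) scI snT ellT (lo I z.kap) (lamS I)
    (ref2 I z.kap) (H438.uw prm) K (fun _ => 0) w w' s rho ee I.g I.PP (Tst I.K0) I.S1 I.S2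
    I.f1 I.f2 prm (lo I z.kap) (KlI I z.kap K) hOk.NS Subtype.val_injective
    (fun i => by rw [hOk.PP_eq]; exact i.2)
    (fun q hq => ⟨(H739.mem_Tst.1 hq).1, fun i h => by
      have h1 := (mem_Typ.1 i.2).2.2
      have h2 := (H739.mem_Tst.1 hq).2
      have h3 : i.1 = q := h
      omega⟩)
    (fun i => by
      have h1 := mem_Typ.1 i.2
      have h2 : ((prm i : ℕ) : ℝ) ≤ I.P ^ I.C1 :=
        (Nat.le_floor_iff (Real.rpow_nonneg hP0.le _)).1 h1.1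
      have h3 := Real.log_le_log (by exact_mod_cast h1.2.1.pos) h2
      rw [Real.log_rpow hP0, hC1] at h3
      exact h3)
    (H883.scl_si (z.Q θ c0 cD (Real.log I.P)) hQC hP0 hQp hK0 hCp hn)
    (H85.pair_i hOk hlaw hKP')
    (fun i n _ n' _ => rfl) (fun i hi n _ n' _ => (hhigh i hi n n').symm)
    (fun b0 hb0 r hr hr' => by
      have h := (hF1 b0 (by rw [hpow]; exact hb0) r hr hr').1
      rw [hPe]
      refine le_trans (sum_le_sum fun B _ => ?_) h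
      exact mul_le_mul_of_nonneg_right (habs 1 B) (prod_nonneg fun i _ => hr _))
    (fun b0 hb0 Z hZ r hr hr' => by
      rw [hPe]
      have h := (hF1 b0 (by rw [hpow]; exact hb0) r hr hr').2
        ((MMt (Tst I.K0) (prm : Si I.K0 I.C1 I.P → ℕ) ⌊Real.exp (θ * I.P)⌋₊).filter
          (fun m : ℕ => Z < (m : ℝ)))
        (fun m hm => by
          obtain ⟨⟨a1, _⟩, a2, a3⟩ := H362.mem_MMt.1 (mem_filter.1 hm).1
          exact ⟨by omega, a2, a3⟩) Z hZ (fun m hm => (mem_filter.1 hm).2)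
      refine le_trans (sum_le_sum fun m _ => sum_le_sum fun B _ => ?_) h
      exact mul_le_mul_of_nonneg_right (habs m B) (prod_nonneg fun i _ => hr _))
    (fun m hm _ => by
      rw [← hk]
      exact H85.sup_i hOk hQC hQp h1P (by linarith) (by have := hOk.k2; omega) hK0 hn hlaw
        (fun i hi n n' => hhigh i hi n n') hopt hm)
  rw [hPe] at key
  obtain ⟨e, e', b, h0, h1, h2, h3, h4, h5, h6⟩ := hTl
  exact ⟨e, e', b, b, H362.KW I hsub K, h0, h0, h1, h2, h3, h4, h5,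
    fun i n _ m _ => h6 i (hsub i.2) n m, H362.last_of I hsub K hm.1 hm.2 key⟩

/-- **the local theorem at one degree and one content** -/
theorem loc_kR (hB : BTSof) (hO : BOof) (hL : LawF) (hF : F1F) (k R : ℕ) (hk : 2 ≤ k)
    (hR : 1 ≤ R) :
    ∃ (z : Loc) (thr : ℝ → ℕ) (thb : ℝ → ℕ → ℝ), LocOk z ∧ z.C1 = 4 ∧ (∀ κ n, 0 < thb κ n) ∧
    ∀ (C1 : ℕ → ℝ) (cs : ℕ → ℕ → H387.Cst) (par : ℕ → ℕ → ℝ → H362.FP),
      FitAt z thr thb C1 cs par k R →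
    ∀ thQ : ℝ, 0 < thQ → thQ ≤ 1 / 16 →
    ∃ g θ κs : ℝ, 0 < g ∧ g ≤ 1 / 2 ∧ 0 < θ ∧ θ ≤ thQ / 16 ∧ 0 < κs ∧
    ∀ κ : ℝ, 0 < κ → κ ≤ κs → ∀ ε : ℝ, 0 < ε → ∃ P0 : ℝ, ∀ P : ℝ, P0 ≤ P →
    ∀ (f : PL) (N' : ℕ) (G : ℤ → ℝ), f.natDegree = k → 0 < f.leadingCoeff →
      (∀ g : ℤ, (∀ j : ℕ, 1 ≤ j → g ∣ f.coeff j) → g ∣ (R : ℤ)) →
      (∀ j : ℕ, |(f.coeff j : ℝ)| ≤ Real.exp (2 * k * κ * P)) →
      Base6 f κ P N' G → H362.StF par (H387.mkFam C1 cs par) k R f κ P N' G →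
      HLOCat (C1 k) k R (H387.K0fun par k R κ) g θ ε P f N' G := by
  obtain ⟨C2, c4, hC2, hc4, HF⟩ := hF k R hk hR
  obtain ⟨CK0, H⟩ := H85.hfin hB hO (C1 := 4) le_rfl k (cr := 1 / (2 ^ 11 * 4)) (C2 := C2)
    (c4 := c4) (by norm_num) (by norm_num) hC2 hc4
  obtain ⟨CK, hCKd⟩ : ∃ CK : ℕ, CK = max CK0 12 := ⟨_, rfl⟩
  have hCK12 : 12 ≤ CK := hCKd ▸ le_max_right _ _
  obtain ⟨G0, hG0, H⟩ := H CK (hCKd ▸ le_max_left _ _)
  obtain ⟨G, hGd⟩ : ∃ G : ℝ, G = min G0 (1 / 4) := ⟨_, rfl⟩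
  have hG : 0 < G := hGd ▸ lt_min hG0 (by norm_num)
  have hG4 : G ≤ 1 / 4 := hGd ▸ min_le_right _ _
  obtain ⟨δ0, hδ0, g0, hg0, k0', hk0', H⟩ := H G hG (hGd ▸ min_le_left _ _)
  obtain ⟨k0, hk0d⟩ : ∃ k0 : ℝ, k0 = min k0' 1 := ⟨_, rfl⟩
  have hk0 : 0 < k0 := hk0d ▸ lt_min hk0' one_pos
  have hk01 : k0 ≤ 1 := hk0d ▸ min_le_right _ _
  have hk0l : k0 ≤ k0' := hk0d ▸ min_le_left _ _
  have hCKr : (12 : ℝ) ≤ CK := by exact_mod_cast hCK12
  have hCKp : (0 : ℝ) < CK := by linarith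
  obtain ⟨g, hgd⟩ : ∃ g : ℝ, g = min g0 (min (k0 / 64) (G / (1024 * CK))) := ⟨_, rfl⟩
  have hg : 0 < g := hgd ▸ lt_min hg0 (lt_min (by positivity) (by positivity))
  have hgg : g ≤ g0 := hgd ▸ min_le_left _ _
  have hgk : 64 * g ≤ k0 := by
    have h1 : g ≤ k0 / 64 := hgd ▸ (min_le_right _ _).trans (min_le_left _ _)
    linarith
  have hgG : 1024 * (g * CK) ≤ G := by
    have h1 : g ≤ G / (1024 * CK) := hgd ▸ (min_le_right _ _).trans (min_le_right _ _)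
    rw [le_div_iff₀ (by positivity)] at h1
    linarith
  have hz0 : ∀ K1, LocOk (mkLoc C2 c4 CK G δ0 k0 g K1) := fun K1 =>
    mkLoc_ok K1 hC2 hc4 hCK12 hG hG4 hδ0 hk0 hk01 hg hgk hgG
  have hz1 := hz0 0
  obtain ⟨K1, H⟩ := H g (mkLoc C2 c4 CK G δ0 k0 g 0).kap (mkLoc C2 c4 CK G δ0 k0 g 0).γ
    (mkLoc C2 c4 CK G δ0 k0 g 0).d1 (12 * (g * 4)) hg hgg hz1.kap0
    (by show 32 * (g / 32) ≤ g; linarith) hz1.γ0
    (hz1.γk.trans (mul_le_mul_of_nonneg_right hk0l hz1.kap0.le)) (by linarith)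
    (by show 12 * (g * 4) < 16 * (g * 4); linarith) hz1.d12 (hz1.d1k.trans hk0l) 10 (by norm_num)
  obtain ⟨z, hzd⟩ : ∃ z : Loc, z = mkLoc C2 c4 CK G δ0 k0 g K1 := ⟨_, rfl⟩
  have hz : LocOk z := hzd ▸ hz0 K1
  have hzC1 : z.C1 = 4 := by rw [hzd]; rfl
  -- the tail
  have HT : ∀ θ c0 cD ε : ℝ, 0 < θ → 0 < c0 → 0 < cD → cD ≤ z.k0 * (z.γ * θ) → 0 < ε →
      ∃ p0 : ℝ, ∀ p : ℝ, p0 ≤ p → HTail k z.C1 z.cr z.C2 z.c4 z.δ0 z.g z.d1
        (12 * (z.g * z.C1)) ε θ p z.K1 (z.Q θ c0 cD p) := by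
    intro θ c0 cD ε hθ hc0 hcD hcDk hε
    subst hzd
    obtain ⟨p0, H⟩ := H θ c0 cD ε θ hθ hc0 hcD
      (hcDk.trans (mul_le_mul_of_nonneg_right hk0l (mul_nonneg hz1.γ0.le hθ.le))) hε hθ
    exact ⟨p0, fun p hp => H p hp _ rfl⟩
  clear H
  obtain ⟨thrL, thbL, hthbL, HL⟩ := hL k R z hk hR hz
  obtain ⟨thrF, thbF, hthbF, HF⟩ := HF z hz (by rw [hzd]; rfl) (by rw [hzd]; rfl)
  obtain ⟨K00, Pk, HK⟩ := kin k (by omega : 1 ≤ k) (α := z.α) (γ := z.γ) (b := z.α / 16)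
    (gr := z.α / 4) (kap := z.kap) hz.α0 hz.α48 hz.α14 (by have := hz.α0; linarith)
    (by have := hz.α0; linarith) hz.kap0 hz.kap1 hz.αkap
  refine ⟨z, fun κ => max (max (thrL κ) (thrF κ)) (max (2 ^ z.K1) K00),
    fun κ n => min (thbL κ n) (thbF κ n), hz, hzC1, fun κ n => lt_min (hthbL κ n) (hthbF κ n), ?_⟩
  intro C1 cs par hfit thQ hthQ hthQ1
  obtain ⟨θL, hθL, HL⟩ := HL C1 cs par (hfit.mono
    (fun κ => (le_max_left _ _).trans (le_max_left _ _)) fun κ n => min_le_left _ _)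
  obtain ⟨θF, hθF, HF⟩ := HF C1 cs par (hfit.mono
    (fun κ => (le_max_right _ _).trans (le_max_left _ _)) fun κ n => min_le_right _ _)
  obtain ⟨θ, hθd⟩ : ∃ θ : ℝ, θ = min (min θL θF) (thQ / 16) := ⟨_, rfl⟩
  have hθ : 0 < θ := hθd ▸ lt_min (lt_min hθL hθF) (by positivity)
  obtain ⟨κL, hκL, HL⟩ := HL θ hθ (hθd ▸ (min_le_left _ _).trans (min_le_left _ _))
  obtain ⟨κF, hκF, HF⟩ := HF θ hθ (hθd ▸ (min_le_left _ _).trans (min_le_right _ _))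
  refine ⟨z.kap, θ, min κL κF, hz.kap0, hz.kap1, hθ, hθd ▸ min_le_right _ _, lt_min hκL hκF, ?_⟩
  intro κ hκ hκs ε hε
  obtain ⟨c0, cD, hc0, hcD, hcDk, PL, HL⟩ := HL κ hκ (hκs.trans (min_le_left _ _))
  obtain ⟨PF, HF⟩ := HF κ hκ (hκs.trans (min_le_right _ _))
  obtain ⟨p0, HT⟩ := HT θ c0 cD ε hθ hc0 hcD hcDk hε
  obtain ⟨x, hx⟩ : ∃ x : ℝ, (H883.nlo (H387.K0fun par k R κ) : ℝ) * Real.log 2 = x := ⟨_, rfl⟩
  refine ⟨max (max PL PF) (max (max Pk (Real.exp p0)) (max (Real.exp 1) (Real.exp x))),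
    fun P hP f N' G' hdeg hlead hcont hcoef hbase hSt => ?_⟩
  have hPL : PL ≤ P := (le_max_left _ _).trans ((le_max_left _ _).trans hP)
  have hPF : PF ≤ P := (le_max_right _ _).trans ((le_max_left _ _).trans hP)
  have hPk : Pk ≤ P :=
    (le_max_left _ _).trans ((le_max_left _ _).trans ((le_max_right _ _).trans hP))
  have hPp : Real.exp p0 ≤ P :=
    (le_max_right _ _).trans ((le_max_left _ _).trans ((le_max_right _ _).trans hP))
  have hP1 : Real.exp 1 ≤ P :=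
    (le_max_left _ _).trans ((le_max_right _ _).trans ((le_max_right _ _).trans hP))
  have hPx : Real.exp x ≤ P :=
    (le_max_right _ _).trans ((le_max_right _ _).trans ((le_max_right _ _).trans hP))
  have hP0 : 0 < P := (Real.exp_pos _).trans_le hP1
  have hp0 : p0 ≤ Real.log P := by
    rw [Real.le_log_iff_exp_le hP0]
    exact hPp
  have hpx : x ≤ Real.log P := by
    rw [Real.le_log_iff_exp_le hP0]
    exact hPx
  have hp1 : 1 ≤ Real.log P := by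
    rw [Real.le_log_iff_exp_le hP0]
    exact hP1
  obtain ⟨mu, hst, hG'⟩ := hSt
  have hFit := hfit.fit κ hκ
  have hK0 : max (max (thrL κ) (thrF κ)) (max (2 ^ z.K1) K00) ≤ H387.K0fun par k R κ := by
    refine hFit.K0.trans ?_
    unfold H387.K0fun
    exact (le_max_left _ _).trans (le_max_left _ _)
  have hK0a : 2 ^ z.K1 ≤ H387.K0fun par k R κ :=
    ((le_max_left _ _).trans (le_max_right _ _)).trans hK0
  have hK0b : K00 ≤ H387.K0fun par k R κ :=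
    ((le_max_right _ _).trans (le_max_right _ _)).trans hK0
  refine H362.hlocat_of mu hk hR ((le_max_right _ _).trans (le_max_left _ _)) (le_max_right _ _)
    hdeg hlead hcont hbase hG' fun I hOk i1 i2 i3 i4 i5 i6 i7 i8 i9 => ?_
  subst i1 i2 i5 i6 i7 i8 i9
  have hAt : At C1 cs par I.k I.R κ I.P I := ⟨rfl, rfl, i3, i4, rfl, hOk, hst⟩
  have hIC : I.C1 = z.C1 := i4.trans hfit.eC1
  have hlaw := HL I.P hPL I hAt
  have hWF : H362.WF (par I.k I.R κ) I.k I.R I.P = Typ I.K0 I.C1 I.P := by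
    rw [WF_eq (par I.k I.R κ) I.k I.R I.K0 I.P i3, hFit.eC1, ← i4]
  have hat : H362.AtF (Typ I.K0 I.C1 I.P) (par I.k I.R κ) I.f I.N I.mu
      ((par I.k I.R κ).kp * I.P / 64) := by
    rw [← hWF]
    exact hst.toAtF
  have hb : (par I.k I.R κ).b = z.α / 16 := by rw [hFit.b, hfit.ecs]; rfl
  have hgr : (par I.k I.R κ).gr = z.α / 4 := by rw [hFit.gr, hfit.ecs]; rfl
  obtain ⟨K, w, w', s, rho, ee, k1, k2, k3, k4, k5⟩ := HK I κ _ (par I.k I.R κ)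
    (z.Q θ c0 cD (Real.log I.P)) rfl hOk (by rw [i3]; exact hK0b) hPk
    (by rw [hIC, hzC1]; have := hz.kap0; linarith) rfl rfl rfl hb hgr hat
  have hF1 : F1At I z θ K := HF I.P hPF I hAt K w w' s rho ee k4.ob
    (fun i => k4.rho1 i (mem_univ i)) (fun i => k4.e1 i (mem_univ i)) (fun i hi n n' => k2 i hi n n')
  exact end_at hz rfl hOk hIC hP1
    (by
      rw [i3, hx, hIC, hzC1]
      linarith) (by rw [i3]; exact hK0a) (HT _ hp0) hlaw k1 (fun i hi n m => k2 i hi n m) k4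
    (fun m _ hm hc => k5 m hm hc) hF1

open Classical in
/-- **THE LOCAL THEOREM** from its four parts -/
theorem locF_of (hB : BTSof) (hO : BOof) (hL : LawF) (hF : F1F) : H387.LocF := by
  have H := fun (k R : ℕ) (h : 2 ≤ k ∧ 1 ≤ R) => loc_kR hB hO hL hF k R h.1 h.2
  choose z thr thb h1 h2 h3 h4 using H
  refine ⟨fun _ => 4, fun _ => by norm_num,
    fun k R => if h : 2 ≤ k ∧ 1 ≤ R then cstOf (z k R h) else ⟨1, 1 / 4, 0, 1, 1⟩,
    fun k R _ => ?_, fun _ _ _ => 1, fun _ _ _ => one_pos,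
    fun k R κ => if h : 2 ≤ k ∧ 1 ≤ R then thr k R h κ else 0,
    fun k R κ n => if h : 2 ≤ k ∧ 1 ≤ R then thb k R h κ n else 1, fun k R κ n => ?_,
    fun par hfit => ?_⟩
  · beta_reduce
    by_cases h : 2 ≤ k ∧ 1 ≤ R
    · rw [dif_pos h]
      exact cstOk_of (h1 k R h)
    · rw [dif_neg h]
      exact ⟨one_pos, le_rfl, le_rfl, le_rfl⟩
  · beta_reduce
    by_cases h : 2 ≤ k ∧ 1 ≤ R
    · rw [dif_pos h]
      exact h3 k R h κ n
    · rw [dif_neg h]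
      exact one_pos
  · intro k R hk hR
    have h : 2 ≤ k ∧ 1 ≤ R := ⟨hk, hR⟩
    refine h4 k R h _ _ par ⟨(h2 k R h).symm, dif_pos h, fun κ hκ => ?_⟩
    have hq := hfit k R κ hk hκ
    have hthr := hq.K0
    have hthb := hq.be
    rw [dif_pos h] at hthr hthb
    exact ⟨hq.ok, hq.eC1, hq.g, hq.gr, hq.gc, hq.b, hq.ga, hq.kp, hthr, hthb⟩

end Vale.Agent.P042P.H860
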