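import Vale.Agent.P042PQ.H860Loc
import Vale.Agent.P042PQ.H945LawCore
import Vale.Agent.P042.H945.LawFin

set_option autoImplicit false

/-!
P042, prime arguments: port of `P042.H945.LawFin` to the pairs (polynomial, linear form).
-/

set_option linter.unusedSectionVars false

namespace Vale.Agent.P042P.H945
open Vale.Agent.P042 hiding AuxData AuxData.lam_le AuxData.lam_pos AuxData.natDegree_H DiffFree
  rMax
open Vale.Agent.P042.H945 hiding SysI cell_of_St dc_of_St lawF law_core law_inst num_of_St plaw_St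
  q0_le typ_not_dvd_q0 wcell_i

open Finset Filter

open Vale.Agent.P042.H860 (Typ Loc LocOk cstOf)
open Vale.Agent.P042P.H860 (Inst At LawAt LawF)

/-- **the law side** -/
theorem lawF : LawF := by
  intro k R z hk _ hz
  have hC1 := hz.C1
  have hγ0 := hz.γ0
  have hg0 := hz.g0
  have hgC : 0 < z.g * z.C1 := by positivity
  have hd1 : 0 ≤ z.d1 := by rw [hz.d1]; positivity
  have hγ1 : z.γ ≤ 1 := by
    have h1 := hz.γkap
    have h2 := hz.kap
    have h3 := hz.gC1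
    have h4 : z.g ≤ z.g * z.C1 := le_mul_of_one_le_right hg0.le (by linarith)
    rw [h2] at h1
    linarith
  have hkr : (2 : ℝ) ≤ k := by exact_mod_cast hk
  obtain ⟨K1, hcore⟩ := law_core hk (kap := z.kap) (Kc := 1) hC1 le_rfl hz.CK hz.G0 hz.G1 hz.d1CK hd1 hγ0 hγ1
    hz.αγ hz.a0
  refine ⟨fun _ => K1, fun _ n => thbL k R n, fun _ n => thbL_pos k R n,
    fun C1 cs par hFA => ?_⟩
  have hCk := hFA.eC1
  have hcs := hFA.ecs
  have hfit := hFA.fit
  refine ⟨1 / (64 * (k : ℝ)), by positivity, fun θ hθ hθk => ?_⟩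
  have hκs : 0 < min (1 / 2) (z.k0 * (z.γ * θ)) := by
    have := hz.k0
    refine lt_min (by norm_num) (by positivity)
  refine ⟨min (1 / 2) (z.k0 * (z.γ * θ)), hκs, fun κ hκ hκκ => ?_⟩
  have hF := hfit κ hκ
  obtain ⟨qp, hqp⟩ : ∃ qp, qp = par k R κ := ⟨_, rfl⟩
  have hkp0 : 0 < qp.kp := by rw [hqp]; exact hF.ok.kp0
  have hkpκ : qp.kp ≤ κ := by rw [hqp]; exact hF.ok.kpκ
  have hγe : (cs k R).γ = z.α := by rw [hcs]; rfl
  have hg : qp.g = z.α / 16 := by rw [hqp, hF.g, hγe]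
  have hb : qp.b = z.α / 16 := by rw [hqp, hF.b, hγe]
  have hga : qp.ga = z.α / 32 := by rw [hqp, hF.ga, hγe]
  have hbe1 : qp.be ≤ z.α / 32 := by
    have h1 := hF.ok.beb
    rw [← hqp, hb] at h1
    linarith
  have hkp1 : qp.kp ≤ z.α / 16 / (2560 * z.C1) := by
    have h1 := hF.ok.kpg
    rw [← hqp, hg, hqp, hF.eC1, hCk] at h1
    rw [hqp]
    exact h1
  refine ⟨qp.kp / 128, qp.kp, by positivity, hkp0,
    (hkpκ.trans hκκ).trans (min_le_right _ _), ?_⟩
  obtain ⟨P0, hP0⟩ := hcore R θ κ hθ.le hθk (hκκ.trans (min_le_left _ _)) qp hg hb hga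
    (by rw [hqp]; exact hF.ok.be0.le) hbe1 (by rw [hqp]; exact hF.be) hkp0 hkp1
    (H387.K0fun par k R κ) (by rw [hqp]; rfl) (by
      refine le_trans hF.K0 ?_
      exact (le_max_left _ _).trans (le_max_left _ _))
  refine ⟨P0, fun P hP I hI => ?_⟩
  intro ι _ _ q _ S es rs hmem hall hout hq0 hes
  have hst := hI.st
  rw [H860.WF_eq (par k R κ) k R (H387.K0fun par k R κ) P rfl, hF.eC1, hCk] at hst
  have hfam : H387.mkFam C1 cs par k R κ P =
      H972.famP 1 (z.CK - 1) (H387.K0fun par k R κ) z.C1 (2 * z.d1) 0 z.G (qp.kp / 16) P := by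
    unfold H387.mkFam
    rw [hcs, hCk, ← hqp]
    rfl
  rw [hfam, ← hqp] at hst
  exact hP0 P hP I hI.hk hI.hR hI.hK0 (by rw [hI.hC1, hCk]) hI.hP hI.ok hst ι q S es rs hmem hall
    hout hq0 hes

end Vale.Agent.P042P.H945
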