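import Vale.Agent.P042PQ.H362MfN
import Vale.Agent.P042PQ.H383NumS
import Vale.Agent.P042.H972.AtEv

set_option autoImplicit false

/-!
P042, prime arguments: port of `P042.H972.AtEv` to the pairs (polynomial, linear form).
-/

namespace Vale.Agent.P042P.H972
open Vale.Agent.P042 hiding AuxData AuxData.lam_le AuxData.lam_pos AuxData.natDegree_H DiffFree
  rMax
open Vale.Agent.P042.H972 hiding Mx_df StOf atEv base6_of stat_of sup_num

open Polynomial Finset
open Vale.Agent.P042.H599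
open Vale.Agent.P042.H945
open Vale.Agent.P042.H739 hiding Base6 GwTy LOWERF LOWat STat StTy
open Vale.Agent.P042.H383 hiding Om_le_F QP atoms atoms_F core_at dns_le_one edge edge_transport
  fields_core gain_atom gain_of_miss good_prime kN_of_edge kN_of_not_edge lam_one maxI_F mem_missA
  mem_missB mem_nbA mem_nbB miss missA missA_subset missB missB_subset miss_anti miss_le
  miss_mul_card miss_nbA miss_nbB miss_sdiff miss_transport mixing_card nbA nbA_card nbB nbB_card
  not_dvd_lam ok_PP_of ok_QP om0_F omB_F omF omF_le omF_rs omg omg_anti omg_le_const omg_le_klu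
  omg_le_sdiff omg_mono_of omg_nonneg omg_transport omt_F prx_at rows rows_F rows_aux
open Vale.Agent.P042P.H383
open Vale.Agent.P042.H74 hiding GamN GamN_coprime GamN_eq GamN_norm GamN_prime_norm GamN_tiny
  GamN_zero GamN_zero_one GamW GamW_eq_avC GamW_split GamW_zero_one NS NS_fer Ram Ram_mul Ram_one
  Ram_prime Ram_prod Ram_tiny Ram_tiny_zero Ram_zero Ram_zero_of_Wq Wq Wq_mul Wq_per Wq_zero
  Wq_zero_num Wq_zero_tiny avC_om avC_om_single deriv_fer_eval dns dns_fer dns_ge dns_pos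
  dvd_deriv_fer fer fer_coeff fer_const fer_eval fer_natDegree kN kN_form kN_per multFam_GamN
  neg_one_le_kN nonconst_fer om om_ne_zero om_per om_union sum_Ram_tiny sum_Wq
open Vale.Agent.P042P.H74
open Vale.Agent.P042.SS hiding Gam
open Vale.Agent.P042.H362 hiding AtEv AtF ErrQ FF6 HypF HypF.M_ge HypF.M_pos HypF.lamle MfEv QPF
  QlEv StF StF1 dnF exists_num len_num omF_OB sqQ
open Vale.Agent.P042P.H362

/-- the density of the classes modulo one prime at the maximiser -/
theorem sup_num {κ' : Type} {q : FP} {k R : ℕ} {κ c A P : ℝ} {fm : H599.Fam κ'} {h : PL}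
    {lam : ℕ → ℕ} {r : ℕ → ℤ} {Hh : ℕ → PL} {N : ℕ} {A0 : Finset ℤ} {d : ℕ} {a : ℤ} {M : ℕ}
    {x : ℕ → ℝ} (hq : FPOk q k κ) (hκ8 : κ ≤ 1 / 8) (hB : BigF q A P)
    (hf : FamQ q k R A P fm) (H : HypF q k R κ c P fm h lam r Hh N A0 d a M x)
    (hE : ErrQ q k R c P fm Hh lam M) {p : ℕ} (hp : p ∈ WF q k R P) (b : ℕ) :
    p * cm x 1 M p b ≤ (p : ℝ) ^ q.b / 2 := by
  have hP := hB.P64
  have hdn := dnF hq hκ8 hB hf H hE
  have hsq : SqF (QPF q k R P fm Hh lam) := sqQ hB hf
  obtain ⟨g1, g2, g3, g4, g5⟩ := (mem_WF (by linarith : 0 ≤ P)).1 hp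
  have hpr : (0 : ℝ) < p := by exact_mod_cast g1.pos
  have hp1 : (1 : ℝ) ≤ p := by exact_mod_cast g1.one_le
  have h1 := H362.dens H.mx hsq hdn p g1.squarefree
    ((WF_le hB hp).trans (Real.exp_le_exp.2 (by linarith [hB.D64])))
    (fun p' h1 h2 => by
      have : p' = p := (Nat.prime_dvd_prime_iff_eq h1 g1).1 h2
      rw [this]
      exact hp) b
  rw [Nat.Prime.primeFactors g1, sum_singleton] at h1
  refine h1.trans ?_
  have hk1 : (1 : ℝ) ≤ k := by exact_mod_cast (by have := H.k2; omega : 1 ≤ k)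
  have hlam := (H.lamle g1.one_le).2
  have hlp : 0 ≤ Real.log p := Real.log_nonneg hp1
  have hbe := hq.be0
  have hom := omN_le hq g2
  have hga : (p : ℝ) ^ (-q.ga) ≤ 1 := rneg_le_one g1.one_le hq.ga0.le
  have e1 : q.be / (4 * k) * Real.log (lam p) ≤ q.be / 4 * Real.log p := by
    calc q.be / (4 * k) * Real.log (lam p) ≤ q.be / (4 * k) * (k * Real.log p) :=
          mul_le_mul_of_nonneg_left hlam (by positivity)
      _ = q.be / 4 * Real.log p := by
          field_simp
  have e2 : q.be / 4 * Real.log p ≤ q.b / 8 * Real.log p :=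
    mul_le_mul_of_nonneg_right (by linarith [hq.beb]) hlp
  have e3 : alN q k lam (Real.exp (-(q.kp * P / 8))) p ≤ q.b / 4 * Real.log p + 5 / 8 := by
    unfold alN
    have := hB.be
    have := hq.beb
    have := hq.b1
    linarith
  have e4 : Real.exp (5 / 8) ≤ 2 := by
    rw [← Real.le_log_iff_exp_le (by norm_num)]
    have := Real.log_two_gt_d9
    linarith
  have e5 : Real.exp (q.b / 4 * Real.log p) = (p : ℝ) ^ (q.b / 4) := by
    rw [Real.rpow_def_of_pos hpr, mul_comm]
  have e6 := hq.K3 p g2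
  have e7 : (p : ℝ) ^ q.b = (p : ℝ) ^ (q.b / 4) * (p : ℝ) ^ (q.b / 4) * ((p : ℝ) ^ (q.b / 4) *
      (p : ℝ) ^ (q.b / 4)) := by
    rw [← Real.rpow_add hpr, ← Real.rpow_add hpr]
    congr 1
    ring
  obtain ⟨z, hz⟩ : ∃ z, z = (p : ℝ) ^ (q.b / 4) := ⟨_, rfl⟩
  rw [← hz] at e5 e6 e7
  calc Real.exp (alN q k lam (Real.exp (-(q.kp * P / 8))) p)
      ≤ Real.exp (q.b / 4 * Real.log p + 5 / 8) := Real.exp_le_exp.2 e3
    _ = z * Real.exp (5 / 8) := by rw [Real.exp_add, e5]
    _ ≤ z * 2 := mul_le_mul_of_nonneg_left e4 (by linarith)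
    _ ≤ z * z * (z * z) / 2 := by
        have h2 : 2 * 2 ≤ z * z := mul_le_mul e6 e6 (by norm_num) (by linarith)
        have h3 : z * 4 ≤ z * (z * z) := mul_le_mul_of_nonneg_left (by linarith) (by linarith)
        have h4 : z * (z * z) * 1 ≤ z * (z * z) * z :=
          mul_le_mul_of_nonneg_left (by linarith) (by positivity)
        nlinarith
    _ = (p : ℝ) ^ q.b / 2 := by rw [e7]

/-- **block 1 of the state theorem of the power regime** -/
theorem atEv : AtEv := by
  intro κ' q k R κ c fm hq hf hR hκ hκ8 hc hc1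
  obtain ⟨A, P0, hnum⟩ := exists_num hq hf hc1
  have hkp := kp_le hq
  obtain ⟨A', hA'⟩ : ∃ A', A' = max A q.C1 := ⟨_, rfl⟩
  obtain ⟨P1, hP1, hcore⟩ := fields_core (C1 := q.C1) (g := q.g) (gr := q.gr) (gc := q.gc)
    (c1 := q.kp) (κ := κ) (A := A') hq.C11 (by rw [hA']; exact le_max_right _ _) hq.g0 hq.g1
    hq.gc0.le hq.cr hq.gr1 hq.kp0 (by linarith) hκ8 k
  refine ⟨max P0 P1, fun P hP h lam r Hh N A0 d a M x H => ?_⟩
  obtain ⟨hA, hB, hfq, hcard, herr⟩ := hnum P ((le_max_left _ _).trans hP)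
  have hE := herr h lam r Hh N A0 d a M x H
  have hP64 := hB.P64
  have hkP : q.kp * P ≤ P / 2560 := by nlinarith [hq.kp0]
  have hkpos := hq.kp0
  have hPA : P ^ A ≤ P ^ A' :=
    Real.rpow_le_rpow_of_exponent_le (by linarith) (by rw [hA']; exact le_max_left _ _)
  have hmx : Mx (QPF q k R P (fm P) Hh lam) N A0 d a M x (c * P) := H.mx
  have key : ∀ p ∈ WF q k R P, _ := fun p hp =>
    hcore P ((le_max_right _ _).trans hP) κ' (fm P) hfq.ok (fun i hi => (hfq.K i hi).trans hPA)
      (fun i hi => by have := hfq.B i hi; linarith) h lam r Hh R H.aux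
      (by rw [H.deg]; have := H.k2; omega) H.deg (WF q k R P)
      (fun p hp => by
        obtain ⟨g1, g2, g3, g4, g5⟩ := (mem_WF (by linarith : 0 ≤ P)).1 hp
        exact ⟨g1, g3, g4.le, g5⟩) (q.be / (4 * k)) (2 * P ^ (1 - q.g / 5)) c hB.E1 hc.le hc1
      N A0 d a M x hmx H.lo H.hi p hp ((p : ℝ) ^ q.b / 2)
      (fun b => sup_num hq hκ8 hB hfq H hE hp b)
      (by
        obtain ⟨g1, g2, g3, g4, g5⟩ := (mem_WF (by linarith : 0 ≤ P)).1 hp
        have h1 := hq.K4 p g2
        have h2 : 0 ≤ (p : ℝ) ^ q.b := Real.rpow_nonneg (Nat.cast_nonneg _) _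
        have h3 : 0 ≤ (k : ℝ) ^ 2 := by positivity
        nlinarith [mul_nonneg h3 h2])
      (by
        obtain ⟨g1, g2, g3, g4, g5⟩ := (mem_WF (by linarith : 0 ≤ P)).1 hp
        have h1 := hq.K5 p g2
        have h2 : 0 ≤ (p : ℝ) ^ q.b := Real.rpow_nonneg (Nat.cast_nonneg _) _
        linarith)
  have hD0 : (QPF q k R P (fm P) Hh lam).D0 = q.kp * P := rfl
  have hlaw := core_law' H.mx
  rw [hD0] at hlaw
  have hcap := core_cap H.mx
  rw [hD0] at hcap
  exact
    { law := hlaw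
      nn := fun n => H362.core_nonneg H.mx n
      out := fun n hn => by
        obtain ⟨h1, h2, _⟩ := H.mx.mx.1.supp n (core_out (M := M) (x := x) n (q.kp * P) hn)
        exact ⟨h1, h2⟩
      cap := fun n => by
        have := hcap n
        rw [show 32 * (q.kp * P / 64) = q.kp * P / 2 by ring]
        exact this
      atom := fun p hp b => (key p hp).2.1 b
      sup := fun p hp b => by
        have := (key p hp).1 b
        linarith
      row := fun p hp b hb hb0 => (key p hp).2.2 b hb hb0 }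

end Vale.Agent.P042P.H972
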