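import Vale.Agent.P042PQ.H258F1St
import Vale.Agent.P042PQ.H362QlE
import Vale.Agent.P042PQ.H860HEnd
import Vale.Agent.P042PQ.H945LawFin
import Vale.Agent.P042PQ.H972AtEv
import Vale.Agent.P042.H860.Fin

set_option autoImplicit false

/-!
P042, prime arguments: port of `P042.H860.Fin` to the pairs (polynomial, linear form).
-/

namespace Vale.Agent.P042P.H860
open Vale.Agent.P042 hiding AuxData AuxData.lam_le AuxData.lam_pos AuxData.natDegree_H DiffFree
  rMax
open Vale.Agent.P042.H860 hiding At F1At F1F FBI HTail Inst Inst.PP Inst.S1 Inst.S2 Inst.f1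
  Inst.f2 Inst.g Inst.m1 Inst.m2 Inst.nu1 Inst.nu2 Inst.q0 Inst.q1 Inst.w' KlI LawAt LawF Ok Ok.NS
  Ok.PP_eq Ok.gdeg Ok.gp Ok.gpg Ok.not_dvd_q1 Ok.q0_pos Ok.q1_pos end_at lo loEquiv locF locF_of
  loc_kR prm ref2

/-- **the local theorem** -/
theorem locF : H387.LocF :=
  locF_of H92.btsof (H564.Oo.boof_of H92.btsof) H945.lawF H258.f1F

end Vale.Agent.P042P.H860
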