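import Vale.Agent.P042PQ.H860Glue
import Vale.Agent.P042PQ.H945PLawB
import Vale.Agent.P042.H945.PLawC

set_option autoImplicit false

/-!
P042, prime arguments: port of `P042.H945.PLawC` to the pairs (polynomial, linear form).
-/

set_option linter.unusedSectionVars false

namespace Vale.Agent.P042P.H945
open Vale.Agent.P042 hiding AuxData AuxData.lam_le AuxData.lam_pos AuxData.natDegree_H DiffFree
  rMax
open Vale.Agent.P042.H945 hiding SysI cell_of_St dc_of_St law_inst num_of_St plaw_St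
  typ_not_dvd_q0 wcell_i

open Finset Polynomial

open Vale.Agent.P042.H599 (cm Law bwt FamOk)

open Vale.Agent.P042.H858 (pf)

open Vale.Agent.P042.H438 (Rs uw)

open Vale.Agent.P042.H92 (Prm PLaw)

open Vale.Agent.P042.H362 (FP QL)
open Vale.Agent.P042P.H362 (StF1 AtF)

open Vale.Agent.P042.H860 (Typ mem_Typ rn)
open Vale.Agent.P042P.H860 (Inst)

open Vale.Agent.P042.H739 (Tst)

section

variable {ι : Type} {q : ι → ℕ} [∀ i, NeZero (q i)]

/-- a system of moduli for an instance: `S` = the typed primes -/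
structure SysI (I : Inst) {ι : Type} (q : ι → ℕ) (S : Finset ι) : Prop where
  two : ∀ i, 2 ≤ q i
  cop : Pairwise fun i j => (q i).Coprime (q j)
  mem : ∀ i ∈ S, q i ∈ Typ I.K0 I.C1 I.P
  all : ∀ p ∈ Typ I.K0 I.C1 I.P, ∃ i, q i = p
  out : ∀ i, i ∉ S → ∀ p ∈ Typ I.K0 I.C1 I.P, ¬ p ∣ q i
  q0 : ∀ i, (q i).Coprime I.q0

variable {I : Inst} {κ : ℝ} {S : Finset ι}

theorem typ_not_dvd_q0 (h : H860.Ok I κ) {p : ℕ} (hp : p ∈ Typ I.K0 I.C1 I.P) : ¬ p ∣ I.q0 := by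
  intro hd
  obtain ⟨_, h1, h2⟩ := mem_Typ.1 hp
  have h3 := h.tiny.mem_of_dvd_qnul h1 hd
  simp only [Tst, mem_filter, mem_range] at h3
  omega

/-- the cells of an instance -/
theorem wcell_i (h : H860.Ok I κ) (hs : SysI I q S) {z : ℕ} (w : ZMod I.q0)
    (hz : z + I.h0 ≤ I.N) (hd : (I.h0 : ℝ) / 2 ≤ I.q0 * H359.cmass I.G I.q0 w z I.h0) :
    WCell S q (rn q) (Typ I.K0 I.C1 I.P) I.mu I.N I.q0 w.val (z + 1) (z + I.h0) where
  rs := rs_rn hs.two hs.cop
  prime := fun p hp => (mem_Typ.1 hp).2.1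
  inS := hs.mem
  outS := hs.out
  cop := hs.q0
  copW := fun p hp => typ_not_dvd_q0 h hp
  D1 := h.q0_pos
  w := by
    have : NeZero I.q0 := ⟨by have := h.q0_pos; omega⟩
    exact ZMod.val_lt w
  u1 := by omega
  vM := hz
  big := by
    have h1 : z + I.h0 + 1 - (z + 1) = I.h0 := by omega
    rw [h1]
    exact_mod_cast h.hN
  dens := by
    have : NeZero I.q0 := ⟨by have := h.q0_pos; omega⟩
    have h1 : z + I.h0 + 1 - (z + 1) = I.h0 := by omega
    rw [h1]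
    rw [H359.cmass_eq h.hG w hz] at hd
    refine hd.trans (le_of_eq ?_)
    ring

variable [Fintype ι] [DecidableEq ι] {κ' : Type} {qp : FP} {fm : Vale.Agent.P042.H599.Fam κ'}
  {Dm Lq : ℝ} {Q : Prm}

/-- **the two laws of an instance** -/
theorem law_inst (h : H860.Ok I κ) (hs : SysI I q S)
    (st : StF1 (Typ I.K0 I.C1 I.P) qp fm I.f I.N I.mu Dm Lq) {Mm : ℕ} (hf : FamOk fm Mm)
    (K : WNum Q (Typ I.K0 I.C1 I.P) qp I.q0 I.N Dm Lq) {es : ι → ℝ}
    (hes : ∀ i ∈ S, Real.log (q i) ≤ es i) {K0 : ℕ} (hK0 : K0 ≤ I.K0)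
    (hfam : H103.FamNum fm Q (Typ I.K0 I.C1 I.P) K0 Q.a0 Dm) :
    PLaw Q S (fun i => Real.log (q i)) es (lamR S q (rn q) I.mu I.N) (uw q)
        (pf (rn q) I.nu1 1 I.N) ∧
      PLaw Q S (fun i => Real.log (q i)) es (lamR S q (rn q) I.mu I.N) (uw q)
        (pf (rn q) I.nu2 1 I.N) := by
  have hon : H103.FamOn fm Q S es q I.q0 Q.a0 Dm := by
    refine H103.famOn_of hfam (fun i hi => ⟨hs.mem i hi, hes i hi⟩) (fun p hp => ⟨?_, hs.all p hp⟩)
      fun p hp => hK0.trans_lt (mem_Typ.1 hp).2.2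
    exact (Nat.Prime.coprime_iff_not_dvd (mem_Typ.1 hp).2.1).2 (typ_not_dvd_q0 h hp)
  exact ⟨plaw_St st hf (wcell_i h hs I.w h.z1N h.ma1) K es hon,
    plaw_St st hf (wcell_i h hs I.w' h.z2N h.ma2) K es hon⟩

end

end Vale.Agent.P042P.H945
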