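import Vale.Agent.P042PQ.H362QlE
import Vale.Agent.P042PQ.H972AtEv
import Vale.Agent.P042U.St

set_option autoImplicit false

/-!
P042, prime arguments: port of `P042U.St` to the pairs (polynomial, linear form).
-/

namespace Vale.Agent.P042P.U
open Vale.Agent.P042 hiding AuxData AuxData.lam_le AuxData.lam_pos AuxData.natDegree_H DiffFree
  rMax
open Vale.Agent.P042U hiding STATEU stateU

open Polynomial Finset
open Vale.Agent.P042 hiding AuxData AuxData.lam_le AuxData.lam_pos AuxData.natDegree_H DiffFree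
  rMax
open Vale.Agent.P042.H599
open Vale.Agent.P042.H945
open Vale.Agent.P042.H739 hiding Base6 GwTy LOWERF LOWat STat StTy
open Vale.Agent.P042.H972 hiding Mx_df StOf atEv base6_of stat_of sup_num
open Vale.Agent.P042P.H972
open Vale.Agent.P042.H383 hiding Om_le_F QP atoms atoms_F core_at dns_le_one edge edge_transport
  fields_core gain_atom gain_of_miss good_prime kN_of_edge kN_of_not_edge lam_one maxI_F mem_missA
  mem_missB mem_nbA mem_nbB miss missA missA_subset missB missB_subset miss_anti miss_le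
  miss_mul_card miss_nbA miss_nbB miss_sdiff miss_transport mixing_card nbA nbA_card nbB nbB_card
  not_dvd_lam ok_PP_of ok_QP om0_F omB_F omF omF_le omF_rs omg omg_anti omg_le_const omg_le_klu
  omg_le_sdiff omg_mono_of omg_nonneg omg_transport omt_F prx_at rows rows_F rows_aux
open Vale.Agent.P042P.H383
open Vale.Agent.P042.H74 hiding GamN GamN_coprime GamN_eq GamN_norm GamN_prime_norm GamN_tiny
  GamN_zero GamN_zero_one GamW GamW_eq_avC GamW_split GamW_zero_one NS NS_fer Ram Ram_mul Ram_one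
  Ram_prime Ram_prod Ram_tiny Ram_tiny_zero Ram_zero Ram_zero_of_Wq Wq Wq_mul Wq_per Wq_zero
  Wq_zero_num Wq_zero_tiny avC_om avC_om_single deriv_fer_eval dns dns_fer dns_ge dns_pos
  dvd_deriv_fer fer fer_coeff fer_const fer_eval fer_natDegree kN kN_form kN_per multFam_GamN
  neg_one_le_kN nonconst_fer om om_ne_zero om_per om_union sum_Ram_tiny sum_Wq
open Vale.Agent.P042P.H74
open Vale.Agent.P042.SS hiding Gam
open Vale.Agent.P042.H362 hiding AtEv AtF ErrQ FF6 HypF HypF.M_ge HypF.M_pos HypF.lamle KF_QPF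
  MfEv QPF QlEv StF StF1 cell_num cost_le dnF exists_num len_num mQ_le mfEv omF_OB qlEv sqQ
open Vale.Agent.P042P.H362

/-- **the state theorem, uniform in the polynomial** -/
theorem stateU {κ' : Type} (par : ℕ → ℕ → ℝ → FP) (fam : ℕ → ℕ → ℝ → ℝ → H599.Fam κ')
    (hpar : ∀ (k R : ℕ) (κ : ℝ), 2 ≤ k → 1 ≤ R → 0 < κ → κ ≤ 1 / 8 → FPOk (par k R κ) k κ)
    (hfam : ∀ (k R : ℕ) (κ : ℝ), 2 ≤ k → 1 ≤ R → 0 < κ → κ ≤ 1 / 8 →
      FamP (par k R κ) k R (fam k R κ)) : STATEU (StF par fam) := by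
  intro k R κ hk2 hR1 hκ hκ8
  obtain ⟨q, hqd⟩ : ∃ q, q = par k R κ := ⟨_, rfl⟩
  have hq := hpar k R κ hk2 hR1 hκ hκ8
  have hf := hfam k R κ hk2 hR1 hκ hκ8
  rw [← hqd] at hq hf
  have hk1 : (1 : ℝ) ≤ k := by exact_mod_cast (by omega : 1 ≤ k)
  have hg0 := hq.g0
  have hbe0 := hq.be0
  have hc1p := hq.kp0
  have hc1b := hq.kpκ
  have he0 : 0 < q.be / (4 * k) := by positivity
  obtain ⟨A, Pf, _, hfam'⟩ := hf.ev
  obtain ⟨Po, hok⟩ := ok_QP hq.C11 k hq.g0 hq.g1 hq.cr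
  obtain ⟨ca, hca, Hnum⟩ := num_pw (s := q.g / 5) (A := 2) (by positivity) (by norm_num) hκ he0
    hc1p
  obtain ⟨c, hc⟩ : ∃ c, c = min ca 1 := ⟨_, rfl⟩
  have hcp : 0 < c := by rw [hc]; exact lt_min hca one_pos
  have hc1 : c ≤ 1 := by rw [hc]; exact min_le_right _ _
  obtain ⟨Pb, hnum⟩ := Hnum c hcp (by rw [hc]; exact min_le_left _ _)
  obtain ⟨P1, h1⟩ := atEv q k R κ c (fam k R κ) hq hf hR1 hκ hκ8 hcp hc1
  obtain ⟨P2, h2⟩ := mfEv q k R κ c (fam k R κ) hq hf hR1 hκ hκ8 hcp hc1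
  obtain ⟨P3, h3⟩ := qlEv q k R κ c (fam k R κ) hq hf hR1 hκ hκ8 hcp hc1
  refine ⟨c, hcp, max (max (max Pf (max Po 2)) Pb) (max P1 (max P2 P3)),
    fun h lam r Hh hAux hdeg hpos P hP => ?_⟩
  simp only [max_le_iff] at hP
  obtain ⟨⟨⟨hPf, hPo, hP2⟩, hPb⟩, hP1', hP2', hP3'⟩ := hP
  have hP0 : 0 < P := by linarith
  obtain ⟨-, hPP, hnum⟩ := hnum P hPb
  have q1 : Ok (QPF q k R P (fam k R κ P) Hh lam) := by
    refine hok P hPo κ' (fam k R κ P) h lam r Hh R hAux (by omega) hdeg (WF q k R P) ?_ (MmP P)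
      (hfam' P hPf).1 (MmP_ge P) (q.be / (4 * k)) (q.kp * P) ?_ ?_ ?_ ?_
    · intro p hp
      obtain ⟨h1, h2, h3, h4, h5⟩ := (mem_WF hP0.le).1 hp
      exact ⟨h1, h3, h4.le, h5⟩
    · positivity
    · rw [div_le_one (by positivity)]
      have h1 := hq.beb
      have h2 := hq.b1
      linarith
    · positivity
    · exact mul_le_mul_of_nonneg_right hq.kpg hP0.le
  obtain ⟨n0, n1, n2, n3⟩ := hnum (2 * P ^ (1 - q.g / 5)) le_rfl
  have hN : Num (QPF q k R P (fam k R κ P) Hh lam) κ (c * P) P :=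
    ⟨n0, n1, n2, MmP_le_exp hP2, n3⟩
  refine stat_of q1 hAux hN (fun f N' mu => FF6 par fam k R f κ P N' mu) ?_
  intro N A0 d a M x hlog hm hlo hhi
  have hlaw := core_law' hm
  have hcap := core_cap hm
  refine ⟨core x M (q.kp * P), hlaw, fun n hn => core_out n _ hn, fun n => ?_, ?_⟩
  · refine (hcap n).trans ?_
    have h9 : (2 : ℝ) ≤ Real.exp 1 := by linarith [Real.add_one_le_exp (1 : ℝ)]
    have h10 : q.kp * P ≤ κ * P := mul_le_mul_of_nonneg_right hc1b hP0.le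
    calc 2 * Real.exp (q.kp * P / 2)
        ≤ Real.exp 1 * Real.exp (q.kp * P / 2) :=
          mul_le_mul_of_nonneg_right h9 (Real.exp_pos _).le
      _ = Real.exp (1 + q.kp * P / 2) := (Real.exp_add _ _).symm
      _ ≤ Real.exp (κ * P) := Real.exp_le_exp.2 (by linarith)
  · have hH : HypF q k R κ c P (fam k R κ P) h lam r Hh N A0 d a M x :=
      ⟨hAux, hdeg, hk2, hpos, hm, hlo, hhi⟩
    have g1 := h1 P hP1' h lam r Hh N A0 d a M x hH
    have g2 := h2 P hP2' h lam r Hh N A0 d a M x hH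
    have g3 := h3 P hP3' h lam r Hh N A0 d a M x hH g1
    subst hqd
    exact ⟨g1, g2, g3⟩

end Vale.Agent.P042P.U
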