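import Vale.Agent.P042PQ.H739LowG
import Vale.Agent.P042PQ.H860Fin
import Vale.Agent.P042PQ.H387Par
import Vale.Agent.P042PQ.USt

set_option autoImplicit false

/-!
P042, prime arguments: the state and the lower bound of the local part.
-/

namespace Vale.Agent.P042P

open Vale.Agent.P042.H739 (Q0s)
open Vale.Agent.P042.H387 (mkFam K0fun Q0fun)

/-- **block PORT** -/
theorem port : PORT := by
  obtain ⟨C1, hC1, cs, hcs, thk, hthk, thr, thb, hthb, hloc⟩ := H860.locF
  obtain ⟨par, h1, h2, h3, h4, h5⟩ := H387.constants C1 (fun k _ => by linarith [hC1 k]) cs hcs thk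
    hthk thr thb hthb Q0s
  exact ⟨C1, H362.StF par (mkFam C1 cs par), fun k => by linarith [hC1 k],
    U.stateU par (mkFam C1 cs par) (fun k R κ hk _ hκ _ => h2 k R κ hk hκ)
      (fun k R κ hk _ hκ _ => h3 k R κ hk hκ),
    H739.lowerF_of (K0f := K0fun par) (Q0f := Q0fun Q0s par) hC1 (fun k R _ _ K00 => h4 k R K00)
      (fun _ _ _ => le_rfl) h5 (hloc par h1)⟩

end Vale.Agent.P042P
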